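import Vale.Agent.Lib.P371.Gen.Klein

/-! # P371 Gen: power identities and Klein for powers (module Alg)

`young_mat`: `exists_ovl` and the scalar inequality `w d ≤ cp θ w^{1+θ} + d^{1+1/θ}`.
`tp_swap`: `V Vᴴ` and `Vᴴ V` have the same nonzero eigenvalues with multiplicity
(`Matrix.charpoly_mul_comm'` or so, or continuity and polynomials), and `0^q = 0`.
`tp_eq_trPow`: definitions. `tp_le`: `∑ e_i^q ≤ (∑ e_i)^q` for `q ≥ 1`, `e_i ≥ 0`.
`tp_smul_rpow`: `tr (q A^s)^{1+θ} = q^{1+θ} tr A^{s(1+θ)}`, `s (1+θ) = 1 + 1/θ` for `s = 1/θ`,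
and `cp θ (1+1/θ)^{1+θ} = 1/θ`. -/

open Matrix Set MeasureTheory
open scoped ComplexOrder

namespace Vale.Agent.P371.Gen

variable {n : Type*} [Fintype n] [DecidableEq n]

private theorem alg_cp {θ : ℝ} (h0 : 0 < θ) : cp θ * (1 + 1 / θ) ^ (1 + θ) = 1 / θ := by
  unfold cp
  have h1 : 1 + 1 / θ = (1 + θ) / θ := by
    field_simp
    ring
  rw [h1, Real.div_rpow (by positivity) h0.le]
  have h2 : θ ^ (1 + θ) = θ * θ ^ θ := by
    rw [Real.rpow_add h0, Real.rpow_one]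
  rw [h2]
  have h3 : (1 + θ) ^ (1 + θ) ≠ 0 := by positivity
  have h4 : θ ^ θ ≠ 0 := by positivity
  field_simp

theorem tp_smul_rpow {θ : ℝ} (h0 : 0 < θ) {A : Matrix n n ℂ} (hA : A.PosSemidef) :
    cp θ * tp (1 + θ) (((1 + 1 / θ : ℝ) : ℂ) • mf (fun t => t ^ (1 / θ)) A)
      = (1 / θ) * tp (1 + 1 / θ) A := by
  have hH := hA.isHermitian
  have hq : 0 < 1 + 1 / θ := by positivity
  unfold tp
  rw [← mf_const_mul hH, mf_comp hH, rtr_mf hH, rtr_mf hH, Finset.mul_sum, Finset.mul_sum]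
  refine Finset.sum_congr rfl fun i _ => ?_
  have ha := hA.eigenvalues_nonneg i
  rw [Real.mul_rpow hq.le (Real.rpow_nonneg ha _), ← Real.rpow_mul ha, ← mul_assoc, alg_cp h0]
  congr 2
  field_simp
  ring

theorem rtr_smul_rpow_mul {θ : ℝ} (h0 : 0 < θ) {A : Matrix n n ℂ} (hA : A.PosSemidef) :
    rtr ((((1 + 1 / θ : ℝ) : ℂ) • mf (fun t => t ^ (1 / θ)) A) * A)
      = (1 + 1 / θ) * tp (1 + 1 / θ) A := by
  have hH := hA.isHermitian
  have h1 : (((1 + 1 / θ : ℝ) : ℂ) • mf (fun t => t ^ (1 / θ)) A) * A =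
      mf (fun t => (1 + 1 / θ) * t ^ (1 / θ) * t) A := by
    rw [mf_mul hH, mf_const_mul hH, mf_id hH]
  unfold tp
  rw [h1, rtr_mf hH, rtr_mf hH, Finset.mul_sum]
  refine Finset.sum_congr rfl fun i _ => ?_
  have ha := hA.eigenvalues_nonneg i
  rw [mul_assoc]
  congr 1
  rw [add_comm 1 (1 / θ), Real.rpow_add_one' ha (by positivity)]

private theorem alg_scalar_ge {γ a b : ℝ} (hγ : 1 ≤ γ) (ha : 0 ≤ a) (hb : 0 < b) :
    b ^ γ + γ * b ^ (γ - 1) * (a - b) ≤ a ^ γ := by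
  have h1 := one_add_mul_self_le_rpow_one_add (s := a / b - 1) (by
    have : 0 ≤ a / b := by positivity
    linarith) hγ
  have h2 : 1 + (a / b - 1) = a / b := by ring
  rw [h2, Real.div_rpow ha hb.le, le_div_iff₀ (by positivity)] at h1
  have h3 : b ^ γ = b ^ (γ - 1) * b := by
    rw [← Real.rpow_add_one hb.ne']
    congr 1
    ring
  refine le_trans (le_of_eq ?_) h1
  rw [h3]
  field_simp

private theorem alg_scalar_le {γ a b : ℝ} (hγ0 : 0 < γ) (hγ : γ ≤ 1) (ha : 0 ≤ a) (hb : 0 < b) :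
    a ^ γ ≤ b ^ γ + γ * b ^ (γ - 1) * (a - b) := by
  have h1 := rpow_one_add_le_one_add_mul_self (s := a / b - 1) (by
    have : 0 ≤ a / b := by positivity
    linarith) hγ0.le hγ
  have h2 : 1 + (a / b - 1) = a / b := by ring
  rw [h2, Real.div_rpow ha hb.le, div_le_iff₀ (by positivity)] at h1
  have h3 : b ^ γ = b ^ (γ - 1) * b := by
    rw [← Real.rpow_add_one hb.ne']
    congr 1
    ring
  refine le_trans h1 (le_of_eq ?_)
  rw [h3]
  field_simp

/-- Klein for `t ↦ t^γ`, `γ ≥ 1`. -/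
theorem alg_ge {γ : ℝ} (hγ : 1 ≤ γ) {M E : Matrix n n ℂ} (hM : M.PosDef) (hE : E.PosSemidef) :
    tp γ M + γ * rtr (mf (fun t => t ^ (γ - 1)) M * (E - M)) ≤ tp γ E := by
  have hMH := hM.isHermitian
  have hEH := hE.isHermitian
  have h := klein hEH hMH (f := fun t => t ^ γ) (f' := fun t => γ * t ^ (γ - 1))
    (fun i j => alg_scalar_ge hγ (hE.eigenvalues_nonneg i) (hM.eigenvalues_pos j))
  rw [mf_const_mul hMH, Matrix.smul_mul] at h
  have h2 : rtr (((γ : ℝ) : ℂ) • (mf (fun t => t ^ (γ - 1)) M * (E - M))) =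
      γ * rtr (mf (fun t => t ^ (γ - 1)) M * (E - M)) := by
    unfold rtr
    rw [Matrix.trace_smul, smul_eq_mul, Complex.re_ofReal_mul]
  rw [h2] at h
  exact h

/-- Klein for the concave function `t ↦ t^γ`, `γ < 1`, at `E + δ`, and `(e + δ)^γ ≤ e^γ + δ^γ`. -/
theorem alg_lt {γ : ℝ} (hγ0 : 0 < γ) (hγ : γ ≤ 1) {M E : Matrix n n ℂ} (hM : M.PosSemidef)
    (hE : E.PosSemidef) {δ : ℝ} (hδ : 0 < δ) :
    tp γ M ≤ tp γ E + Fintype.card n * δ ^ γ
      + γ * rtr (mf (fun t => (t + δ) ^ (γ - 1)) E * (M - E)) := by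
  have hMH := hM.isHermitian
  have hEH := hE.isHermitian
  have h := klein hMH hEH (f := fun t => (-1) * (t + δ) ^ γ)
    (f' := fun t => (-γ) * (t + δ) ^ (γ - 1)) (fun i j => by
      have ha := hM.eigenvalues_nonneg i
      have hb := hE.eigenvalues_nonneg j
      have := alg_scalar_le hγ0 hγ (a := hMH.eigenvalues i + δ) (b := hEH.eigenvalues j + δ)
        (by linarith) (by linarith)
      have e : hMH.eigenvalues i + δ - (hEH.eigenvalues j + δ) =
        hMH.eigenvalues i - hEH.eigenvalues j := by ring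
      rw [e] at this
      linarith)
  rw [mf_const_mul hEH (-γ), Matrix.smul_mul] at h
  have h2 : rtr (((-γ : ℝ) : ℂ) • (mf (fun t => (t + δ) ^ (γ - 1)) E * (M - E))) =
      (-γ) * rtr (mf (fun t => (t + δ) ^ (γ - 1)) E * (M - E)) := by
    unfold rtr
    rw [Matrix.trace_smul, smul_eq_mul, Complex.re_ofReal_mul]
  rw [h2, rtr_mf hEH, rtr_mf hMH, ← Finset.mul_sum, ← Finset.mul_sum] at h
  have h3 : tp γ M ≤ ∑ i, (hMH.eigenvalues i + δ) ^ γ := by
    unfold tp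
    rw [rtr_mf hMH]
    refine Finset.sum_le_sum fun i _ => ?_
    exact Real.rpow_le_rpow (hM.eigenvalues_nonneg i) (by linarith) hγ0.le
  have h4 : ∑ i, (hEH.eigenvalues i + δ) ^ γ ≤ tp γ E + Fintype.card n * δ ^ γ := by
    unfold tp
    rw [rtr_mf hEH]
    calc ∑ i, (hEH.eigenvalues i + δ) ^ γ ≤ ∑ i, ((hEH.eigenvalues i) ^ γ + δ ^ γ) :=
          Finset.sum_le_sum fun i _ =>
            Real.rpow_add_le_add_rpow (hE.eigenvalues_nonneg i) hδ.le hγ0.le hγ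
      _ = _ := by
          rw [Finset.sum_add_distrib, Finset.sum_const, nsmul_eq_mul, Finset.card_univ]
  linarith

end Vale.Agent.P371.Gen
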