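import Vale.Agent.Lib.P371.Defs

/-! # Definitions for the proof of the Lieb-Thirring conjecture on the line, `1/2 < γ < 3/2` -/

open Matrix Set MeasureTheory
open scoped ComplexOrder

namespace Vale.Agent.P371.Gen

variable {n : Type*} [Fintype n] [DecidableEq n]

/-- The real part of the trace. -/
noncomputable def rtr (A : Matrix n n ℂ) : ℝ := A.trace.re

/-- Functional calculus of a Hermitian matrix. -/
noncomputable def mf (f : ℝ → ℝ) (A : Matrix n n ℂ) : Matrix n n ℂ := cfc f A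

/-- Square root of a positive semidefinite matrix. -/
noncomputable def msqrt (A : Matrix n n ℂ) : Matrix n n ℂ := mf Real.sqrt A

/-- `K_l = (E + l)^{1/2}`. -/
noncomputable def Kl (l : ℝ) (E : Matrix n n ℂ) : Matrix n n ℂ := mf (fun e => Real.sqrt (e + l)) E

/-- `L_l = log (K_l + Y) + log (K_l - Y)`. -/
noncomputable def LL (l : ℝ) (E Y : Matrix n n ℂ) : Matrix n n ℂ :=
  mf Real.log (Kl l E + Y) + mf Real.log (Kl l E - Y)

/-- `B_l = L_l - log l`. -/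
noncomputable def BB (l : ℝ) (E Y : Matrix n n ℂ) : Matrix n n ℂ :=
  LL l E Y - ((Real.log l : ℝ) : ℂ) • (1 : Matrix n n ℂ)

/-- `tr A^p`. -/
noncomputable def tp (p : ℝ) (A : Matrix n n ℂ) : ℝ := rtr (mf (fun t => t ^ p) A)

/-- `g(l) = tr ((X + l) B_l)`, `X = E - Y^2`. -/
noncomputable def gg (E Y : Matrix n n ℂ) (l : ℝ) : ℝ :=
  rtr ((E - Y * Y + (l : ℂ) • (1 : Matrix n n ℂ)) * BB l E Y)

/-- The scalar function `sigma_l(x) = (x + l) log (1 + x / l) - x`. -/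
noncomputable def sig (l x : ℝ) : ℝ := (x + l) * Real.log (1 + x / l) - x

/-- The constant `kappa_θ = ∫_0^∞ l^{θ-1} log (1 + 1/l) dl`. -/
noncomputable def kap (θ : ℝ) : ℝ := ∫ l in Ioi (0 : ℝ), l ^ (θ - 1) * Real.log (1 + 1 / l)

/-- The constant `c_p = θ^θ / (1+θ)^{1+θ}`, `p = 1 + θ`. -/
noncomputable def cp (θ : ℝ) : ℝ := θ ^ θ / (1 + θ) ^ (1 + θ)

/-- `∫_0^1 (1 - y^2)^θ dy`. -/
noncomputable def II (θ : ℝ) : ℝ := ∫ y in (0 : ℝ)..1, (1 - y ^ 2) ^ θ

/-- Entrywise derivative of a matrix valued function on `[a, b]`. -/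
def HasMD (Y Y' : ℝ → Matrix n n ℂ) (a b : ℝ) : Prop :=
  ∀ x ∈ Icc a b, ∀ i j, HasDerivWithinAt (fun t => Y t i j) (Y' x i j) (Icc a b) x

/-- `Y` solves the Riccati equation `Y' = Y^2 - E + W` on `[a, b]` with `Y a = - √E`. -/
structure IsRic (a b : ℝ) (W : ℝ → Matrix n n ℂ) (E : Matrix n n ℂ) (Y : ℝ → Matrix n n ℂ) :
    Prop where
  herm : ∀ x ∈ Icc a b, (Y x).IsHermitian
  init : Y a = -(msqrt E)
  deriv : HasMD Y (fun x => Y x * Y x - E + W x) a b

/-- The admissible energies: `E ≥ 0` for which the Riccati solution exists on `[a, b]` and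
satisfies `Y b ≤ √E`. -/
def Adm (a b : ℝ) (W : ℝ → Matrix n n ℂ) : Set (Matrix n n ℂ) :=
  {E | E.PosSemidef ∧ ∃ Y : ℝ → Matrix n n ℂ, IsRic a b W E Y ∧ (msqrt E - Y b).PosSemidef}

end Vale.Agent.P371.Gen
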