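import Vale.Agent.Lib.P371.Gen.Scalar

/-! # P371 Gen: the scalar boundary term (module Bdry)

`bdry_eq`: with `η(u) = u log u - u`, the derivative in `y` of
`η(√(κ^2+l) + y) - η(√(κ^2+l) - y) - y log l` is `log (κ^2 + l - y^2) - log l
= log (1 + (κ^2 - y^2)/l)`, and the function vanishes at `y = 0`.
`int_bdry`: Tonelli and `int_log`: `∫_0^κ kap θ (κ^2 - y^2)^θ dy = kap θ κ^{2θ+1} II θ`.
`II_eq`: Beta function: `II θ = (1/2) B(1/2, θ+1) = √π Γ(θ+1) / (2 Γ(θ+3/2))`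
(substitute `y = √u`; Mathlib: `Complex.betaIntegral`, `Complex.Gamma_mul_Gamma_eq_betaIntegral`,
or `ProbabilityTheory.beta` as in `Lib/P371/UpperLT.lean`).
`cp_div`: `cp θ / (2 II θ) = Lone (θ + 1/2)` with `Lone γ = 2 ((γ-1/2)/(γ+1/2))^(γ-1/2) Lcl γ`,
`Lcl γ = Γ(γ+1) / (2 √π Γ(γ+3/2))`, `Γ(θ+2) = (θ+1) Γ(θ+1)`. -/

open Set MeasureTheory

namespace Vale.Agent.P371.Gen

/-- `η(u) = u log u - u`. -/
noncomputable def eta (u : ℝ) : ℝ := u * Real.log u - u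

/-- The scalar boundary term. -/
noncomputable def bd (κ l : ℝ) : ℝ :=
  eta (Real.sqrt (κ ^ 2 + l) + κ) - eta (Real.sqrt (κ ^ 2 + l) - κ) - κ * Real.log l

theorem hasDerivAt_eta {u : ℝ} (hu : u ≠ 0) : HasDerivAt eta (Real.log u) u := by
  have h := ((hasDerivAt_id u).mul (Real.hasDerivAt_log hu)).sub (hasDerivAt_id u)
  have h2 : (1 : ℝ) * Real.log u + id u * u⁻¹ - 1 = Real.log u := by
    simp only [id]
    field_simp
    ring
  rw [h2] at h
  exact h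

theorem lt_sqrt_add {κ l : ℝ} (hl : 0 < l) : κ < Real.sqrt (κ ^ 2 + l) := by
  apply Real.lt_sqrt_of_sq_lt
  linarith

theorem continuousOn_bdlog {κ l : ℝ} (hl : 0 < l) :
    ContinuousOn (fun y => Real.log (1 + (κ ^ 2 - y ^ 2) / l)) (Icc 0 κ) := by
  refine ContinuousOn.log (by fun_prop) fun y hy => ?_
  have : 0 ≤ (κ ^ 2 - y ^ 2) / l := div_nonneg (by nlinarith [hy.1, hy.2]) hl.le
  positivity

theorem bdry_eq {κ l : ℝ} (hκ : 0 ≤ κ) (hl : 0 < l) :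
    bd κ l = ∫ y in (0 : ℝ)..κ, Real.log (1 + (κ ^ 2 - y ^ 2) / l) := by
  have hR := lt_sqrt_add (κ := κ) hl
  have hR2 : Real.sqrt (κ ^ 2 + l) ^ 2 = κ ^ 2 + l := Real.sq_sqrt (by positivity)
  have h := intervalIntegral.integral_eq_sub_of_hasDerivAt (a := 0) (b := κ)
    (f := fun y => eta (Real.sqrt (κ ^ 2 + l) + y) - eta (Real.sqrt (κ ^ 2 + l) - y)
      - y * Real.log l)
    (f' := fun y => Real.log (1 + (κ ^ 2 - y ^ 2) / l)) (fun y hy => ?_) ?_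
  · rw [h]
    simp [bd]
  · rw [uIcc_of_le hκ] at hy
    have h1 : 0 < Real.sqrt (κ ^ 2 + l) + y := by linarith [hy.1]
    have h2 : 0 < Real.sqrt (κ ^ 2 + l) - y := by linarith [hy.2]
    have d1 : HasDerivAt (fun y => eta (Real.sqrt (κ ^ 2 + l) + y))
        (Real.log (Real.sqrt (κ ^ 2 + l) + y) * 1) y := by
      have := (hasDerivAt_eta h1.ne').comp y ((hasDerivAt_id y).const_add (Real.sqrt (κ ^ 2 + l)))
      exact this
    have d2 : HasDerivAt (fun y => eta (Real.sqrt (κ ^ 2 + l) - y))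
        (Real.log (Real.sqrt (κ ^ 2 + l) - y) * (-1)) y := by
      have := (hasDerivAt_eta h2.ne').comp y ((hasDerivAt_id y).const_sub (Real.sqrt (κ ^ 2 + l)))
      exact this
    have d3 : HasDerivAt (fun y => eta (Real.sqrt (κ ^ 2 + l) + y)
        - eta (Real.sqrt (κ ^ 2 + l) - y) - y * Real.log l)
        (Real.log (Real.sqrt (κ ^ 2 + l) + y) * 1 - Real.log (Real.sqrt (κ ^ 2 + l) - y) * -1
          - 1 * Real.log l) y :=
      (d1.sub d2).sub ((hasDerivAt_id y).mul_const (Real.log l))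
    refine d3.congr_deriv ?_
    have h3 : 1 + (κ ^ 2 - y ^ 2) / l
        = (Real.sqrt (κ ^ 2 + l) + y) * (Real.sqrt (κ ^ 2 + l) - y) / l := by
      have : (Real.sqrt (κ ^ 2 + l) + y) * (Real.sqrt (κ ^ 2 + l) - y) = κ ^ 2 + l - y ^ 2 := by
        nlinarith
      rw [this]
      field_simp
      ring
    rw [h3, Real.log_div (mul_pos h1 h2).ne' hl.ne', Real.log_mul h1.ne' h2.ne']
    ring
  · refine ContinuousOn.intervalIntegrable ?_
    rw [uIcc_of_le hκ]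
    exact continuousOn_bdlog hl

theorem bd_nonneg {κ l : ℝ} (hκ : 0 ≤ κ) (hl : 0 < l) : 0 ≤ bd κ l := by
  rw [bdry_eq hκ hl]
  refine intervalIntegral.integral_nonneg hκ fun y hy => ?_
  apply Real.log_nonneg
  have : 0 ≤ (κ ^ 2 - y ^ 2) / l := div_nonneg (by nlinarith [hy.1, hy.2]) hl.le
  linarith

/-- The integrand of the double integral. -/
noncomputable def bG (θ κ : ℝ) (z : ℝ × ℝ) : ℝ :=
  z.1 ^ (θ - 1) * Real.log (1 + (κ ^ 2 - z.2 ^ 2) / z.1)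

theorem measurable_bG (θ κ : ℝ) : Measurable (bG θ κ) := by
  unfold bG
  fun_prop

theorem integral_norm_bG {θ : ℝ} (h0 : 0 < θ) (h1 : θ < 1) {κ y : ℝ} (hy : y ∈ Ioc 0 κ) :
    ∫ l in Ioi (0 : ℝ), ‖bG θ κ (l, y)‖ = kap θ * (κ ^ 2 - y ^ 2) ^ θ := by
  have hx : 0 ≤ κ ^ 2 - y ^ 2 := by nlinarith [hy.1, hy.2]
  rw [← int_log h0 h1 hx]
  refine setIntegral_congr_fun measurableSet_Ioi fun l hl => ?_
  have hl' : (0 : ℝ) < l := hl
  refine Real.norm_of_nonneg (mul_nonneg (Real.rpow_nonneg hl'.le _) (Real.log_nonneg ?_))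
  have : 0 ≤ (κ ^ 2 - y ^ 2) / l := div_nonneg hx hl'.le
  linarith

theorem integrable_bG {θ : ℝ} (h0 : 0 < θ) (h1 : θ < 1) (κ : ℝ) :
    Integrable (bG θ κ) ((volume.restrict (Ioi 0)).prod (volume.restrict (Ioc 0 κ))) := by
  rw [integrable_prod_iff' (measurable_bG θ κ).aestronglyMeasurable]
  constructor
  · refine (ae_restrict_iff' measurableSet_Ioc).mpr (Filter.Eventually.of_forall fun y hy => ?_)
    have hx : 0 ≤ κ ^ 2 - y ^ 2 := by nlinarith [hy.1, hy.2]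
    exact integrableOn_log h0 h1 hx
  · have hc : Continuous fun y : ℝ => kap θ * (κ ^ 2 - y ^ 2) ^ θ :=
      continuous_const.mul ((Real.continuous_rpow_const h0.le).comp (by fun_prop))
    have hi : IntegrableOn (fun y : ℝ => kap θ * (κ ^ 2 - y ^ 2) ^ θ) (Ioc 0 κ) :=
      (hc.integrableOn_Icc (a := 0) (b := κ)).mono_set Ioc_subset_Icc_self
    refine hi.congr ?_
    exact (ae_restrict_iff' measurableSet_Ioc).mpr (Filter.Eventually.of_forall fun y hy =>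
      (integral_norm_bG h0 h1 hy).symm)

theorem integral_bG_y {θ κ : ℝ} (hκ : 0 ≤ κ) {l : ℝ} (hl : 0 < l) :
    ∫ y in Ioc 0 κ, bG θ κ (l, y) = l ^ (θ - 1) * bd κ l := by
  rw [bdry_eq hκ hl, intervalIntegral.integral_of_le hκ, ← integral_const_mul]
  rfl

theorem integrableOn_bd {θ : ℝ} (h0 : 0 < θ) (h1 : θ < 1) {κ : ℝ} (hκ : 0 ≤ κ) :
    IntegrableOn (fun l : ℝ => l ^ (θ - 1) * bd κ l) (Ioi 0) := by
  have h := (integrable_bG h0 h1 κ).integral_prod_left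
  refine h.congr ?_
  exact (ae_restrict_iff' measurableSet_Ioi).mpr (Filter.Eventually.of_forall fun l hl =>
    integral_bG_y hκ hl)

theorem integral_sq_rpow {θ : ℝ} (h0 : 0 < θ) {κ : ℝ} (hκ : 0 ≤ κ) :
    ∫ y in (0 : ℝ)..κ, (κ ^ 2 - y ^ 2) ^ θ = κ ^ (2 * θ + 1) * II θ := by
  rcases hκ.eq_or_lt with rfl | hpos
  · rw [intervalIntegral.integral_same, Real.zero_rpow (by linarith), zero_mul]
  · have h := intervalIntegral.integral_comp_mul_left (a := 0) (b := 1)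
      (fun y => (κ ^ 2 - y ^ 2) ^ θ) hpos.ne'
    rw [mul_zero, mul_one, smul_eq_mul] at h
    have h2 : ∫ x in (0 : ℝ)..1, (κ ^ 2 - (κ * x) ^ 2) ^ θ = κ ^ (2 * θ) * II θ := by
      unfold II
      rw [← intervalIntegral.integral_const_mul]
      refine intervalIntegral.integral_congr fun x hx => ?_
      rw [uIcc_of_le zero_le_one] at hx
      have h3 : κ ^ 2 - (κ * x) ^ 2 = κ ^ 2 * (1 - x ^ 2) := by ring
      have h4 : 0 ≤ 1 - x ^ 2 := by nlinarith [hx.1, hx.2]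
      change (κ ^ 2 - (κ * x) ^ 2) ^ θ = κ ^ (2 * θ) * (1 - x ^ 2) ^ θ
      rw [h3, Real.mul_rpow (by positivity) h4, Real.rpow_mul hκ, Real.rpow_two]
    rw [h2] at h
    have h5 : ∫ y in (0 : ℝ)..κ, (κ ^ 2 - y ^ 2) ^ θ = κ * (κ ^ (2 * θ) * II θ) := by
      rw [h, ← mul_assoc, mul_inv_cancel₀ hpos.ne', one_mul]
    rw [h5, Real.rpow_add hpos, Real.rpow_one]
    ring

theorem int_bdry {θ : ℝ} (h0 : 0 < θ) (h1 : θ < 1) {κ : ℝ} (hκ : 0 ≤ κ) :
    ∫ l in Ioi (0 : ℝ), l ^ (θ - 1) * bd κ l = kap θ * (κ ^ (2 * θ + 1) * II θ) := by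
  have h := integral_integral_swap (μ := volume.restrict (Ioi (0 : ℝ)))
    (ν := volume.restrict (Ioc 0 κ)) (f := fun l y => bG θ κ (l, y)) (integrable_bG h0 h1 κ)
  have h2 : ∫ l in Ioi (0 : ℝ), l ^ (θ - 1) * bd κ l
      = ∫ l in Ioi (0 : ℝ), ∫ y in Ioc 0 κ, bG θ κ (l, y) :=
    setIntegral_congr_fun measurableSet_Ioi fun l hl => (integral_bG_y hκ hl).symm
  have h3 : ∫ y in Ioc 0 κ, ∫ l in Ioi (0 : ℝ), bG θ κ (l, y)
      = ∫ y in Ioc 0 κ, kap θ * (κ ^ 2 - y ^ 2) ^ θ := by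
    refine setIntegral_congr_fun measurableSet_Ioc fun y hy => ?_
    have hx : 0 ≤ κ ^ 2 - y ^ 2 := by nlinarith [hy.1, hy.2]
    exact int_log h0 h1 hx
  rw [h2, h, h3, integral_const_mul, ← intervalIntegral.integral_of_le hκ,
    integral_sq_rpow h0 hκ]

end Vale.Agent.P371.Gen
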