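import Vale.Agent.Lib.P371.Gen.BrRet

/-! # P371 Gen: Brouwer 4: fixed points on the ball (module BrBall)

`no_retraction`: `g = f - id`, `f_t = (1-t) x + t f(x)` maps the ball into itself. By `det_poly` and
`vol_small` the polynomial `p(t) = ∫ det (1 + t g')` is constant `= vol ball > 0` on `[0,t₀]`, so
everywhere; at `t = 1`, `1 + g' = f'` and `⟨f, f⟩ = 1` on the ball gives `⟨f'(x) v, f(x)⟩ = 0` for
all `v`, so `f'(x)` is not surjective and `det f'(x) = 0`: contradiction.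

`brouwer_ball`: if `f` is continuous on the closed ball `B`, maps `B` to `B` and has no fixed point
then `‖f x - x‖ ≥ 4 δ > 0` on `B`. By convolution with a bump function there is a smooth
`p : E → E` with `‖p - f‖ ≤ δ` on `B`; `h = (1+2δ)⁻¹ p` maps `B` to the open ball, is smooth and
has no fixed point in `B` (`‖h - p‖ ≤ 2 δ`). For `x ∈ B`, `u = x - h x ≠ 0`, let `λ(x)` be the larger
root of `‖u‖^2 λ^2 + 2 ⟨x,u⟩ λ + ‖x‖^2 - 1 = 0`; the discriminant `⟨x,u⟩^2 + ‖u‖^2 (1 - ‖x‖^2)` is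
positive on `B` (for `‖x‖ = 1`: `⟨x,u⟩ = 1 - ⟨x, h x⟩ > 0`), hence on a neighbourhood of `B`;
`r(x) = x + λ(x) u(x)` is `C¹` near `B`, `‖r‖ = 1` and `r = id` on the sphere. -/

open Set MeasureTheory Metric

namespace Vale.Agent.P371.Gen

private theorem brBall_approx {d : ℕ} {f : EuclideanSpace ℝ (Fin d) → EuclideanSpace ℝ (Fin d)}
    (hf : ContinuousOn f (closedBall 0 1)) {δ : ℝ} (hδ : 0 < δ) :
    ∃ g : EuclideanSpace ℝ (Fin d) → EuclideanSpace ℝ (Fin d), ContDiff ℝ 1 g ∧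
      ∀ x ∈ closedBall (0 : EuclideanSpace ℝ (Fin d)) 1, ‖g x - f x‖ ≤ δ := by
  -- radial projection
  obtain ⟨ρ, hρ⟩ : ∃ ρ : EuclideanSpace ℝ (Fin d) → EuclideanSpace ℝ (Fin d),
    ρ = fun x => (max 1 ‖x‖)⁻¹ • x := ⟨_, rfl⟩
  have hmax : ∀ x : EuclideanSpace ℝ (Fin d), 0 < max 1 ‖x‖ := fun x =>
    lt_of_lt_of_le one_pos (le_max_left _ _)
  have hρc : Continuous ρ := by
    rw [hρ]
    refine Continuous.smul (Continuous.inv₀ (continuous_const.max continuous_norm) ?_)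
      continuous_id
    intro x
    exact (hmax x).ne'
  have hρm : ∀ x, ρ x ∈ closedBall (0 : EuclideanSpace ℝ (Fin d)) 1 := by
    intro x
    rw [mem_closedBall_zero_iff, hρ]
    simp only
    rw [norm_smul, norm_inv, Real.norm_of_nonneg (hmax x).le, inv_mul_le_iff₀ (hmax x), mul_one]
    exact le_max_right _ _
  have hρi : ∀ x ∈ closedBall (0 : EuclideanSpace ℝ (Fin d)) 1, ρ x = x := by
    intro x hx
    rw [mem_closedBall_zero_iff] at hx
    rw [hρ]
    simp only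
    rw [max_eq_left hx, inv_one, one_smul]
  obtain ⟨F, hF⟩ : ∃ F : EuclideanSpace ℝ (Fin d) → EuclideanSpace ℝ (Fin d),
    F = fun x => f (ρ x) := ⟨_, rfl⟩
  have hFc : Continuous F := by
    rw [hF]
    exact hf.comp_continuous hρc hρm
  have hFu : UniformContinuousOn F (closedBall (0 : EuclideanSpace ℝ (Fin d)) 2) :=
    (isCompact_closedBall _ _).uniformContinuousOn_of_continuous hFc.continuousOn
  obtain ⟨η, hη, hFη⟩ := Metric.uniformContinuousOn_iff.mp hFu δ hδ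
  obtain ⟨g, hg, hgd⟩ := hFc.exists_contDiff_dist_le_of_forall_mem_ball_dist_le
    (lt_min one_pos hη)
  refine ⟨g, hg.of_le (by exact_mod_cast le_top), fun x hx => ?_⟩
  have h1 := hgd x δ (fun y hy => by
    rw [mem_ball, lt_min_iff] at hy
    have hx' := mem_closedBall_zero_iff.mp hx
    refine (hFη y ?_ x ?_ hy.2).le
    · rw [mem_closedBall_zero_iff]
      have h2 : ‖y‖ ≤ ‖y - x‖ + ‖x‖ := norm_le_norm_sub_add y x
      have h3 := hy.1
      rw [dist_eq_norm] at h3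
      linarith
    · rw [mem_closedBall_zero_iff]
      linarith)
  rw [dist_eq_norm] at h1
  have h2 : F x = f x := by
    rw [hF]
    simp only
    rw [hρi x hx]
  rwa [h2] at h1

/-- a `C¹` map of the ball into the open ball has a fixed point -/
private theorem brBall_smooth {d : ℕ} {h : EuclideanSpace ℝ (Fin d) → EuclideanSpace ℝ (Fin d)}
    (hh : ContDiff ℝ 1 h)
    (hm : ∀ x ∈ closedBall (0 : EuclideanSpace ℝ (Fin d)) 1, ‖h x‖ < 1)
    (hfix : ∀ x ∈ closedBall (0 : EuclideanSpace ℝ (Fin d)) 1, x - h x ≠ 0) : False := by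
  obtain ⟨u, hu⟩ : ∃ u : EuclideanSpace ℝ (Fin d) → EuclideanSpace ℝ (Fin d),
    u = fun x => x - h x := ⟨_, rfl⟩
  obtain ⟨a, ha⟩ : ∃ a : EuclideanSpace ℝ (Fin d) → ℝ, a = fun x => ‖u x‖ ^ 2 := ⟨_, rfl⟩
  obtain ⟨b, hb⟩ : ∃ b : EuclideanSpace ℝ (Fin d) → ℝ, b = fun x => inner ℝ x (u x) := ⟨_, rfl⟩
  obtain ⟨D, hD⟩ : ∃ D : EuclideanSpace ℝ (Fin d) → ℝ,
    D = fun x => b x ^ 2 + a x * (1 - ‖x‖ ^ 2) := ⟨_, rfl⟩
  have huc : ContDiff ℝ 1 u := by
    rw [hu]
    exact contDiff_id.sub hh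
  have hac : ContDiff ℝ 1 a := by
    rw [ha]
    exact huc.norm_sq ℝ
  have hbc : ContDiff ℝ 1 b := by
    rw [hb]
    exact contDiff_id.inner ℝ huc
  have hDc : ContDiff ℝ 1 D := by
    rw [hD]
    exact (hbc.pow 2).add (hac.mul (contDiff_const.sub (contDiff_id.norm_sq ℝ)))
  obtain ⟨U, hU⟩ : ∃ U : Set (EuclideanSpace ℝ (Fin d)), U = {x | 0 < D x ∧ 0 < a x} := ⟨_, rfl⟩
  have hUo : IsOpen U := by
    rw [hU]
    exact (isOpen_lt continuous_const hDc.continuous).inter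
      (isOpen_lt continuous_const hac.continuous)
  have ha0 : ∀ x ∈ closedBall (0 : EuclideanSpace ℝ (Fin d)) 1, 0 < a x := by
    intro x hx
    rw [ha]
    have h1 := hfix x hx
    have h2 : 0 < ‖u x‖ := by
      rw [norm_pos_iff, hu]
      exact h1
    positivity
  have hb0 : ∀ x ∈ sphere (0 : EuclideanSpace ℝ (Fin d)) 1, 0 < b x := by
    intro x hx
    have hx1 : ‖x‖ = 1 := mem_sphere_zero_iff_norm.mp hx
    have h1 := hm x (sphere_subset_closedBall hx)
    rw [hb, hu]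
    simp only
    rw [inner_sub_right, real_inner_self_eq_norm_sq, hx1]
    have h2 := real_inner_le_norm x (h x)
    rw [hx1] at h2
    linarith
  have hD0 : ∀ x ∈ closedBall (0 : EuclideanSpace ℝ (Fin d)) 1, 0 < D x := by
    intro x hx
    have hx1 := mem_closedBall_zero_iff.mp hx
    have h1 := ha0 x hx
    rw [hD]
    simp only
    rcases hx1.lt_or_eq with h2 | h2
    · have h3 : 0 < 1 - ‖x‖ ^ 2 := by
        have := norm_nonneg x
        nlinarith
      have h4 := mul_pos h1 h3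
      have h5 := sq_nonneg (b x)
      linarith
    · have h3 := hb0 x (mem_sphere_zero_iff_norm.mpr h2)
      rw [h2]
      have h4 : 0 < b x ^ 2 := by positivity
      linarith
  have hsub : closedBall (0 : EuclideanSpace ℝ (Fin d)) 1 ⊆ U := by
    intro x hx
    rw [hU]
    exact ⟨hD0 x hx, ha0 x hx⟩
  obtain ⟨r, hr⟩ : ∃ r : EuclideanSpace ℝ (Fin d) → EuclideanSpace ℝ (Fin d),
    r = fun x => x + ((-b x + Real.sqrt (D x)) / a x) • u x := ⟨_, rfl⟩
  refine no_retraction (f := r) hUo hsub ?_ ?_ ?_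
  · rw [hr]
    have hs : ContDiffOn ℝ 1 (fun x => Real.sqrt (D x)) U :=
      hDc.contDiffOn.sqrt (fun x hx => by
        rw [hU] at hx
        exact hx.1.ne')
    exact contDiffOn_id.add (((hbc.neg.contDiffOn.add hs).div hac.contDiffOn (fun x hx => by
        rw [hU] at hx
        exact hx.2.ne')).smul huc.contDiffOn)
  · intro x hx
    have h1 := ha0 x hx
    have h2 := hD0 x hx
    have h3 : Real.sqrt (D x) ^ 2 = D x := Real.sq_sqrt h2.le
    have h4 : ‖r x‖ ^ 2 = 1 := by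
      rw [hr]
      simp only
      rw [norm_add_sq_real, inner_smul_right, norm_smul, mul_pow, Real.norm_eq_abs, sq_abs]
      have e1 : inner ℝ x (u x) = b x := by rw [hb]
      have e2 : ‖u x‖ ^ 2 = a x := by rw [ha]
      rw [e1, e2]
      have e3 : D x = b x ^ 2 + a x * (1 - ‖x‖ ^ 2) := by rw [hD]
      rw [e3] at h3
      have e4 : a x ≠ 0 := h1.ne'
      rw [e3]
      generalize Real.sqrt (b x ^ 2 + a x * (1 - ‖x‖ ^ 2)) = s at *
      field_simp
      linear_combination h3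
    have h5 : ‖r x‖ = 1 := by
      have := norm_nonneg (r x)
      nlinarith
    exact h5
  · intro x hx
    have hx1 : ‖x‖ = 1 := mem_sphere_zero_iff_norm.mp hx
    have h1 := hb0 x hx
    rw [hr]
    simp only
    have e3 : D x = b x ^ 2 := by
      rw [hD]
      simp only
      rw [hx1]
      ring
    rw [e3, Real.sqrt_sq h1.le]
    simp

theorem brouwer_ball {d : ℕ} {f : EuclideanSpace ℝ (Fin d) → EuclideanSpace ℝ (Fin d)}
    (hf : ContinuousOn f (closedBall 0 1)) (hm : MapsTo f (closedBall 0 1) (closedBall 0 1)) :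
    ∃ x ∈ closedBall (0 : EuclideanSpace ℝ (Fin d)) 1, f x = x := by
  by_contra hne
  push Not at hne
  have hB : IsCompact (closedBall (0 : EuclideanSpace ℝ (Fin d)) 1) := isCompact_closedBall _ _
  obtain ⟨x₀, hx₀, hmin⟩ := hB.exists_isMinOn ⟨0, mem_closedBall_self zero_le_one⟩
    ((hf.sub continuousOn_id).norm)
  obtain ⟨δ, hδ⟩ : ∃ δ : ℝ, δ = ‖f x₀ - x₀‖ / 4 := ⟨_, rfl⟩
  have hδ0 : 0 < δ := by
    rw [hδ]
    have : 0 < ‖f x₀ - x₀‖ := by
      rw [norm_pos_iff, sub_ne_zero]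
      exact hne x₀ hx₀
    positivity
  have hfar : ∀ x ∈ closedBall (0 : EuclideanSpace ℝ (Fin d)) 1, 4 * δ ≤ ‖f x - x‖ := by
    intro x hx
    have h1 : ‖f x₀ - x₀‖ ≤ ‖f x - x‖ := isMinOn_iff.mp hmin x hx
    rw [hδ]
    linarith
  obtain ⟨p, hp, hpf⟩ := brBall_approx hf hδ0
  have hc0 : 0 < 1 + 2 * δ := by linarith
  have hpn : ∀ x ∈ closedBall (0 : EuclideanSpace ℝ (Fin d)) 1, ‖p x‖ ≤ 1 + δ := by
    intro x hx
    have h1 := hpf x hx
    have h2 := mem_closedBall_zero_iff.mp (hm hx)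
    have h3 : ‖p x‖ ≤ ‖p x - f x‖ + ‖f x‖ := norm_le_norm_sub_add _ _
    linarith
  have hhc : ContDiff ℝ 1 (fun x => (1 + 2 * δ)⁻¹ • p x) := by
    have h1 : ContDiff ℝ 1 (fun _ : EuclideanSpace ℝ (Fin d) => (1 + 2 * δ)⁻¹) := contDiff_const
    exact h1.smul hp
  refine brBall_smooth hhc ?_ ?_
  · intro x hx
    rw [norm_smul, norm_inv, Real.norm_of_nonneg hc0.le, inv_mul_lt_iff₀ hc0]
    have := hpn x hx
    linarith
  · intro x hx h0
    have h1 : x = (1 + 2 * δ)⁻¹ • p x := sub_eq_zero.mp h0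
    have h2 : (1 + 2 * δ) • x = p x := by
      rw [h1, smul_smul, mul_inv_cancel₀ hc0.ne', one_smul, ← h1]
    have h3 : f x - x = (f x - p x) + (2 * δ) • x := by
      rw [← h2, add_smul, one_smul]
      abel
    have h4 := hfar x hx
    have h5 := hpf x hx
    have h6 := mem_closedBall_zero_iff.mp hx
    have h7 : ‖f x - x‖ ≤ ‖f x - p x‖ + ‖(2 * δ) • x‖ := by
      rw [h3]
      exact norm_add_le _ _
    rw [norm_sub_rev (f x) (p x), norm_smul, Real.norm_of_nonneg (by linarith : 0 ≤ 2 * δ)] at h7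
    have h8 : 2 * δ * ‖x‖ ≤ 2 * δ * 1 := mul_le_mul_of_nonneg_left h6 (by linarith)
    linarith

end Vale.Agent.P371.Gen
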