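import Mathlib

/-! # P371 Gen: Brouwer 1: the determinant integral is a polynomial (module BrDet)

`E = EuclideanSpace ℝ (Fin d)`, `g : E → E` of class `C¹` near the closed unit ball `B`, `g = 0` on
the sphere, and `f_t(x) = x + t g(x)` maps `B` into `B` for `t ∈ [0,1]`.

`det_poly`: `t ↦ ∫_B det (1 + t A(x)) dx` is a polynomial function of `t` for continuous `A`
(expand the determinant, `Matrix.det_one_add_smul`-like or `LinearMap.toMatrix` and
`Matrix.det (1 + X • A)` in `Polynomial`; every coefficient is continuous in `x`, `B` compact).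

`vol_small`: `g` is `C`-Lipschitz on the convex compact set `B`. For `t C < 1` the map `f_t` is
injective on `B` and `det f_t' > 0` on `B` (`f_t' = 1 + t g'`, `‖t g'‖ < 1`, so invertible; the
determinant is continuous in `t` and equals `1` at `t = 0`). `G_t = f_t(ball)` is open
(`HasStrictFDerivAt.map_nhds_eq_of_equiv` or `open_map`) and `f_t(B) = B`: otherwise there is
`y₀ ∈ ball` in the boundary of `G_t`; `y₀ = f_t(x₀)` with `x₀ ∈ B` by compactness; `x₀` in the
sphere gives `y₀ = x₀` in the sphere, contradiction; `x₀` in the ball gives `y₀ ∈ G_t` open,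
contradiction (use that the open ball is connected and `G_t ∩ ball` is open and closed in it,
nonempty). So `f_t(ball) = ball` up to the null set `sphere` and by the change of variables
formula (`MeasureTheory.lintegral_abs_det_fderiv_eq_addHaar_image` or
`integral_image_eq_integral_abs_det_fderiv_smul`) `∫_ball det f_t' = vol ball`. -/

open Set MeasureTheory Metric

namespace Vale.Agent.P371.Gen

/-- the characteristic-type polynomial of one endomorphism -/
theorem BrDet_one {d : ℕ} (T : EuclideanSpace ℝ (Fin d) →L[ℝ] EuclideanSpace ℝ (Fin d)) :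
    ∃ P : Polynomial ℝ, P.natDegree ≤ d ∧ ∀ t : ℝ,
      (ContinuousLinearMap.id ℝ (EuclideanSpace ℝ (Fin d)) + t • T).det = P.eval t := by
  set b := (EuclideanSpace.basisFun (Fin d) ℝ).toBasis with hb
  set M := LinearMap.toMatrix b b (T : EuclideanSpace ℝ (Fin d) →ₗ[ℝ] EuclideanSpace ℝ (Fin d))
    with hM
  refine ⟨Matrix.det ((Polynomial.X : Polynomial ℝ) • M.map Polynomial.C +
    (1 : Matrix (Fin d) (Fin d) ℝ).map Polynomial.C), ?_, fun t => ?_⟩
  · have h := Polynomial.natDegree_det_X_add_C_le M (1 : Matrix (Fin d) (Fin d) ℝ)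
    rwa [Fintype.card_fin] at h
  · have h1 : (ContinuousLinearMap.id ℝ (EuclideanSpace ℝ (Fin d)) + t • T).det =
        (1 + t • M).det := by
      rw [ContinuousLinearMap.det, ← LinearMap.det_toMatrix b]
      congr 1
      have h2 : ((ContinuousLinearMap.id ℝ (EuclideanSpace ℝ (Fin d)) + t • T :
          EuclideanSpace ℝ (Fin d) →L[ℝ] EuclideanSpace ℝ (Fin d)) :
          EuclideanSpace ℝ (Fin d) →ₗ[ℝ] EuclideanSpace ℝ (Fin d)) =
          LinearMap.id + t • (T : EuclideanSpace ℝ (Fin d) →ₗ[ℝ] EuclideanSpace ℝ (Fin d)) := rfl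
      rw [h2, map_add, map_smul, LinearMap.toMatrix_id]
    rw [h1, ← Polynomial.coe_evalRingHom, RingHom.map_det]
    congr 1
    ext i j
    simp only [RingHom.mapMatrix_apply, Matrix.map_apply, Matrix.add_apply, Matrix.smul_apply,
      smul_eq_mul, map_add, Polynomial.coe_evalRingHom, Polynomial.eval_mul, Polynomial.eval_X,
      Polynomial.eval_C]
    ring

theorem det_poly {d : ℕ} {A : EuclideanSpace ℝ (Fin d) →
      (EuclideanSpace ℝ (Fin d) →L[ℝ] EuclideanSpace ℝ (Fin d))}
    (hA : ContinuousOn A (closedBall 0 1)) :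
    ∃ p : Polynomial ℝ, ∀ t : ℝ,
      ∫ x in ball (0 : EuclideanSpace ℝ (Fin d)) 1,
        (ContinuousLinearMap.id ℝ (EuclideanSpace ℝ (Fin d)) + t • A x).det = p.eval t := by
  classical
  set s := Finset.range (d + 1) with hs
  set v : ℕ → ℝ := fun k => (k : ℝ) with hv
  have hinj : Set.InjOn v s := fun a _ b _ h => Nat.cast_injective h
  have key : ∀ x : EuclideanSpace ℝ (Fin d), ∀ t : ℝ,
      (ContinuousLinearMap.id ℝ (EuclideanSpace ℝ (Fin d)) + t • A x).det =
      ∑ k ∈ s, (ContinuousLinearMap.id ℝ (EuclideanSpace ℝ (Fin d)) + (k : ℝ) • A x).det *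
        (Lagrange.basis s v k).eval t := by
    intro x t
    obtain ⟨P, hP, hPe⟩ := BrDet_one (A x)
    have hdeg : P.degree < (s.card : ℕ) := by
      rw [hs, Finset.card_range]
      exact (Polynomial.degree_le_natDegree).trans_lt (by exact_mod_cast Nat.lt_succ_of_le hP)
    have h1 := Lagrange.eq_interpolate hinj hdeg
    rw [hPe t]
    conv_lhs => rw [h1]
    rw [Lagrange.interpolate_apply, Polynomial.eval_finsetSum]
    refine Finset.sum_congr rfl fun k _ => ?_
    rw [Polynomial.eval_mul, Polynomial.eval_C, hPe k]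
  have hint : ∀ k : ℕ, IntegrableOn (fun x : EuclideanSpace ℝ (Fin d) =>
      (ContinuousLinearMap.id ℝ (EuclideanSpace ℝ (Fin d)) + (k : ℝ) • A x).det)
      (ball (0 : EuclideanSpace ℝ (Fin d)) 1) := by
    intro k
    have hc : ContinuousOn (fun x : EuclideanSpace ℝ (Fin d) =>
      (ContinuousLinearMap.id ℝ (EuclideanSpace ℝ (Fin d)) + (k : ℝ) • A x).det)
      (closedBall (0 : EuclideanSpace ℝ (Fin d)) 1) :=
      ContinuousLinearMap.continuous_det.comp_continuousOn
        (continuousOn_const.add (hA.const_smul (k : ℝ)))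
    exact (hc.integrableOn_compact (isCompact_closedBall _ _)).mono_set ball_subset_closedBall
  refine ⟨∑ k ∈ s, Polynomial.C (∫ x in ball (0 : EuclideanSpace ℝ (Fin d)) 1,
    (ContinuousLinearMap.id ℝ (EuclideanSpace ℝ (Fin d)) + (k : ℝ) • A x).det) *
      Lagrange.basis s v k, fun t => ?_⟩
  rw [Polynomial.eval_finsetSum]
  simp_rw [key _ t]
  rw [integral_finsetSum _ (fun k _ => (hint k).mul_const _)]
  refine Finset.sum_congr rfl fun k _ => ?_
  rw [Polynomial.eval_mul, Polynomial.eval_C, integral_mul_const]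

end Vale.Agent.P371.Gen
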