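import Mathlib

/-! # P371 Gen: nearest points in closed convex sets (module BrProj)

Transport to `EuclideanSpace ℝ (Fin d)` by a linear homeomorphism (finite-dimensional real normed
space); scale so that the compact convex set `K` lies in the unit ball; compose `f` with the
nearest point projection `π : E → K` (continuous: Mathlib `exists_norm_eq_iInf_of_complete_convex`,
`norm_eq_iInf_iff_real_inner_le_zero` give existence and the variational inequality, so `π` is
1-Lipschitz); `f ∘ π` maps the ball to `K ⊆` ball; its fixed point lies in `K`.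
`proj_cont` is also used by the module QVI. -/

open Set Metric Filter Topology
open scoped RealInnerProductSpace

namespace Vale.Agent.P371.Gen

/-- Nearest points in closed convex sets and the variational inequality. -/
theorem exists_proj {V : Type*} [NormedAddCommGroup V] [InnerProductSpace ℝ V]
    [FiniteDimensional ℝ V] {K : Set V} (hc : IsClosed K) (hK : Convex ℝ K) (hne : K.Nonempty)
    (z : V) : ∃ p ∈ K, (∀ w ∈ K, ⟪z - p, w - p⟫ ≤ 0) ∧ ∀ w ∈ K, ‖z - p‖ ≤ ‖z - w‖ := by
  obtain ⟨p, hp, hmin⟩ := exists_norm_eq_iInf_of_complete_convex hne hc.isComplete hK z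
  refine ⟨p, hp, (norm_eq_iInf_iff_real_inner_le_zero hK hp).1 hmin, fun w hw => ?_⟩
  rw [hmin]
  exact ciInf_le (f := fun w : K => ‖z - w‖)
    ⟨0, by rintro _ ⟨y, rfl⟩; exact norm_nonneg _⟩ ⟨w, hw⟩

end Vale.Agent.P371.Gen
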