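import Mathlib

/-! # P371 Gen: Brouwer 2: volume for small t (module BrVol)

`E = EuclideanSpace ℝ (Fin d)`, `g : E → E` of class `C¹` near the closed unit ball `B`, `g = 0` on
the sphere, and `f_t(x) = x + t g(x)` maps `B` into `B` for `t ∈ [0,1]`.

`det_poly`: `t ↦ ∫_B det (1 + t A(x)) dx` is a polynomial function of `t` for continuous `A`
(expand the determinant, `Matrix.det_one_add_smul`-like or `LinearMap.toMatrix` and
`Matrix.det (1 + X • A)` in `Polynomial`; every coefficient is continuous in `x`, `B` compact).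

`vol_small`: `g` is `C`-Lipschitz on the convex compact set `B`. For `t C < 1` the map `f_t` is
injective on `B` and `det f_t' > 0` on `B` (`f_t' = 1 + t g'`, `‖t g'‖ < 1`, so invertible; the
determinant is continuous in `t` and equals `1` at `t = 0`). `G_t = f_t(ball)` is open
(`HasStrictFDerivAt.map_nhds_eq_of_equiv` or `open_map`) and `f_t(B) = B`: otherwise there is
`y₀ ∈ ball` in the boundary of `G_t`; `y₀ = f_t(x₀)` with `x₀ ∈ B` by compactness; `x₀` in the
sphere gives `y₀ = x₀` in the sphere, contradiction; `x₀` in the ball gives `y₀ ∈ G_t` open,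
contradiction (use that the open ball is connected and `G_t ∩ ball` is open and closed in it,
nonempty). So `f_t(ball) = ball` up to the null set `sphere` and by the change of variables
formula (`MeasureTheory.lintegral_abs_det_fderiv_eq_addHaar_image` or
`integral_image_eq_integral_abs_det_fderiv_smul`) `∫_ball det f_t' = vol ball`. -/

open Set MeasureTheory Metric

namespace Vale.Agent.P371.Gen

private theorem brVol_inj {E : Type*} [NormedAddCommGroup E] [NormedSpace ℝ E]
    (M : E →L[ℝ] E) (hM : ‖M‖ < 1) {v : E}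
    (hv : (ContinuousLinearMap.id ℝ E + M) v = 0) : v = 0 := by
  have h1 : v = - M v := by
    have h2 : v + M v = 0 := by simpa using hv
    exact eq_neg_of_add_eq_zero_left h2
  by_contra hne
  have h3 : 0 < ‖v‖ := norm_pos_iff.2 hne
  have h4 : ‖v‖ ≤ ‖M‖ * ‖v‖ := by
    calc ‖v‖ = ‖M v‖ := by rw [← norm_neg (M v), ← h1]
      _ ≤ ‖M‖ * ‖v‖ := M.le_opNorm v
  nlinarith

private theorem brVol_det_ne {d : ℕ} (M : EuclideanSpace ℝ (Fin d) →L[ℝ] EuclideanSpace ℝ (Fin d))
    (hM : ‖M‖ < 1) : (ContinuousLinearMap.id ℝ (EuclideanSpace ℝ (Fin d)) + M).det ≠ 0 := by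
  intro h
  have h1 := LinearMap.bot_lt_ker_of_det_eq_zero h
  obtain ⟨v, hv, hne⟩ := (Submodule.ne_bot_iff _).1 h1.ne'
  exact hne (brVol_inj M hM (LinearMap.mem_ker.1 hv))

private theorem brVol_det_pos {d : ℕ}
    (M : EuclideanSpace ℝ (Fin d) →L[ℝ] EuclideanSpace ℝ (Fin d))
    (hM : ‖M‖ < 1) : 0 < (ContinuousLinearMap.id ℝ (EuclideanSpace ℝ (Fin d)) + M).det := by
  by_contra hneg
  push Not at hneg
  have hcont : Continuous fun s : ℝ =>
      (ContinuousLinearMap.id ℝ (EuclideanSpace ℝ (Fin d)) + s • M).det :=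
    ContinuousLinearMap.continuous_det.comp (by fun_prop)
  have h0 : (ContinuousLinearMap.id ℝ (EuclideanSpace ℝ (Fin d)) + (0 : ℝ) • M).det = 1 := by
    have h00 : (0 : ℝ) • M = 0 := zero_smul ℝ M
    rw [h00, add_zero]
    exact LinearMap.det_id
  have h1 : (ContinuousLinearMap.id ℝ (EuclideanSpace ℝ (Fin d)) + (1 : ℝ) • M).det ≤ 0 := by
    rw [one_smul]
    exact hneg
  obtain ⟨s, hs, hs0⟩ := intermediate_value_Icc' (zero_le_one' ℝ) hcont.continuousOn
    (show (0 : ℝ) ∈ _ from ⟨h1, by rw [h0]; exact zero_le_one⟩)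
  refine brVol_det_ne (s • M) ?_ hs0
  calc ‖s • M‖ ≤ 1 * ‖M‖ := by
        rw [norm_smul]
        refine mul_le_mul_of_nonneg_right ?_ (norm_nonneg _)
        rw [Real.norm_eq_abs, abs_of_nonneg hs.1]
        exact hs.2
    _ < 1 := by rw [one_mul]; exact hM

theorem vol_small {d : ℕ} {g : EuclideanSpace ℝ (Fin d) → EuclideanSpace ℝ (Fin d)}
    {U : Set (EuclideanSpace ℝ (Fin d))} (hU : IsOpen U) (hsub : closedBall 0 1 ⊆ U)
    (hg : ContDiffOn ℝ 1 g U) (hg0 : ∀ x ∈ sphere (0 : EuclideanSpace ℝ (Fin d)) 1, g x = 0)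
    (hmap : ∀ x ∈ closedBall (0 : EuclideanSpace ℝ (Fin d)) 1, ∀ t ∈ Icc (0 : ℝ) 1,
      ‖x + t • g x‖ ≤ 1) :
    ∃ t₀ : ℝ, 0 < t₀ ∧ ∀ t ∈ Icc (0 : ℝ) t₀,
      ∫ x in ball (0 : EuclideanSpace ℝ (Fin d)) 1,
        (ContinuousLinearMap.id ℝ (EuclideanSpace ℝ (Fin d)) + t • fderiv ℝ g x).det
        = (volume (ball (0 : EuclideanSpace ℝ (Fin d)) 1)).toReal := by
  have hcd : ContinuousOn (fderiv ℝ g) (closedBall 0 1) :=
    (hg.continuousOn_fderiv_of_isOpen hU le_rfl).mono hsub
  obtain ⟨C, hC⟩ := (isCompact_closedBall (0 : EuclideanSpace ℝ (Fin d)) 1).exists_bound_of_continuousOn hcd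
  have hC0 : 0 ≤ C := (norm_nonneg _).trans (hC 0 (mem_closedBall_self zero_le_one))
  have hstrict : ∀ x ∈ closedBall (0 : EuclideanSpace ℝ (Fin d)) 1,
      HasStrictFDerivAt g (fderiv ℝ g x) x := fun x hx =>
    (hg.contDiffAt (hU.mem_nhds (hsub hx))).hasStrictFDerivAt (by simp)
  have hlip : ∀ x ∈ closedBall (0 : EuclideanSpace ℝ (Fin d)) 1,
      ∀ y ∈ closedBall (0 : EuclideanSpace ℝ (Fin d)) 1, ‖g y - g x‖ ≤ C * ‖y - x‖ :=
    fun x hx y hy => (convex_closedBall _ _).norm_image_sub_le_of_norm_fderiv_le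
      (fun z hz => (hstrict z hz).hasFDerivAt.differentiableAt) hC hx hy
  have hgc : ContinuousOn g (closedBall 0 1) := hg.continuousOn.mono hsub
  refine ⟨min 1 (1 / (2 * (C + 1))), lt_min one_pos (by positivity), ?_⟩
  rintro t ⟨ht0, ht1⟩
  have ht2 : t ≤ 1 := ht1.trans (min_le_left _ _)
  have ht3 : t ≤ 1 / (2 * (C + 1)) := ht1.trans (min_le_right _ _)
  have htC : t * C < 1 := by
    have h1 : t * C ≤ 1 / (2 * (C + 1)) * C := mul_le_mul_of_nonneg_right ht3 hC0
    have h2 : 1 / (2 * (C + 1)) * C < 1 := by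
      rw [div_mul_eq_mul_div, one_mul, div_lt_one (by positivity)]
      linarith
    linarith
  -- the map
  set f : EuclideanSpace ℝ (Fin d) → EuclideanSpace ℝ (Fin d) := fun x => x + t • g x with hf
  have hf' : ∀ x ∈ closedBall (0 : EuclideanSpace ℝ (Fin d)) 1, HasStrictFDerivAt f
      (ContinuousLinearMap.id ℝ (EuclideanSpace ℝ (Fin d)) + t • fderiv ℝ g x) x :=
    fun x hx => (hasStrictFDerivAt_id x).add ((hstrict x hx).const_smul t)
  have hsmall : ∀ x ∈ closedBall (0 : EuclideanSpace ℝ (Fin d)) 1, ‖t • fderiv ℝ g x‖ < 1 := by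
    intro x hx
    rw [norm_smul, Real.norm_eq_abs, abs_of_nonneg ht0]
    exact lt_of_le_of_lt (mul_le_mul_of_nonneg_left (hC x hx) ht0) htC
  have hinj : InjOn f (closedBall 0 1) := by
    intro x hx y hy hxy
    have h1 : x - y = t • (g y - g x) := by
      have h2 : x + t • g x = y + t • g y := hxy
      rw [smul_sub]
      have h3 : x = y + t • g y - t • g x := by rw [← h2]; abel
      nth_rewrite 1 [h3]
      abel
    have h4 : ‖x - y‖ ≤ t * C * ‖x - y‖ := by
      calc ‖x - y‖ = t * ‖g y - g x‖ := by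
            nth_rewrite 1 [h1]
            rw [norm_smul, Real.norm_eq_abs, abs_of_nonneg ht0]
        _ ≤ t * (C * ‖y - x‖) := mul_le_mul_of_nonneg_left (hlip x hx y hy) ht0
        _ = t * C * ‖x - y‖ := by rw [norm_sub_rev]; ring
    by_contra hne
    have h5 : 0 < ‖x - y‖ := norm_pos_iff.2 (sub_ne_zero.2 hne)
    nlinarith
  have hfc : ContinuousOn f (closedBall 0 1) := continuousOn_id.add (hgc.const_smul t)
  have hsubB : ball (0 : EuclideanSpace ℝ (Fin d)) 1 ⊆ closedBall 0 1 := ball_subset_closedBall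
  have hopen : IsOpen (f '' ball 0 1) := by
    rw [isOpen_iff_mem_nhds]
    rintro _ ⟨x, hx, rfl⟩
    have hsurj : (ContinuousLinearMap.id ℝ (EuclideanSpace ℝ (Fin d))
        + t • fderiv ℝ g x).range = ⊤ := by
      have hker : LinearMap.ker ((ContinuousLinearMap.id ℝ (EuclideanSpace ℝ (Fin d))
          + t • fderiv ℝ g x : EuclideanSpace ℝ (Fin d) →L[ℝ] EuclideanSpace ℝ (Fin d)) :
          EuclideanSpace ℝ (Fin d) →ₗ[ℝ] EuclideanSpace ℝ (Fin d)) = ⊥ := by
        rw [LinearMap.ker_eq_bot']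
        intro v hv
        exact brVol_inj _ (hsmall x (hsubB hx)) hv
      exact LinearMap.range_eq_top.2 (LinearMap.injective_iff_surjective.1
        (LinearMap.ker_eq_bot.1 hker))
    have h1 := (hf' x (hsubB hx)).map_nhds_eq_of_surj hsurj
    rw [← h1]
    exact Filter.image_mem_map (isOpen_ball.mem_nhds hx)
  have hsubset : f '' ball 0 1 ⊆ ball 0 1 := by
    rw [← interior_closedBall (0 : EuclideanSpace ℝ (Fin d)) one_ne_zero]
    refine interior_maximal ?_ (by
      rw [interior_closedBall (0 : EuclideanSpace ℝ (Fin d)) one_ne_zero]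
      exact hopen)
    rintro _ ⟨x, hx, rfl⟩
    rw [interior_closedBall (0 : EuclideanSpace ℝ (Fin d)) one_ne_zero] at hx
    rw [mem_closedBall_zero_iff]
    exact hmap x (hsubB hx) t ⟨ht0, ht2⟩
  have hsup : ball 0 1 ⊆ f '' ball 0 1 := by
    refine (convex_ball (0 : EuclideanSpace ℝ (Fin d)) 1).isPreconnected.subset_of_closure_inter_subset
      hopen ?_ ?_
    · refine ⟨f 0, hsubset ⟨0, mem_ball_self one_pos, rfl⟩, 0, mem_ball_self one_pos, rfl⟩
    · rintro z ⟨hz1, hz2⟩
      have hclosed : IsClosed (f '' closedBall 0 1) :=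
        ((isCompact_closedBall _ _).image_of_continuousOn hfc).isClosed
      obtain ⟨x, hx, rfl⟩ := closure_minimal (image_mono hsubB) hclosed hz1
      refine ⟨x, ?_, rfl⟩
      rw [mem_closedBall_zero_iff] at hx
      rcases hx.lt_or_eq with h | h
      · rw [mem_ball_zero_iff]
        exact h
      · exfalso
        have h2 : g x = 0 := hg0 x (by rw [mem_sphere_zero_iff_norm]; exact h)
        have h3 : f x = x := by simp [hf, h2]
        rw [h3, mem_ball_zero_iff, h] at hz2
        exact lt_irrefl _ hz2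
  have himage : f '' ball 0 1 = ball 0 1 := subset_antisymm hsubset hsup
  have hcv := integral_image_eq_integral_abs_det_fderiv_smul (volume)
    (measurableSet_ball (x := (0 : EuclideanSpace ℝ (Fin d))) (ε := 1))
    (fun x hx => (hf' x (hsubB hx)).hasFDerivAt.hasFDerivWithinAt) (hinj.mono hsubB)
    (fun _ => (1 : ℝ))
  rw [himage] at hcv
  have h1 : ∫ _ in ball (0 : EuclideanSpace ℝ (Fin d)) 1, (1 : ℝ)
      = (volume (ball (0 : EuclideanSpace ℝ (Fin d)) 1)).toReal := by
    rw [setIntegral_const]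
    simp [Measure.real]
  rw [← h1, hcv]
  refine setIntegral_congr_fun measurableSet_ball fun x hx => ?_
  simp only [smul_eq_mul, mul_one]
  rw [abs_of_pos (brVol_det_pos _ (hsmall x (hsubB hx)))]

end Vale.Agent.P371.Gen
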