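import Vale.Agent.Lib.P371.Gen.BrDet
import Vale.Agent.Lib.P371.Gen.BrVol

/-! # P371 Gen: Brouwer 3: no retraction (module BrRet)

`no_retraction`: `g = f - id`, `f_t = (1-t) x + t f(x)` maps the ball into itself. By `det_poly` and
`vol_small` the polynomial `p(t) = ∫ det (1 + t g')` is constant `= vol ball > 0` on `[0,t₀]`, so
everywhere; at `t = 1`, `1 + g' = f'` and `⟨f, f⟩ = 1` on the ball gives `⟨f'(x) v, f(x)⟩ = 0` for
all `v`, so `f'(x)` is not surjective and `det f'(x) = 0`: contradiction.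

`brouwer_ball`: if `f` is continuous on the closed ball `B`, maps `B` to `B` and has no fixed point
then `‖f x - x‖ ≥ 3 δ > 0` on `B`. By Stone-Weierstrass (coordinatewise) there is a smooth
(polynomial) `p : E → E` with `‖p - f‖ ≤ δ` on `B`; `h = (1+δ)⁻¹ p` maps `B` to `B`, is smooth and
has no fixed point in `B` (`‖h - p‖ ≤ δ`). For `x ∈ B`, `u = x - h x ≠ 0`, let `λ(x)` be the larger
root of `‖u‖^2 λ^2 + 2 ⟨x,u⟩ λ + ‖x‖^2 - 1 = 0`; the discriminant `⟨x,u⟩^2 + ‖u‖^2 (1 - ‖x‖^2)` is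
positive on `B` (for `‖x‖ = 1`: `⟨x,u⟩ = 1 - ⟨x, h x⟩ > 0`), hence on a neighbourhood of `B`;
`r(x) = x + λ(x) u(x)` is `C¹` near `B`, `‖r‖ = 1` and `r = id` on the sphere. -/

open Set MeasureTheory Metric

namespace Vale.Agent.P371.Gen

theorem no_retraction {d : ℕ} {f : EuclideanSpace ℝ (Fin d) → EuclideanSpace ℝ (Fin d)}
    {U : Set (EuclideanSpace ℝ (Fin d))} (hU : IsOpen U) (hsub : closedBall 0 1 ⊆ U)
    (hf : ContDiffOn ℝ 1 f U)
    (hmap : ∀ x ∈ closedBall (0 : EuclideanSpace ℝ (Fin d)) 1, ‖f x‖ = 1)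
    (hid : ∀ x ∈ sphere (0 : EuclideanSpace ℝ (Fin d)) 1, f x = x) : False := by
  have hg : ContDiffOn ℝ 1 (fun x => f x - x) U := hf.sub contDiffOn_id
  have hg0 : ∀ x ∈ sphere (0 : EuclideanSpace ℝ (Fin d)) 1, (fun x => f x - x) x = 0 := by
    intro x hx
    simp [hid x hx]
  have hmap' : ∀ x ∈ closedBall (0 : EuclideanSpace ℝ (Fin d)) 1, ∀ t ∈ Icc (0 : ℝ) 1,
      ‖x + t • (fun x => f x - x) x‖ ≤ 1 := by
    intro x hx t ht
    have h1 : x + t • (fun x => f x - x) x = (1 - t) • x + t • f x := by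
      simp only [smul_sub, sub_smul, one_smul]
      abel
    rw [h1]
    have hx' : ‖x‖ ≤ 1 := by simpa using hx
    calc ‖(1 - t) • x + t • f x‖ ≤ ‖(1 - t) • x‖ + ‖t • f x‖ := norm_add_le _ _
      _ = (1 - t) * ‖x‖ + t * ‖f x‖ := by
          rw [norm_smul, norm_smul, Real.norm_of_nonneg (sub_nonneg.2 ht.2),
            Real.norm_of_nonneg ht.1]
      _ ≤ (1 - t) * 1 + t * 1 := by
          rw [hmap x hx]
          have := mul_le_mul_of_nonneg_left hx' (sub_nonneg.2 ht.2)
          linarith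
      _ = 1 := by ring
  obtain ⟨t₀, ht₀, hvol⟩ := vol_small hU hsub hg hg0 hmap'
  have hA : ContinuousOn (fderiv ℝ (fun x => f x - x)) (closedBall 0 1) :=
    (hg.continuousOn_fderiv_of_isOpen hU le_rfl).mono hsub
  obtain ⟨p, hp⟩ := det_poly hA
  have hpc : p = Polynomial.C ((volume (ball (0 : EuclideanSpace ℝ (Fin d)) 1)).toReal) := by
    apply Polynomial.eq_of_infinite_eval_eq
    refine Set.Infinite.mono (s := Icc (0 : ℝ) t₀) ?_ (Set.Icc_infinite ht₀)
    intro t ht
    simp only [Set.mem_ofPred_eq, Polynomial.eval_C]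
    rw [← hp t, hvol t ht]
  have h1 := hp 1
  rw [hpc, Polynomial.eval_C] at h1
  have hzero : ∫ x in ball (0 : EuclideanSpace ℝ (Fin d)) 1,
      (ContinuousLinearMap.id ℝ (EuclideanSpace ℝ (Fin d)) +
        (1 : ℝ) • fderiv ℝ (fun x => f x - x) x).det = 0 := by
    rw [setIntegral_congr_fun (g := fun _ => (0 : ℝ)) measurableSet_ball]
    · simp
    · intro x hx
      have hxB : x ∈ closedBall (0 : EuclideanSpace ℝ (Fin d)) 1 := ball_subset_closedBall hx
      have hxU : U ∈ nhds x := hU.mem_nhds (hsub hxB)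
      have hfd : DifferentiableAt ℝ f x := (hf.differentiableOn (by norm_num)).differentiableAt hxU
      have hgf : fderiv ℝ (fun x => f x - x) x
          = fderiv ℝ f x - ContinuousLinearMap.id ℝ (EuclideanSpace ℝ (Fin d)) := by
        have := (hfd.hasFDerivAt.sub (hasFDerivAt_id x)).fderiv
        exact this
      have hA1 : ContinuousLinearMap.id ℝ (EuclideanSpace ℝ (Fin d)) +
          (1 : ℝ) • fderiv ℝ (fun x => f x - x) x = fderiv ℝ f x := by
        rw [hgf, one_smul]
        abel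
      show (ContinuousLinearMap.id ℝ (EuclideanSpace ℝ (Fin d)) +
          (1 : ℝ) • fderiv ℝ (fun x => f x - x) x).det = 0
      rw [hA1]
      by_contra hdet
      have hsurj : Function.Surjective (fderiv ℝ f x) := by
        have hu : IsUnit (LinearMap.det
            ((fderiv ℝ f x : EuclideanSpace ℝ (Fin d) →ₗ[ℝ] EuclideanSpace ℝ (Fin d)))) :=
          isUnit_iff_ne_zero.2 hdet
        have hu2 := (LinearMap.isUnit_iff_isUnit_det _).2 hu
        rw [Module.End.isUnit_iff] at hu2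
        exact hu2.2
      obtain ⟨v, hv⟩ := hsurj (f x)
      have hn := hfd.hasFDerivAt.norm_sq
      have hc : (‖f ·‖ ^ 2) =ᶠ[nhds x] fun _ => (1 : ℝ) := by
        filter_upwards [isOpen_ball.mem_nhds hx] with y hy
        show ‖f y‖ ^ 2 = 1
        rw [hmap y (ball_subset_closedBall hy)]
        norm_num
      have hn2 := (hn.congr_of_eventuallyEq hc.symm).unique (hasFDerivAt_const (1 : ℝ) x)
      have hn3 := congrArg (fun L : EuclideanSpace ℝ (Fin d) →L[ℝ] ℝ => L v) hn2
      simp only [_root_.smul_apply, ContinuousLinearMap.comp_apply, hv,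
        innerSL_apply_apply, real_inner_self_eq_norm_sq, hmap x hxB,
        _root_.zero_apply] at hn3
      norm_num at hn3
  rw [hzero] at h1
  have hpos : 0 < (volume (ball (0 : EuclideanSpace ℝ (Fin d)) 1)).toReal :=
    ENNReal.toReal_pos (measure_ball_pos volume _ one_pos).ne' measure_ball_lt_top.ne
  linarith

end Vale.Agent.P371.Gen
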