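import Vale.Agent.Lib.P371.Gen.BrBall
import Vale.Agent.Lib.P371.Gen.BrProj

/-! # P371 Gen: Brouwer theorem for compact convex sets (module Brouwer)

Transport to `EuclideanSpace ℝ (Fin d)` by a linear homeomorphism (finite-dimensional real normed
space); scale so that the compact convex set `K` lies in the unit ball; compose `f` with the
nearest point projection `π : E → K` (continuous: Mathlib `exists_norm_eq_iInf_of_complete_convex`,
`norm_eq_iInf_iff_real_inner_le_zero` give existence and the variational inequality, so `π` is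
1-Lipschitz); `f ∘ π` maps the ball to `K ⊆` ball; its fixed point lies in `K`.
`proj_cont` is also used by the module QVI. -/

open Set Metric Filter Topology
open scoped RealInnerProductSpace

namespace Vale.Agent.P371.Gen

/-- a continuous retraction of the space onto a closed convex set -/
private theorem brouwer_proj {V : Type*} [NormedAddCommGroup V] [InnerProductSpace ℝ V]
    [FiniteDimensional ℝ V] {K : Set V} (hc : IsClosed K) (hK : Convex ℝ K) (hne : K.Nonempty) :
    ∃ q : V → V, Continuous q ∧ (∀ z, q z ∈ K) ∧ ∀ z ∈ K, q z = z := by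
  choose q hq1 hq2 hq3 using exists_proj hc hK hne
  have hlip : ∀ z z', ‖q z' - q z‖ ≤ ‖z' - z‖ := by
    intro z z'
    have h1 := hq2 z (q z') (hq1 z')
    have h2 := hq2 z' (q z) (hq1 z)
    have h3 : ⟪z' - z, q z' - q z⟫ = ‖q z' - q z‖ ^ 2 - ⟪z - q z, q z' - q z⟫ -
        ⟪z' - q z', q z - q z'⟫ := by
      rw [← real_inner_self_eq_norm_sq]
      have h4 : q z - q z' = -(q z' - q z) := by abel
      rw [h4, inner_neg_right]
      have h5 : z' - z = (q z' - q z) - (z - q z) + (z' - q z') := by abel
      rw [h5, inner_add_left, inner_sub_left]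
      ring
    have h4 := real_inner_le_norm (z' - z) (q z' - q z)
    by_contra hlt
    push Not at hlt
    have h6 : 0 < ‖q z' - q z‖ := lt_of_le_of_lt (norm_nonneg _) hlt
    nlinarith
  refine ⟨q, ?_, hq1, ?_⟩
  · refine (LipschitzWith.of_dist_le_mul (K := 1) fun x y => ?_).continuous
    rw [dist_eq_norm, dist_eq_norm, NNReal.coe_one, one_mul]
    exact hlip y x
  · intro z hz
    have h1 := hq3 z z hz
    rw [sub_self, norm_zero] at h1
    have h2 := sub_eq_zero.1 (norm_le_zero_iff.1 h1)
    exact h2.symm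

theorem brouwer {V : Type*} [NormedAddCommGroup V] [NormedSpace ℝ V] [FiniteDimensional ℝ V]
    {K : Set V} (hK : IsCompact K) (hKc : Convex ℝ K) (hKn : K.Nonempty) {f : V → V}
    (hf : ContinuousOn f K) (hm : MapsTo f K K) : ∃ x ∈ K, f x = x := by
  obtain ⟨e⟩ : Nonempty (V ≃L[ℝ] EuclideanSpace ℝ (Fin (Module.finrank ℝ V))) := ⟨toEuclidean⟩
  have hK' : IsCompact (e '' K) := hK.image e.continuous
  have hKc' : Convex ℝ (e '' K) := hKc.linear_image e.toLinearEquiv.toLinearMap
  obtain ⟨q, hq, hqK, hqi⟩ := brouwer_proj hK'.isClosed hKc' (hKn.image e)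
  obtain ⟨R, hR0, hR⟩ : ∃ R : ℝ, 0 < R ∧ e '' K ⊆ closedBall 0 R := by
    obtain ⟨R, hR⟩ := hK'.isBounded.subset_closedBall
      (0 : EuclideanSpace ℝ (Fin (Module.finrank ℝ V)))
    exact ⟨max R 1, lt_max_of_lt_right one_pos,
      hR.trans (closedBall_subset_closedBall (le_max_left _ _))⟩
  have hsymm : ∀ z, e.symm (q z) ∈ K := by
    intro z
    obtain ⟨y, hy, hye⟩ := hqK z
    rw [← hye, e.symm_apply_apply]
    exact hy
  have hcont : ContinuousOn (fun x : EuclideanSpace ℝ (Fin (Module.finrank ℝ V)) =>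
      R⁻¹ • e (f (e.symm (q (R • x))))) (closedBall 0 1) := by
    have h1 : Continuous fun x : EuclideanSpace ℝ (Fin (Module.finrank ℝ V)) =>
        e.symm (q (R • x)) := e.symm.continuous.comp (hq.comp (continuous_const_smul R))
    have h2 : Continuous fun x : EuclideanSpace ℝ (Fin (Module.finrank ℝ V)) =>
        f (e.symm (q (R • x))) := hf.comp_continuous h1 fun x => hsymm _
    exact ((e.continuous.comp h2).const_smul R⁻¹).continuousOn
  have hmaps : MapsTo (fun x : EuclideanSpace ℝ (Fin (Module.finrank ℝ V)) =>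
      R⁻¹ • e (f (e.symm (q (R • x))))) (closedBall 0 1) (closedBall 0 1) := by
    intro x _
    have h1 : e (f (e.symm (q (R • x)))) ∈ closedBall 0 R := hR ⟨_, hm (hsymm _), rfl⟩
    rw [mem_closedBall_zero_iff] at h1 ⊢
    rw [norm_smul, norm_inv, Real.norm_of_nonneg hR0.le, inv_mul_le_iff₀ hR0, mul_one]
    exact h1
  obtain ⟨x, hx, hfx⟩ := brouwer_ball hcont hmaps
  have h1 : e (f (e.symm (q (R • x)))) = R • x := by
    have h0 := congrArg (fun z => R • z) hfx
    simp only [smul_smul, mul_inv_cancel₀ hR0.ne', one_smul] at h0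
    exact h0
  have h2 : R • x ∈ e '' K := by
    rw [← h1]
    exact ⟨_, hm (hsymm _), rfl⟩
  have h3 : q (R • x) = R • x := hqi _ h2
  rw [h3] at h1
  refine ⟨e.symm (R • x), ?_, ?_⟩
  · have := hsymm (R • x)
    rwa [h3] at this
  · apply e.injective
    rw [h1, e.apply_symm_apply]

end Vale.Agent.P371.Gen
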