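import Vale.Agent.Lib.P371.Gen.Base
import Mathlib.Probability.Distributions.Beta

/-! # P371 Gen: the constants (module Const)

`bdry_eq`: with `η(u) = u log u - u`, the derivative in `y` of
`η(√(κ^2+l) + y) - η(√(κ^2+l) - y) - y log l` is `log (κ^2 + l - y^2) - log l
= log (1 + (κ^2 - y^2)/l)`, and the function vanishes at `y = 0`.
`int_bdry`: Tonelli and `int_log`: `∫_0^κ kap θ (κ^2 - y^2)^θ dy = kap θ κ^{2θ+1} II θ`.
`II_eq`: Beta function: `II θ = (1/2) B(1/2, θ+1) = √π Γ(θ+1) / (2 Γ(θ+3/2))`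
(substitute `y = √u`; Mathlib: `Complex.betaIntegral`, `Complex.Gamma_mul_Gamma_eq_betaIntegral`,
or `ProbabilityTheory.beta` as in `Lib/P371/UpperLT.lean`).
`cp_div`: `cp θ / (2 II θ) = Lone (θ + 1/2)` with `Lone γ = 2 ((γ-1/2)/(γ+1/2))^(γ-1/2) Lcl γ`,
`Lcl γ = Γ(γ+1) / (2 √π Γ(γ+3/2))`, `Γ(θ+2) = (θ+1) Γ(θ+1)`. -/

open Set MeasureTheory

namespace Vale.Agent.P371.Gen

theorem integral_betaPDFReal {a b : ℝ} (ha : 0 < a) (hb : 0 < b) :
    ∫ x in Ioi (0 : ℝ), ProbabilityTheory.betaPDFReal a b x = 1 := by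
  have h1 : ∫ x, ProbabilityTheory.betaPDFReal a b x = 1 := by
    rw [integral_eq_lintegral_of_nonneg_ae]
    · have h := ProbabilityTheory.lintegral_betaPDF_eq_one ha hb
      unfold ProbabilityTheory.betaPDF at h
      rw [h, ENNReal.toReal_one]
    · refine Filter.Eventually.of_forall fun x => ?_
      show 0 ≤ ProbabilityTheory.betaPDFReal a b x
      by_cases hx : 0 < x ∧ x < 1
      · exact (ProbabilityTheory.betaPDFReal_pos hx.1 hx.2 ha hb).le
      · unfold ProbabilityTheory.betaPDFReal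
        rw [if_neg hx]
    · exact (ProbabilityTheory.stronglyMeasurable_betaPDFReal a b).aestronglyMeasurable
  rw [← h1, ← integral_indicator measurableSet_Ioi]
  congr 1
  funext x
  by_cases hx : x ∈ Ioi (0 : ℝ)
  · rw [Set.indicator_of_mem hx]
  · rw [Set.indicator_of_notMem hx]
    unfold ProbabilityTheory.betaPDFReal
    rw [if_neg]
    exact fun h => hx h.1

theorem II_eq_beta {θ : ℝ} (h0 : 0 < θ) :
    II θ = ProbabilityTheory.beta (1 / 2) (θ + 1) / 2 := by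
  have hB := ProbabilityTheory.beta_pos (by norm_num : (0 : ℝ) < 1 / 2)
    (by linarith : (0 : ℝ) < θ + 1)
  have h1 := integral_betaPDFReal (by norm_num : (0 : ℝ) < 1 / 2) (by linarith : (0 : ℝ) < θ + 1)
  have h2 := integral_comp_rpow_Ioi_of_pos
    (g := ProbabilityTheory.betaPDFReal (1 / 2) (θ + 1)) (p := 2) two_pos
  rw [h1] at h2
  have h3 : ∫ x in Ioi (0 : ℝ), (2 * x ^ ((2 : ℝ) - 1)) •
      ProbabilityTheory.betaPDFReal (1 / 2) (θ + 1) (x ^ (2 : ℝ)) =
      ∫ x in Ioi (0 : ℝ), (Ioo (0 : ℝ) 1).indicator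
        (fun x => 2 / ProbabilityTheory.beta (1 / 2) (θ + 1) * (1 - x ^ 2) ^ θ) x := by
    refine setIntegral_congr_fun measurableSet_Ioi fun x hx => ?_
    have hx0 : (0 : ℝ) < x := hx
    have e2 : x ^ (2 : ℝ) = x ^ 2 := by
      rw [← Real.rpow_natCast]
      norm_num
    have e1 : x ^ ((2 : ℝ) - 1) = x := by
      rw [show (2 : ℝ) - 1 = 1 by norm_num, Real.rpow_one]
    simp only [smul_eq_mul]
    rw [e1, e2]
    unfold ProbabilityTheory.betaPDFReal
    by_cases hx1 : x < 1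
    · have hx2 : x ^ 2 < 1 := by nlinarith
      rw [if_pos ⟨by positivity, hx2⟩, Set.indicator_of_mem (show x ∈ Ioo (0 : ℝ) 1 from
        ⟨hx0, hx1⟩)]
      have e3 : (x ^ 2) ^ ((1 / 2 : ℝ) - 1) = x⁻¹ := by
        rw [← Real.rpow_natCast x 2, ← Real.rpow_mul hx0.le]
        rw [show (((2 : ℕ) : ℝ) * (1 / 2 - 1)) = -1 by norm_num, Real.rpow_neg_one]
      rw [e3, add_sub_cancel_right]
      field_simp
    · have hx2 : ¬ (0 < x ^ 2 ∧ x ^ 2 < 1) := fun h => by nlinarith [h.2]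
      rw [if_neg hx2, Set.indicator_of_notMem (fun h => hx1 h.2), mul_zero]
  rw [h3, setIntegral_indicator measurableSet_Ioo, integral_const_mul,
    Set.inter_eq_self_of_subset_right (fun x hx => hx.1)] at h2
  unfold II
  rw [intervalIntegral.integral_of_le zero_le_one, integral_Ioc_eq_integral_Ioo]
  have h4 : 2 / ProbabilityTheory.beta (1 / 2) (θ + 1) ≠ 0 := by positivity
  field_simp at h2 ⊢
  linarith

theorem II_eq {θ : ℝ} (h0 : 0 < θ) :
    II θ = √Real.pi * Real.Gamma (θ + 1) / (2 * Real.Gamma (θ + 3 / 2)) := by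
  rw [II_eq_beta h0]
  unfold ProbabilityTheory.beta
  rw [Real.Gamma_one_half_eq, show (1 / 2 + (θ + 1) : ℝ) = θ + 3 / 2 by ring, div_div]
  congr 1
  ring

theorem II_pos {θ : ℝ} (h0 : 0 < θ) : 0 < II θ := by
  rw [II_eq_beta h0]
  have hB := ProbabilityTheory.beta_pos (by norm_num : (0 : ℝ) < 1 / 2)
    (by linarith : (0 : ℝ) < θ + 1)
  positivity

theorem cp_pos {θ : ℝ} (h0 : 0 < θ) : 0 < cp θ := by
  unfold cp
  positivity

theorem cp_div {θ : ℝ} (h0 : 0 < θ) : cp θ / (2 * II θ) = Lone (θ + 1 / 2) := by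
  rw [II_eq h0]
  unfold cp Lone Lcl
  have h1 : Real.Gamma (θ + 1 / 2 + 3 / 2) = (θ + 1) * Real.Gamma (θ + 1) := by
    rw [show θ + 1 / 2 + 3 / 2 = (θ + 1) + 1 by ring, Real.Gamma_add_one (by positivity)]
  have h2 : 0 < Real.Gamma (θ + 1) := Real.Gamma_pos_of_pos (by linarith)
  have h3 : 0 < Real.Gamma (θ + 3 / 2) := Real.Gamma_pos_of_pos (by linarith)
  have h4 : 0 < √Real.pi := Real.sqrt_pos.2 Real.pi_pos
  have h5 : (1 + θ) ^ (1 + θ) = (θ + 1) * (θ + 1) ^ θ := by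
    rw [Real.rpow_add (by linarith), Real.rpow_one, add_comm 1 θ]
  have h6 : 0 < (θ + 1) ^ θ := Real.rpow_pos_of_pos (by linarith) _
  rw [h1, h5, show θ + 1 / 2 - 1 / 2 = θ by ring, show θ + 1 / 2 + 1 / 2 = θ + 1 by ring,
    show θ + 1 / 2 + 1 = θ + 3 / 2 by ring, Real.div_rpow h0.le (by linarith)]
  field_simp

end Vale.Agent.P371.Gen
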