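import Vale.Agent.Lib.P371.Gen.Sqrt

/-! # P371 Gen: continuity of the functional calculus (module Cont)

Proof: polynomials are clear (`mf (P.eval ·) A = aeval A P`); a continuous `φ` is a uniform limit of
polynomials on a compact interval containing the spectra of all matrices near a given one
(Weierstrass), and `norm_mf_entry_le` bounds the difference entrywise. -/

open Matrix Set MeasureTheory
open scoped ComplexOrder

namespace Vale.Agent.P371.Gen

variable {n : Type*} [Fintype n] [DecidableEq n]

/-- Every eigenvalue is bounded by the Frobenius norm. -/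
theorem eigenvalue_sq_le {A : Matrix n n ℂ} (hA : A.IsHermitian) (i : n) :
    hA.eigenvalues i ^ 2 ≤ rtr (A * A) := by
  have h1 : mf (fun t => t * t) A = A * A := by rw [mf_mul hA, mf_id hA]
  rw [← h1, rtr_mf hA]
  calc hA.eigenvalues i ^ 2 = hA.eigenvalues i * hA.eigenvalues i := by ring
    _ ≤ ∑ j, hA.eigenvalues j * hA.eigenvalues j :=
        Finset.single_le_sum (f := fun j => hA.eigenvalues j * hA.eigenvalues j)
          (fun j _ => mul_self_nonneg _) (Finset.mem_univ i)

theorem mf_polynomial {A : Matrix n n ℂ} (hA : A.IsHermitian) (q : Polynomial ℝ) :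
    mf (fun t => q.eval t) A = Polynomial.aeval A q :=
  cfc_polynomial q A hA

omit [DecidableEq n] in
theorem continuous_rtr : Continuous (fun A : Matrix n n ℂ => rtr A) := by
  unfold rtr
  exact Complex.continuous_re.comp (continuous_id.matrix_trace)

/-- Joint continuity in an extra real parameter. -/
theorem continuousOn_mf_param {X : Type*} [TopologicalSpace X] {s : Set X}
    {φ : X → ℝ → ℝ} (hφ : Continuous (Function.uncurry φ)) {P : X → Matrix n n ℂ}
    (hP : ContinuousOn P s) (hH : ∀ x ∈ s, (P x).IsHermitian) :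
    ContinuousOn (fun x => mf (φ x) (P x)) s := by
  intro x₀ hx₀
  refine tendsto_pi_nhds.mpr (fun i => tendsto_pi_nhds.mpr (fun j => ?_))
  rw [Metric.tendsto_nhds]
  intro ε hε
  set R : ℝ := Real.sqrt (rtr (P x₀ * P x₀) + 1) with hR
  -- near `x₀` the spectra are in `[-R, R]`
  have hcont : ContinuousWithinAt (fun x => rtr (P x * P x)) s x₀ :=
    (continuous_rtr.continuousAt).comp_continuousWithinAt
      (((hP x₀ hx₀).mul (hP x₀ hx₀) : ContinuousWithinAt (fun x => P x * P x) s x₀))
  have h1 : ∀ᶠ x in nhdsWithin x₀ s, rtr (P x * P x) < rtr (P x₀ * P x₀) + 1 :=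
    hcont.eventually (gt_mem_nhds (lt_add_one _))
  have hspec : ∀ {A : Matrix n n ℂ} (hA : A.IsHermitian), rtr (A * A) ≤ rtr (P x₀ * P x₀) + 1 →
      ∀ k, hA.eigenvalues k ∈ Icc (-R) R := by
    intro A hA hle k
    have h2 := (eigenvalue_sq_le hA k).trans hle
    exact abs_le.mp (Real.abs_le_sqrt h2)
  obtain ⟨q, hq⟩ := exists_polynomial_near_of_continuousOn (-R) R (φ x₀)
    (by
      have : Continuous (φ x₀) := hφ.comp (Continuous.prodMk_right x₀)
      exact this.continuousOn) (ε / 4) (by positivity)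
  -- the tube
  have h3 : ∀ᶠ x in nhds x₀, ∀ t ∈ Icc (-R) R, |φ x t - φ x₀ t| < ε / 4 := by
    have hopen : IsOpen {p : X × ℝ | |φ p.1 p.2 - φ x₀ p.2| < ε / 4} := by
      apply isOpen_lt _ continuous_const
      apply Continuous.abs
      apply Continuous.sub hφ
      exact hφ.comp ((continuous_const).prodMk continuous_snd)
    obtain ⟨u, v, hu, -, hxu, htv, huv⟩ := generalized_tube_lemma (s := {x₀})
      isCompact_singleton (isCompact_Icc (a := -R) (b := R)) hopen (by
        rintro ⟨x, t⟩ ⟨hx, -⟩
        simp only [mem_singleton_iff] at hx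
        subst hx
        simp [hε])
    filter_upwards [hu.mem_nhds (hxu rfl)] with x hx t ht
    exact huv (mk_mem_prod hx (htv ht))
  have h3' : ∀ᶠ x in nhdsWithin x₀ s, ∀ t ∈ Icc (-R) R, |φ x t - φ x₀ t| < ε / 4 :=
    h3.filter_mono nhdsWithin_le_nhds
  -- polynomial part
  have h4 : ContinuousWithinAt (fun x => (Polynomial.aeval (P x) q) i j) s x₀ := by
    have h5 : ContinuousWithinAt (fun x => Polynomial.aeval (P x) q) s x₀ :=
      (q.continuous_aeval (A := Matrix n n ℂ)).continuousAt.comp_continuousWithinAt (hP x₀ hx₀)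
    exact ((continuous_apply j).comp (continuous_apply i)).continuousAt.comp_continuousWithinAt h5
  have h6 := (Metric.tendsto_nhds.mp h4) (ε / 4) (by positivity)
  have hid : ∀ {A : Matrix n n ℂ} (hA : A.IsHermitian) (f g : ℝ → ℝ) (C : ℝ),
      (∀ k, |f (hA.eigenvalues k) - g (hA.eigenvalues k)| ≤ C) →
      ‖mf f A i j - mf g A i j‖ ≤ C := by
    intro A hA f g C hC
    have h7 : mf f A i j - mf g A i j = mf (fun t => f t - g t) A i j := by
      rw [mf_sub hA, Matrix.sub_apply]
    rw [h7]
    exact norm_mf_entry_le hA hC i j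
  have hx₀b : ∀ k, (hH x₀ hx₀).eigenvalues k ∈ Icc (-R) R :=
    hspec (hH x₀ hx₀) (by linarith)
  filter_upwards [h1, h3', h6, self_mem_nhdsWithin] with x hx1 hx3 hx6 hxs
  have hb := hspec (hH x hxs) hx1.le
  have e1 : ‖mf (φ x) (P x) i j - mf (fun t => q.eval t) (P x) i j‖ ≤ ε / 2 := by
    apply hid (hH x hxs)
    intro k
    have a1 := hx3 _ (hb k)
    have a2 := hq _ (hb k)
    rw [abs_sub_comm] at a2
    calc |φ x ((hH x hxs).eigenvalues k) - q.eval ((hH x hxs).eigenvalues k)|
        ≤ |φ x ((hH x hxs).eigenvalues k) - φ x₀ ((hH x hxs).eigenvalues k)|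
          + |φ x₀ ((hH x hxs).eigenvalues k) - q.eval ((hH x hxs).eigenvalues k)| :=
          abs_sub_le _ _ _
      _ ≤ ε / 4 + ε / 4 := add_le_add a1.le a2.le
      _ = ε / 2 := by ring
  have e2 : ‖mf (fun t => q.eval t) (P x₀) i j - mf (φ x₀) (P x₀) i j‖ ≤ ε / 4 := by
    apply hid (hH x₀ hx₀)
    intro k
    exact (hq _ (hx₀b k)).le
  rw [mf_polynomial (hH x hxs)] at e1
  rw [mf_polynomial (hH x₀ hx₀)] at e2
  rw [dist_eq_norm] at hx6
  rw [dist_eq_norm]
  calc ‖mf (φ x) (P x) i j - mf (φ x₀) (P x₀) i j‖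
      = ‖(mf (φ x) (P x) i j - (Polynomial.aeval (P x) q) i j)
          + ((Polynomial.aeval (P x) q) i j - (Polynomial.aeval (P x₀) q) i j)
          + ((Polynomial.aeval (P x₀) q) i j - mf (φ x₀) (P x₀) i j)‖ := by
        congr 1; ring
    _ ≤ ‖mf (φ x) (P x) i j - (Polynomial.aeval (P x) q) i j‖
          + ‖(Polynomial.aeval (P x) q) i j - (Polynomial.aeval (P x₀) q) i j‖
          + ‖(Polynomial.aeval (P x₀) q) i j - mf (φ x₀) (P x₀) i j‖ := norm_add₃_le
    _ < ε := by linarith

theorem continuousOn_mf {φ : ℝ → ℝ} (hφ : Continuous φ) :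
    ContinuousOn (fun A : Matrix n n ℂ => mf φ A) {A | A.IsHermitian} :=
  continuousOn_mf_param (φ := fun _ => φ) (P := fun A => A)
    (by
      show Continuous (fun p : Matrix n n ℂ × ℝ => φ p.2)
      exact hφ.comp continuous_snd)
    continuousOn_id (fun _ h => h)

/-- The logarithm is continuous along continuous families of matrices bounded below by `c > 0`
(replace `log t` by `log (max t c)`). -/
theorem continuousOn_mf_log {X : Type*} [TopologicalSpace X] {s : Set X} {P : X → Matrix n n ℂ}
    (hP : ContinuousOn P s) {c : ℝ} (hc : 0 < c)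
    (h : ∀ x ∈ s, (P x - (c : ℂ) • (1 : Matrix n n ℂ)).PosSemidef) :
    ContinuousOn (fun x => mf Real.log (P x)) s := by
  have hH : ∀ x ∈ s, (P x).IsHermitian := by
    intro x hx
    have h1 := (h x hx).isHermitian
    have h2 : ((c : ℂ) • (1 : Matrix n n ℂ)).IsHermitian := by
      unfold Matrix.IsHermitian
      rw [Matrix.conjTranspose_smul, Matrix.conjTranspose_one]
      simp
    have h3 := h1.add h2
    simpa using h3
  have hcont : Continuous (fun t : ℝ => Real.log (max t c)) := by
    apply Continuous.log (continuous_id.max continuous_const)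
    intro t
    exact (lt_of_lt_of_le hc (le_max_right _ _)).ne'
  have h4 := (continuousOn_mf (n := n) hcont).comp hP hH
  refine h4.congr ?_
  intro x hx
  apply mf_congr (hH x hx)
  intro i
  have := le_eigenvalues (hH x hx) (h x hx) i
  simp [max_eq_left this]

theorem continuousOn_msqrt : ContinuousOn (fun A : Matrix n n ℂ => msqrt A) {A | A.IsHermitian} :=
  continuousOn_mf Real.continuous_sqrt

end Vale.Agent.P371.Gen
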