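import Vale.Agent.Lib.P371.Gen.RicComp

/-! # P371 Gen: the a priori bound (module RicBound)

`trace_pos`: `K = √E`, `P = K + Y ≥ 0`, `Q = K - Y ≥ 0`, `E - Y^2 = (PQ + QP)/2`, `E = (P+Q)^2/4`:
`tr (E (E - Y^2)) = (1/8) tr ((P+Q)^2 (PQ+QP)) = (1/8) [2 tr (P^3 Q) + 2 tr (Q^3 P)
  + tr ((PQ+QP)^2)] ≥ 0`.
`trace_bound`: `tr (E (Y b + K)) = ∫_a^b tr (E (Y^2 - E + W)) ≤ ∫_a^b tr (E W) ≤ w₀ (b-a) tr E`,
and `E K = K E`, so `tr (E (K - Y b)) = 2 tr (E K) - tr (E (Y b + K))`.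
`energy_bound`: with `k_i ≥ 0` the eigenvalues of `√E`, `S_j = ∑ k_i^j`, `N = card n`:
`S_1 ≤ √N √S_2`, `S_2^2 ≤ S_1 S_3`, so `S_3 ≥ S_2^{3/2} / √N`, and
`2 S_2^{3/2}/√N ≤ w₀ ℓ S_2 + 2 w₀ √N √S_2`. If `S_2 ≥ 1` this gives
`2 √S_2 ≤ w₀ ℓ √N + 2 w₀ N`. -/

open Matrix Set MeasureTheory
open scoped ComplexOrder

namespace Vale.Agent.P371.Gen

variable {n : Type*} [Fintype n] [DecidableEq n]

omit [Fintype n] [DecidableEq n] in
theorem rb_rtr_add [Fintype n] (A B : Matrix n n ℂ) : rtr (A + B) = rtr A + rtr B := by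
  unfold rtr
  rw [Matrix.trace_add, Complex.add_re]

omit [DecidableEq n] in
theorem rb_rtr_sub (A B : Matrix n n ℂ) : rtr (A - B) = rtr A - rtr B := by
  unfold rtr
  rw [Matrix.trace_sub, Complex.sub_re]

omit [DecidableEq n] in
theorem rb_rtr_comm (A B : Matrix n n ℂ) : rtr (A * B) = rtr (B * A) := by
  unfold rtr
  rw [Matrix.trace_mul_comm]

omit [DecidableEq n] in
theorem rb_rtr_smul (c : ℝ) (A : Matrix n n ℂ) : rtr ((c : ℂ) • A) = c * rtr A := by
  unfold rtr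
  rw [Matrix.trace_smul, smul_eq_mul, Complex.re_ofReal_mul]

theorem trace_pos {E Y : Matrix n n ℂ} (hE : E.PosSemidef) (hY : Y.IsHermitian)
    (h1 : (msqrt E - Y).PosSemidef) (h2 : (msqrt E + Y).PosSemidef) :
    0 ≤ rtr (E * (E - Y * Y)) := by
  have hKK := msqrt_mul_self hE
  set K := msqrt E with hK
  set P := K + Y with hP
  set Q := K - Y with hQ
  have e1 : (8 : ℂ) • (E * (E - Y * Y)) =
      (P + Q) * (P + Q) * (P * Q + Q * P) := by
    have hPQ : P + Q = (2 : ℂ) • K := by rw [two_smul, hP, hQ]; abel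
    have hc : P * Q + Q * P = (2 : ℂ) • (E - Y * Y) := by
      rw [two_smul, hP, hQ, ← hKK]; noncomm_ring
    rw [hPQ, hc]
    simp only [Matrix.smul_mul, Matrix.mul_smul, smul_smul, hKK]
    norm_num
  have e2 : (P + Q) * (P + Q) * (P * Q + Q * P) =
      (P * P * P * Q + (P * P) * (Q * P)) + ((Q * Q) * (P * Q) + Q * Q * Q * P) +
        (P * Q + Q * P) * (P * Q + Q * P) := by
    noncomm_ring
  have e3 : rtr ((P * P) * (Q * P)) = rtr (P * P * P * Q) := by
    rw [← Matrix.mul_assoc, rb_rtr_comm]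
    congr 1
    noncomm_ring
  have e4 : rtr ((Q * Q) * (P * Q)) = rtr (Q * Q * Q * P) := by
    rw [← Matrix.mul_assoc, rb_rtr_comm]
    congr 1
    noncomm_ring
  have p1 : 0 ≤ rtr (P * P * P * Q) := by
    have : (P * P * P).PosSemidef := by
      have h := h2.mul_mul_conjTranspose_same P
      rwa [h2.isHermitian.eq] at h
    exact rtr_mul_nonneg this h1
  have p2 : 0 ≤ rtr (Q * Q * Q * P) := by
    have : (Q * Q * Q).PosSemidef := by
      have h := h1.mul_mul_conjTranspose_same Q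
      rwa [h1.isHermitian.eq] at h
    exact rtr_mul_nonneg this h2
  have p3 : 0 ≤ rtr ((P * Q + Q * P) * (P * Q + Q * P)) := by
    have hH : (P * Q + Q * P).IsHermitian := by
      unfold Matrix.IsHermitian
      rw [Matrix.conjTranspose_add, Matrix.conjTranspose_mul, Matrix.conjTranspose_mul,
        h1.isHermitian.eq, h2.isHermitian.eq, add_comm]
    have h := Matrix.posSemidef_conjTranspose_mul_self (P * Q + Q * P)
    rw [hH.eq] at h
    exact rtr_nonneg h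
  have e5 : 8 * rtr (E * (E - Y * Y)) = rtr ((P + Q) * (P + Q) * (P * Q + Q * P)) := by
    rw [← e1]
    have := rb_rtr_smul 8 (E * (E - Y * Y))
    push_cast at this
    rw [this]
  rw [e2, rb_rtr_add, rb_rtr_add, rb_rtr_add, rb_rtr_add, e3, e4] at e5
  linarith

omit [DecidableEq n] in
theorem rb_hasDeriv_rtr {a b : ℝ} (M : Matrix n n ℂ) {Y Y' : ℝ → Matrix n n ℂ}
    (hY : HasMD Y Y' a b) {x : ℝ} (hx : x ∈ Icc a b) :
    HasDerivWithinAt (fun t => rtr (M * Y t)) (rtr (M * Y' x)) (Icc a b) x := by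
  have h1 : HasDerivWithinAt (fun t => (M * Y t).trace) ((M * Y' x).trace) (Icc a b) x := by
    have e : ∀ Z : Matrix n n ℂ, (M * Z).trace = ∑ i, ∑ j, M i j * Z j i := by
      intro Z
      rw [Matrix.trace]
      refine Finset.sum_congr rfl fun i _ => ?_
      rw [Matrix.diag_apply, Matrix.mul_apply]
    have e' : (fun t => (M * Y t).trace) = fun t => ∑ i, ∑ j, M i j * Y t j i := by
      funext t
      exact e (Y t)
    rw [e', e (Y' x)]
    refine HasDerivWithinAt.fun_sum fun i _ => HasDerivWithinAt.fun_sum fun j _ => ?_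
    exact (hY x hx j i).const_mul (M i j)
  exact Complex.reCLM.hasFDerivAt.comp_hasDerivWithinAt x h1

theorem trace_bound {a b : ℝ} (hab : a ≤ b) {W : ℝ → Matrix n n ℂ}
    (hWc : ContinuousOn W (Icc a b)) (hW : ∀ x ∈ Icc a b, (W x).PosSemidef) {w₀ : ℝ}
    (hle : ∀ x ∈ Icc a b, ((w₀ : ℂ) • (1 : Matrix n n ℂ) - W x).PosSemidef)
    {E : Matrix n n ℂ} {Y : ℝ → Matrix n n ℂ} (hE : E.PosSemidef) (hR : IsRic a b W E Y)
    (hend : (msqrt E - Y b).PosSemidef) :
    2 * rtr (E * msqrt E) - w₀ * (b - a) * rtr E ≤ rtr (E * (msqrt E - Y b)) := by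
  have hge := ric_ge hab hW hE hR
  have hle' := ric_le hab hW hE hR hend
  have hder : ∀ x ∈ Icc a b, HasDerivWithinAt
      (fun t => rtr (E * Y t) - w₀ * rtr E * t)
      (rtr (E * (Y x * Y x - E + W x)) - w₀ * rtr E) (Icc a b) x := by
    intro x hx
    have h1 := rb_hasDeriv_rtr E hR.deriv hx
    have h2 : HasDerivWithinAt (fun t : ℝ => w₀ * rtr E * t) (w₀ * rtr E) (Icc a b) x := by
      simpa using (hasDerivWithinAt_id x (Icc a b)).const_mul (w₀ * rtr E)
    exact h1.fun_sub h2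
  have hneg : ∀ x ∈ Icc a b, rtr (E * (Y x * Y x - E + W x)) - w₀ * rtr E ≤ 0 := by
    intro x hx
    have t1 := trace_pos hE (hR.herm x hx) (hle' x hx) (hge x hx)
    have t2 := rtr_mul_nonneg hE (hle x hx)
    have e : E * (Y x * Y x - E + W x) =
        (w₀ : ℂ) • E - (E * (E - Y x * Y x) + E * ((w₀ : ℂ) • (1 : Matrix n n ℂ) - W x)) := by
      rw [Matrix.mul_sub E ((w₀ : ℂ) • (1 : Matrix n n ℂ)), Matrix.mul_smul, Matrix.mul_one]
      simp only [Matrix.mul_add, Matrix.mul_sub]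
      abel
    rw [e, rb_rtr_sub, rb_rtr_add, rb_rtr_smul]
    linarith
  have hanti : AntitoneOn (fun t => rtr (E * Y t) - w₀ * rtr E * t) (Icc a b) := by
    refine antitoneOn_of_hasDerivWithinAt_nonpos (convex_Icc a b)
      (fun x hx => (hder x hx).continuousWithinAt)
      (f' := fun x => rtr (E * (Y x * Y x - E + W x)) - w₀ * rtr E) ?_ ?_
    · intro x hx
      exact (hder x (interior_subset hx)).mono interior_subset
    · intro x hx
      exact hneg x (interior_subset hx)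
  have h := hanti (left_mem_Icc.2 hab) (right_mem_Icc.2 hab) hab
  simp only at h
  rw [hR.init, Matrix.mul_neg] at h
  have hn : rtr (-(E * msqrt E)) = - rtr (E * msqrt E) := by
    unfold rtr
    rw [Matrix.trace_neg, Complex.neg_re]
  rw [hn] at h
  rw [Matrix.mul_sub, rb_rtr_sub]
  nlinarith [h]

theorem energy_bound {w₀ L : ℝ} (hw₀ : 0 ≤ w₀) (hL : 0 ≤ L) {E : Matrix n n ℂ}
    (hE : E.PosSemidef)
    (h : 2 * rtr (E * msqrt E) ≤ w₀ * L * rtr E + 2 * w₀ * rtr (msqrt E)) :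
    rtr E ≤ max 1 ((w₀ * L * Real.sqrt (Fintype.card n) + 2 * w₀ * Fintype.card n) ^ 2) := by
  have hH := hE.isHermitian
  set k : n → ℝ := fun i => Real.sqrt (hH.eigenvalues i) with hk
  have hk0 : ∀ i, 0 ≤ k i := fun i => Real.sqrt_nonneg _
  have hk2 : ∀ i, hH.eigenvalues i = k i ^ 2 := fun i =>
    (Real.sq_sqrt (hE.eigenvalues_nonneg i)).symm
  have e2 : rtr E = ∑ i, k i ^ 2 := by
    have := rtr_mf hH (fun t => t)
    rw [mf_id hH] at this
    rw [this]
    exact Finset.sum_congr rfl fun i _ => hk2 i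
  have e1 : rtr (msqrt E) = ∑ i, k i := rtr_mf hH Real.sqrt
  have e3 : rtr (E * msqrt E) = ∑ i, k i ^ 3 := by
    have e : E * msqrt E = mf (fun t => t * Real.sqrt t) E := by
      rw [mf_mul hH (fun t => t) Real.sqrt, mf_id hH]
      rfl
    rw [e, rtr_mf hH]
    refine Finset.sum_congr rfl fun i _ => ?_
    change hH.eigenvalues i * k i = k i ^ 3
    rw [hk2 i]
    ring
  rw [e1, e2, e3] at h
  rw [e2]
  set S1 := ∑ i, k i with hS1
  set S2 := ∑ i, k i ^ 2 with hS2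
  set S3 := ∑ i, k i ^ 3 with hS3
  set r := Real.sqrt (Fintype.card n) with hr
  have hr0 : 0 ≤ r := Real.sqrt_nonneg _
  have hr2 : r ^ 2 = (Fintype.card n : ℝ) := Real.sq_sqrt (Nat.cast_nonneg _)
  have hS1n : 0 ≤ S1 := Finset.sum_nonneg fun i _ => hk0 i
  have hS2n : 0 ≤ S2 := Finset.sum_nonneg fun i _ => sq_nonneg _
  have hS3n : 0 ≤ S3 := Finset.sum_nonneg fun i _ => pow_nonneg (hk0 i) 3
  have c1 : S1 ^ 2 ≤ r ^ 2 * S2 := by
    rw [hr2]
    have := sq_sum_le_card_mul_sum_sq (s := (Finset.univ : Finset n)) (f := k)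
    simpa using this
  have c2 : S2 ^ 2 ≤ S1 * S3 := by
    refine Finset.sum_sq_le_sum_mul_sum_of_sq_le_mul _ (fun i _ => hk0 i)
      (fun i _ => pow_nonneg (hk0 i) 3) (fun i _ => le_of_eq ?_)
    ring
  rcases le_or_gt S2 1 with h1 | h1
  · exact h1.trans (le_max_left _ _)
  refine le_trans ?_ (le_max_right _ _)
  set T := Real.sqrt S2 with hT
  have hT2 : T ^ 2 = S2 := Real.sq_sqrt hS2n
  have hT1 : 1 ≤ T := by
    rw [hT]
    exact Real.one_le_sqrt.2 h1.le
  have hT0 : 0 < T := by linarith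
  have d1 : S1 ≤ r * T := by
    refine abs_le_of_sq_le_sq' ?_ (by positivity) |>.2
    rw [mul_pow, hT2]
    exact c1
  have d2 : T ^ 3 ≤ r * S3 := by
    have : T ^ 3 * T ≤ r * S3 * T := by
      calc T ^ 3 * T = S2 ^ 2 := by rw [← hT2]; ring
        _ ≤ S1 * S3 := c2
        _ ≤ r * T * S3 := mul_le_mul_of_nonneg_right d1 hS3n
        _ = r * S3 * T := by ring
    exact le_of_mul_le_mul_right this hT0
  have d3 : 2 * T ^ 3 ≤ w₀ * L * r * T ^ 2 + 2 * w₀ * r ^ 2 * T := by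
    calc 2 * T ^ 3 ≤ r * (2 * S3) := by linarith
      _ ≤ r * (w₀ * L * S2 + 2 * w₀ * S1) := mul_le_mul_of_nonneg_left h hr0
      _ ≤ r * (w₀ * L * T ^ 2 + 2 * w₀ * (r * T)) := by
          rw [hT2]
          refine mul_le_mul_of_nonneg_left ?_ hr0
          have := mul_le_mul_of_nonneg_left d1 (by positivity : 0 ≤ 2 * w₀)
          linarith
      _ = w₀ * L * r * T ^ 2 + 2 * w₀ * r ^ 2 * T := by ring
  have d4 : 2 * T ≤ w₀ * L * r + 2 * w₀ * r ^ 2 := by
    have hA : 0 ≤ 2 * w₀ * r ^ 2 := by positivity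
    have : 2 * T * T ^ 2 ≤ (w₀ * L * r + 2 * w₀ * r ^ 2) * T ^ 2 := by
      nlinarith [mul_nonneg hA (mul_nonneg hT0.le (sub_nonneg.2 hT1))]
    exact le_of_mul_le_mul_right this (by positivity)
  rw [← hT2, ← hr2]
  have d5 : T ≤ w₀ * L * r + 2 * w₀ * r ^ 2 := by linarith
  exact pow_le_pow_left₀ hT0.le d5 2

end Vale.Agent.P371.Gen
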