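import Vale.Agent.Lib.P371.Gen.RicOpen

/-! # P371 Gen: the descent direction (module RicDir)

`adm_open`: let `Y₁` be the solution for `E₁` with `√E₁ - Y₁ b` positive definite and `E₁` positive
definite, `Φ` Hermitian. For small `t > 0`, `E₁ - t Φ ∈ Adm`. Proof: let `κ` bound the eigenvalues
of `√E₁`, `c = 2 κ + 2`, `Z(x) = Y₁(x) + μ e^{c (x - a)} 1`. Then
`Z' - (Z^2 - (E₁ - tΦ) + W) = μ e^{c(x-a)} (c - 2 Y₁ - μ e^{c(x-a)}) - t Φ ≥ 0` if
`μ e^{c(b-a)} ≤ 1` and `t ‖Φ‖ ≤ μ`. Initial value: `Z a + √(E₁ - tΦ) = √(E₁ - tΦ) - √E₁ + μ ≥ 0`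
for `t` small (continuity of the square root), end value:
`√(E₁ - tΦ) - Z b = √E₁ - Y₁ b - μ e^{c(b-a)} + (√(E₁ - tΦ) - √E₁) ≥ 0` for `μ` and then `t`
small. Also `E₁ - tΦ ≥ 0` for small `t`. Apply `ric_exists`, `ric_comp`.

`adm_dir`: let `E ∈ Adm`, `Φ = √E - Y b ≥ 0`, `Φ ≠ 0`. Let `P` be the orthogonal projection onto
`ker Φ` (`P = mf (fun t => if t = 0 then 1 else 0) Φ`). Facts:
* `ker E ⊆ ker Φ`: if `E v = 0` then `√E v = 0`, and `-√E ≤ Y b ≤ √E` (`ric_ge`) gives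
  `⟨v, (√E ± Y b) v⟩ ≥ 0` with `√E v = 0`, so `⟨v, Y b v⟩ = 0`, `(√E + Y b) v = 0`, `Y b v = 0`.
* `E₁ = E + P` is positive definite: `⟨v, (E + P) v⟩ = 0` gives `E v = 0`, `P v = 0`, but `E v = 0`
  gives `Φ v = 0`, `P v = v`, so `v = 0`.
* by `adm_of_le` the solution `Y₁` for `E₁` exists and `Y₁ ≤ Y`. So
  `√E₁ - Y₁ b ≥ (√E₁ - √E) + Φ`, and this is positive definite: if `⟨v, . v⟩ = 0` then `Φ v = 0`,
  `P v = v`, and `(√E₁ - √E) v = 0` (it is `≥ 0`), so `|√E₁ v|^2 = |√E v|^2`, i.e.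
  `⟨v, P v⟩ = 0`, `v = 0`.
* `adm_open`: for small `t`, `E + P - tΦ ∈ Adm`. Take `H = P - tΦ`:
  `tr (Φ H) = - t tr Φ^2 < 0`, `tr H ≤ tr P ≤ N`. -/

open Matrix Set MeasureTheory
open scoped ComplexOrder

namespace Vale.Agent.P371.Gen

variable {n : Type*} [Fintype n] [DecidableEq n]

private theorem ricdir_posDef {A : Matrix n n ℂ} (hA : A.PosSemidef)
    (h : ∀ v : n → ℂ, A *ᵥ v = 0 → v = 0) : A.PosDef := by
  refine PosDef.of_dotProduct_mulVec_pos hA.isHermitian ?_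
  intro x hx
  refine lt_of_le_of_ne (hA.dotProduct_mulVec_nonneg x) ?_
  intro h0
  exact hx (h x ((hA.dotProduct_mulVec_zero_iff x).1 h0.symm))

/-- the null vectors of a sum of positive semidefinite matrices -/
private theorem ricdir_null {A B : Matrix n n ℂ} (hA : A.PosSemidef) (hB : B.PosSemidef)
    {v : n → ℂ} (h : (A + B) *ᵥ v = 0) : A *ᵥ v = 0 ∧ B *ᵥ v = 0 := by
  have h1 : star v ⬝ᵥ (A *ᵥ v) + star v ⬝ᵥ (B *ᵥ v) = 0 := by
    rw [← dotProduct_add, ← add_mulVec, h, dotProduct_zero]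
  have hA0 := hA.dotProduct_mulVec_nonneg v
  have hB0 := hB.dotProduct_mulVec_nonneg v
  have h2 : star v ⬝ᵥ (A *ᵥ v) = 0 := by
    refine le_antisymm ?_ hA0
    rw [← h1]
    exact le_add_of_nonneg_right hB0
  have h3 : star v ⬝ᵥ (B *ᵥ v) = 0 := by
    rw [h2, zero_add] at h1
    exact h1
  exact ⟨(hA.dotProduct_mulVec_zero_iff v).1 h2, (hB.dotProduct_mulVec_zero_iff v).1 h3⟩

/-- `⟨v, K² v⟩ = |K v|²` -/
private theorem ricdir_sq {K : Matrix n n ℂ} (hK : K.IsHermitian) (v : n → ℂ) :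
    star v ⬝ᵥ ((K * K) *ᵥ v) = star (K *ᵥ v) ⬝ᵥ (K *ᵥ v) := by
  rw [← mulVec_mulVec, dotProduct_mulVec, star_mulVec, hK.eq]

private theorem ricdir_rtr_add (A B : Matrix n n ℂ) : rtr (A + B) = rtr A + rtr B := by
  unfold rtr
  rw [trace_add, Complex.add_re]

private theorem ricdir_rtr_sub (A B : Matrix n n ℂ) : rtr (A - B) = rtr A - rtr B := by
  unfold rtr
  rw [trace_sub, Complex.sub_re]

private theorem ricdir_rtr_smul (t : ℝ) (A : Matrix n n ℂ) :
    rtr ((t : ℂ) • A) = t * rtr A := by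
  unfold rtr
  rw [trace_smul, smul_eq_mul, Complex.re_ofReal_mul]

private theorem ricdir_rtr_sq_pos {A : Matrix n n ℂ} (hA : A.PosSemidef) (h : A ≠ 0) :
    0 < rtr (A * A) := by
  have h0 := rtr_mul_nonneg hA hA
  refine lt_of_le_of_ne h0 ?_
  intro h1
  apply h
  have h2 : (Aᴴ * A).PosSemidef := posSemidef_conjTranspose_mul_self A
  have h3 := h2.trace_nonneg
  rw [← trace_conjTranspose_mul_self_eq_zero_iff]
  rw [Complex.le_def] at h3
  apply Complex.ext
  · rw [hA.isHermitian.eq]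
    exact h1.symm
  · exact h3.2.symm

theorem adm_dir {a b : ℝ} (hab : a ≤ b) {W : ℝ → Matrix n n ℂ}
    (hWc : ContinuousOn W (Icc a b)) (hW : ∀ x ∈ Icc a b, (W x).PosSemidef)
    {E : Matrix n n ℂ} {Y : ℝ → Matrix n n ℂ} (hE : E.PosSemidef) (hR : IsRic a b W E Y)
    (hend : (msqrt E - Y b).PosSemidef) (hne : msqrt E - Y b ≠ 0) :
    ∃ H : Matrix n n ℂ, E + H ∈ Adm a b W ∧ rtr ((msqrt E - Y b) * H) < 0 ∧
      rtr H ≤ Fintype.card n := by
  classical
  set K := msqrt E with hKdef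
  have hK : K.PosSemidef := msqrt_posSemidef E
  have hKK : K * K = E := msqrt_mul_self hE
  set Φ := K - Y b with hΦdef
  have hΦH : Φ.IsHermitian := hend.isHermitian
  have hb : b ∈ Icc a b := ⟨hab, le_rfl⟩
  have hplus : (K + Y b).PosSemidef := ric_ge hab hW hE hR b hb
  -- the projection onto the kernel of `Φ`
  set P := mf (fun t => if t = 0 then (1 : ℝ) else 0) Φ with hPdef
  have hP : P.PosSemidef := mf_posSemidef hΦH (fun i => by
    split_ifs <;> norm_num)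
  have hΦP : Φ * P = 0 := by
    have h1 : Φ * P = mf (fun t => t * (if t = 0 then (1 : ℝ) else 0)) Φ := by
      rw [mf_mul hΦH (fun t => t), mf_id hΦH]
    have h2 : (fun t : ℝ => t * (if t = 0 then (1 : ℝ) else 0)) = fun _ => (0 : ℝ) := by
      funext t
      by_cases h : t = 0
      · simp [h]
      · simp [h]
    rw [h1, h2, mf_const hΦH]
    simp
  have hPv : ∀ v : n → ℂ, Φ *ᵥ v = 0 → P *ᵥ v = v := by
    intro v hv
    have h1 : (1 : Matrix n n ℂ) - P = mf (fun t => if t = 0 then (0 : ℝ) else 1 / t) Φ * Φ := by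
      have h2 : mf (fun t => (if t = 0 then (0 : ℝ) else 1 / t) * t) Φ =
          mf (fun t => if t = 0 then (0 : ℝ) else 1 / t) Φ * Φ := by
        rw [mf_mul hΦH _ (fun t => t), mf_id hΦH]
      rw [← h2]
      have h3 : (fun t : ℝ => (if t = 0 then (0 : ℝ) else 1 / t) * t) =
          fun t => 1 - (if t = 0 then (1 : ℝ) else 0) := by
        funext t
        by_cases h : t = 0
        · simp [h]
        · simp [h]
      rw [h3, mf_sub hΦH (fun _ => (1 : ℝ)), mf_const hΦH]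
      simp [hPdef]
    have h4 : ((1 : Matrix n n ℂ) - P) *ᵥ v = 0 := by
      rw [h1, ← mulVec_mulVec, hv, mulVec_zero]
    rw [sub_mulVec, one_mulVec] at h4
    exact (sub_eq_zero.1 h4).symm
  -- the kernel of `E` is contained in the kernel of `Φ`
  have hker : ∀ v : n → ℂ, E *ᵥ v = 0 → Φ *ᵥ v = 0 := by
    intro v hv
    have hKv : K *ᵥ v = 0 := by
      have h1 := ricdir_sq hK.isHermitian v
      rw [hKK, hv, dotProduct_zero] at h1
      exact dotProduct_star_self_eq_zero.1 h1.symm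
    have h2 : (Φ + (K + Y b)) *ᵥ v = 0 := by
      have h3 : Φ + (K + Y b) = K + K := by
        rw [hΦdef]
        abel
      rw [h3, add_mulVec, hKv, add_zero]
    exact (ricdir_null hend hplus h2).1
  have hE₁ : (E + P).PosDef := by
    refine ricdir_posDef (hE.add hP) ?_
    intro v hv
    obtain ⟨h1, h2⟩ := ricdir_null hE hP hv
    rw [← hPv v (hker v h1)]
    exact h2
  obtain ⟨Y₁, hR₁, hYY, hend₁, -⟩ := adm_of_le (W' := W) (E' := E + P) hab hWc hW hE hR hend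
    (by rw [add_sub_cancel_left]; exact hP)
    (fun x _ => by
      have h1 : (W x - E) - (W x - (E + P)) = P := by abel
      rw [h1]
      exact hP)
  have hK₁ : (msqrt (E + P)).PosSemidef := msqrt_posSemidef _
  have hKK₁ : msqrt (E + P) * msqrt (E + P) = E + P := msqrt_mul_self (hE.add hP)
  have hmono : (msqrt (E + P) - K).PosSemidef :=
    msqrt_mono hE (by rw [add_sub_cancel_left]; exact hP)
  have hdef : (msqrt (E + P) - Y₁ b).PosDef := by
    refine ricdir_posDef hend₁ ?_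
    intro v hv
    have h1 : msqrt (E + P) - Y₁ b = ((msqrt (E + P) - K) + Φ) + (Y b - Y₁ b) := by
      rw [hΦdef]
      abel
    rw [h1] at hv
    obtain ⟨h2, -⟩ := ricdir_null (hmono.add hend) (hYY b hb) hv
    obtain ⟨h3, h4⟩ := ricdir_null hmono hend h2
    have h5 : msqrt (E + P) *ᵥ v = K *ᵥ v := by
      rw [sub_mulVec] at h3
      exact sub_eq_zero.1 h3
    have h6 := ricdir_sq hK₁.isHermitian v
    have h7 := ricdir_sq hK.isHermitian v
    rw [hKK₁, h5, ← h7, hKK, add_mulVec, dotProduct_add] at h6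
    have h8 : star v ⬝ᵥ (P *ᵥ v) = 0 := by
      have := h6
      rw [add_eq_left] at this
      exact this
    rw [← hPv v h4]
    exact (hP.dotProduct_mulVec_zero_iff v).1 h8
  obtain ⟨t₀, ht₀, hopen⟩ := adm_open hab hWc hW hE₁ hΦH hR₁ hdef
  refine ⟨P - (t₀ : ℂ) • Φ, ?_, ?_, ?_⟩
  · have h1 : E + (P - (t₀ : ℂ) • Φ) = E + P - (t₀ : ℂ) • Φ := by abel
    rw [h1]
    exact hopen t₀ ht₀ le_rfl
  · rw [mul_sub, hΦP, mul_smul_comm, zero_sub]
    have h1 : rtr (-((t₀ : ℂ) • (Φ * Φ))) = -(t₀ * rtr (Φ * Φ)) := by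
      rw [← ricdir_rtr_smul]
      unfold rtr
      rw [trace_neg, Complex.neg_re]
    rw [h1]
    have h2 := ricdir_rtr_sq_pos hend hne
    have h3 : 0 < t₀ * rtr (Φ * Φ) := mul_pos ht₀ h2
    linarith
  · rw [ricdir_rtr_sub, ricdir_rtr_smul]
    have h1 : 0 ≤ t₀ * rtr Φ := mul_nonneg ht₀.le (rtr_nonneg hend)
    have h2 : rtr P ≤ Fintype.card n := by
      rw [hPdef, rtr_mf hΦH]
      calc ∑ i, (if hΦH.eigenvalues i = 0 then (1 : ℝ) else 0) ≤ ∑ _i : n, (1 : ℝ) := by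
            apply Finset.sum_le_sum
            intro i _
            split_ifs <;> norm_num
        _ = Fintype.card n := by simp
    linarith

end Vale.Agent.P371.Gen
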