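import Vale.Agent.Lib.P371.Gen.RicComp
import Vale.Agent.Lib.P371.Gen.Cont

/-! # P371 Gen: limits of Riccati solutions (module RicLim)

Let `Y_k` be Riccati solutions for `(W_k, E_k)` with `Y_k b ≤ √E_k`, `E_k → E` and `W_k → W`
uniformly on `[a,b]`. By `ric_ge`, `ric_le`, `-√E_k ≤ Y_k ≤ √E_k`, so the `Y_k` are uniformly
bounded (entries of `√E_k` are bounded, as `√` is continuous: `continuousOn_msqrt`). For
`Δ = Y_k - Y_l`: `Δ' = Y_k Δ + Δ Y_l - (E_k - E_l) + (W_k - W_l)`, `Δ(a) = √E_l - √E_k`, so Gronwall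
(`dist_le_of_approx_trajectories_ODE_of_mem` or by hand) gives a uniform Cauchy sequence; the limit
`Y` satisfies the integrated equation, so it is a Riccati solution for `(W, E)`, and
`Y_k b → Y b`. -/

open Matrix Set MeasureTheory Filter Topology
open scoped ComplexOrder

namespace Vale.Agent.P371.Gen

variable {n : Type*} [Fintype n] [DecidableEq n]

omit [DecidableEq n] in
theorem ricLim_posSemidef_lim {As : ℕ → Matrix n n ℂ} {A : Matrix n n ℂ}
    (h : ∀ k, (As k).PosSemidef) (hA : Tendsto As atTop (𝓝 A)) : A.PosSemidef := by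
  refine .of_dotProduct_mulVec_nonneg ?_ fun x => ?_
  · have h1 : Tendsto (fun k => (As k)ᴴ) atTop (𝓝 Aᴴ) :=
      ((continuous_id.matrix_conjTranspose).tendsto A).comp hA
    have h2 : (fun k => (As k)ᴴ) = As := funext fun k => (h k).1
    rw [h2] at h1
    exact tendsto_nhds_unique h1 hA
  · have hc : Continuous fun M : Matrix n n ℂ => star x ⬝ᵥ (M *ᵥ x) :=
      Continuous.dotProduct continuous_const (Continuous.matrix_mulVec continuous_id continuous_const)
    exact ge_of_tendsto' ((hc.tendsto A).comp hA) fun k => (h k).dotProduct_mulVec_nonneg x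

theorem ricLim_deriv {G : Type*} [NormedAddCommGroup G] [NormedSpace ℝ G] {s : Set ℝ}
    (hs : Convex ℝ s) {f f' : ℕ → ℝ → G} {g g' : ℝ → G}
    (hf : ∀ k, ∀ x ∈ s, HasDerivWithinAt (f k) (f' k x) s x)
    (hlim : ∀ x ∈ s, Tendsto (fun k => f k x) atTop (𝓝 (g x)))
    (hunif : TendstoUniformlyOn f' g' atTop s) (hcont : ContinuousOn g' s) :
    ∀ x ∈ s, HasDerivWithinAt g (g' x) s x := by
  intro x hx
  rw [hasDerivWithinAt_iff_isLittleO, Asymptotics.isLittleO_iff]
  intro c hc
  have h1 : ∀ᶠ t in 𝓝[s] x, dist (g' t) (g' x) < c / 2 :=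
    (hcont x hx).eventually (Metric.ball_mem_nhds _ (by positivity))
  rw [eventually_nhdsWithin_iff, Metric.eventually_nhds_iff_ball] at h1
  obtain ⟨δ, hδ, h1⟩ := h1
  rw [Metric.tendstoUniformlyOn_iff] at hunif
  have h2 := hunif (c / 2) (by positivity)
  rw [eventually_nhdsWithin_iff, Metric.eventually_nhds_iff_ball]
  refine ⟨δ, hδ, fun x' hx' hx's => ?_⟩
  have hl : Tendsto (fun k => ‖f k x' - f k x - (x' - x) • g' x‖) atTop
      (𝓝 ‖g x' - g x - (x' - x) • g' x‖) :=
    (((hlim x' hx's).sub (hlim x hx)).sub_const _).norm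
  refine le_of_tendsto hl ?_
  filter_upwards [h2] with k hk
  have hconv : Convex ℝ (s ∩ Metric.ball x δ) := hs.inter (convex_ball x δ)
  have hd : ∀ t ∈ s ∩ Metric.ball x δ,
      HasDerivWithinAt (fun t => f k t - (t - x) • g' x) (f' k t - g' x) (s ∩ Metric.ball x δ) t := by
    intro t ht
    have e1 := (hf k t ht.1).mono (inter_subset_left : s ∩ Metric.ball x δ ⊆ s)
    have e2 : HasDerivWithinAt (fun t : ℝ => (t - x) • g' x) ((1 : ℝ) • g' x)
        (s ∩ Metric.ball x δ) t :=
      (((hasDerivAt_id t).sub_const x).smul_const (g' x)).hasDerivWithinAt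
    rw [one_smul] at e2
    exact e1.sub e2
  have hb : ∀ t ∈ s ∩ Metric.ball x δ, ‖f' k t - g' x‖ ≤ c := by
    intro t ht
    have e1 := hk t ht.1
    have e2 := h1 t ht.2 ht.1
    rw [← dist_eq_norm]
    calc dist (f' k t) (g' x) ≤ dist (f' k t) (g' t) + dist (g' t) (g' x) := dist_triangle _ _ _
      _ ≤ c / 2 + c / 2 := by
          rw [dist_comm (f' k t)]
          linarith
      _ = c := by ring
  have key := hconv.norm_image_sub_le_of_norm_hasDerivWithin_le hd hb
    ⟨hx, Metric.mem_ball_self hδ⟩ ⟨hx's, hx'⟩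
  have e3 : (fun t => f k t - (t - x) • g' x) x' - (fun t => f k t - (t - x) • g' x) x =
      f k x' - f k x - (x' - x) • g' x := by
    simp only [sub_self, zero_smul, sub_zero]
    abel
  rw [e3] at key
  exact key

/-- squares of matrices as a map of the normed space `n → n → ℂ` -/
def ricLim_q (y : n → n → ℂ) : n → n → ℂ := fun i j => ∑ l, y i l * y l j

omit [DecidableEq n] in
theorem ricLim_q_lip {R : ℝ} (hR : 0 ≤ R) {y z : n → n → ℂ} (hy : ‖y‖ ≤ R) (hz : ‖z‖ ≤ R) :
    ‖ricLim_q y - ricLim_q z‖ ≤ (2 * R * Fintype.card n) * ‖y - z‖ := by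
  have h0 : 0 ≤ (2 * R * Fintype.card n) * ‖y - z‖ := by positivity
  rw [pi_norm_le_iff_of_nonneg h0]
  intro i
  rw [pi_norm_le_iff_of_nonneg h0]
  intro j
  have e1 : (ricLim_q y - ricLim_q z) i j =
      ∑ l, ((y - z) i l * y l j + z i l * (y - z) l j) := by
    simp only [ricLim_q, Pi.sub_apply, ← Finset.sum_sub_distrib]
    refine Finset.sum_congr rfl fun l _ => ?_
    ring
  have hent : ∀ (u : n → n → ℂ) (i j : n), ‖u i j‖ ≤ ‖u‖ := fun u i j =>
    (norm_le_pi_norm (u i) j).trans (norm_le_pi_norm u i)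
  rw [e1]
  refine (norm_sum_le _ _).trans ?_
  have e2 : ∀ l ∈ Finset.univ, ‖(y - z) i l * y l j + z i l * (y - z) l j‖ ≤ 2 * R * ‖y - z‖ := by
    intro l _
    refine (norm_add_le _ _).trans ?_
    rw [norm_mul, norm_mul]
    have a1 := mul_le_mul (hent (y - z) i l) ((hent y l j).trans hy) (norm_nonneg _)
      (norm_nonneg _)
    have a2 := mul_le_mul ((hent z i l).trans hz) (hent (y - z) l j) (norm_nonneg _) hR
    calc _ ≤ ‖y - z‖ * R + R * ‖y - z‖ := add_le_add a1 a2
      _ = 2 * R * ‖y - z‖ := by ring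
  refine (Finset.sum_le_sum e2).trans ?_
  rw [Finset.sum_const, Finset.card_univ, nsmul_eq_mul]
  exact le_of_eq (by ring)

theorem ricLim_gronwall {K ε t T : ℝ} (hK : 0 < K) (hε : 0 ≤ ε) (ht : t ≤ T) :
    gronwallBound (2 * ε) K (ε + ε) t ≤ ε * (2 * Real.exp (K * T) + 2 / K * Real.exp (K * T)) := by
  rw [gronwallBound_of_K_ne_0 hK.ne']
  have h1 : Real.exp (K * t) ≤ Real.exp (K * T) :=
    Real.exp_le_exp.mpr (mul_le_mul_of_nonneg_left ht hK.le)
  have h2 : Real.exp (K * t) - 1 ≤ Real.exp (K * T) := by linarith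
  have h3 : (ε + ε) / K * (Real.exp (K * t) - 1) ≤ (ε + ε) / K * Real.exp (K * T) :=
    mul_le_mul_of_nonneg_left h2 (by positivity)
  have h4 : 2 * ε * Real.exp (K * t) ≤ 2 * ε * Real.exp (K * T) :=
    mul_le_mul_of_nonneg_left h1 (by positivity)
  calc 2 * ε * Real.exp (K * t) + (ε + ε) / K * (Real.exp (K * t) - 1)
      ≤ 2 * ε * Real.exp (K * T) + (ε + ε) / K * Real.exp (K * T) := add_le_add h4 h3
    _ = _ := by ring

theorem ric_limit {a b : ℝ} (hab : a ≤ b) {Ws : ℕ → ℝ → Matrix n n ℂ} {W : ℝ → Matrix n n ℂ}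
    (hWsc : ∀ k, ContinuousOn (Ws k) (Icc a b)) (hWs : ∀ k, ∀ x ∈ Icc a b, (Ws k x).PosSemidef)
    (hconv : ∀ i j, TendstoUniformlyOn (fun k x => Ws k x i j) (fun x => W x i j) atTop (Icc a b))
    {Es : ℕ → Matrix n n ℂ} {E : Matrix n n ℂ} (hEs : ∀ k, (Es k).PosSemidef)
    (hE : Tendsto Es atTop (𝓝 E)) {Ys : ℕ → ℝ → Matrix n n ℂ}
    (hR : ∀ k, IsRic a b (Ws k) (Es k) (Ys k)) (hend : ∀ k, (msqrt (Es k) - Ys k b).PosSemidef) :
    E.PosSemidef ∧ ∃ Y : ℝ → Matrix n n ℂ, IsRic a b W E Y ∧ (msqrt E - Y b).PosSemidef ∧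
      Tendsto (fun k => Ys k b) atTop (𝓝 (Y b)) := by
  have hEpsd : E.PosSemidef := ricLim_posSemidef_lim hEs hE
  have hsq : Tendsto (fun k => msqrt (Es k)) atTop (𝓝 (msqrt E)) := by
    have h1 := continuousOn_msqrt (n := n) E hEpsd.1
    refine h1.tendsto.comp (tendsto_nhdsWithin_iff.mpr ⟨hE, ?_⟩)
    exact Eventually.of_forall fun k => (hEs k).1
  -- uniform bound
  obtain ⟨R, hR0, hRb⟩ : ∃ R : ℝ, 0 ≤ R ∧ ∀ k, ∀ x ∈ Icc a b, ∀ i j, ‖Ys k x i j‖ ≤ R := by
    have hc : Continuous fun M : Matrix n n ℂ => rtr M :=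
      Complex.continuous_re.comp (continuous_id.matrix_trace)
    have h1 : Tendsto (fun k => rtr (msqrt (Es k))) atTop (𝓝 (rtr (msqrt E))) :=
      (hc.tendsto _).comp hsq
    obtain ⟨B, hB⟩ := h1.bddAbove_range
    have hB' : ∀ k, rtr (msqrt (Es k)) ≤ B := fun k => hB ⟨k, rfl⟩
    have hB0 : 0 ≤ B := (rtr_nonneg (msqrt_posSemidef (Es 0))).trans (hB' 0)
    refine ⟨3 * B, by positivity, fun k x hx i j => ?_⟩
    have p1 := ric_ge hab (hWs k) (hEs k) (hR k) x hx
    have p2 := ric_le hab (hWs k) (hEs k) (hR k) (hend k) x hx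
    have n1 := norm_entry_le_rtr p1 i j
    have n2 := rtr_nonneg p2
    have n3 := norm_entry_le_rtr (msqrt_posSemidef (Es k)) i j
    have n4 : rtr (msqrt (Es k) + Ys k x) + rtr (msqrt (Es k) - Ys k x) =
        2 * rtr (msqrt (Es k)) := by
      unfold rtr
      rw [Matrix.trace_add, Matrix.trace_sub, Complex.add_re, Complex.sub_re]
      ring
    have n5 := hB' k
    have n6 : Ys k x i j = (msqrt (Es k) + Ys k x) i j - msqrt (Es k) i j := by
      rw [Matrix.add_apply]
      ring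
    rw [n6]
    refine (norm_sub_le _ _).trans ?_
    linarith
  -- the functions
  set y : ℕ → ℝ → n → n → ℂ := fun k x i j => Ys k x i j with hy
  set w : ℝ → n → n → ℂ := fun x i j => W x i j with hw
  set e : n → n → ℂ := fun i j => E i j with he
  set v : ℝ → (n → n → ℂ) → (n → n → ℂ) := fun x u => ricLim_q u - e + w x with hv
  set F : ℕ → ℝ → n → n → ℂ := fun k x i j => (Ys k x * Ys k x - Es k + Ws k x) i j with hF
  have hyb : ∀ k, ∀ x ∈ Icc a b, ‖y k x‖ ≤ R := by
    intro k x hx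
    rw [pi_norm_le_iff_of_nonneg hR0]
    intro i
    rw [pi_norm_le_iff_of_nonneg hR0]
    intro j
    exact hRb k x hx i j
  have hyd : ∀ k, ∀ x ∈ Icc a b, HasDerivWithinAt (y k) (F k x) (Icc a b) x := by
    intro k x hx
    rw [hasDerivWithinAt_pi]
    intro i
    rw [hasDerivWithinAt_pi]
    intro j
    exact (hR k).deriv x hx i j
  have hyc : ∀ k, ContinuousOn (y k) (Icc a b) := fun k x hx => (hyd k x hx).continuousWithinAt
  -- distance to the limit vector field
  have hFv : ∀ k, ∀ x, F k x - v x (y k x) = (fun i j => E i j - Es k i j) +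
      (fun i j => Ws k x i j - W x i j) := by
    intro k x
    funext i j
    simp only [hF, hv, hy, hw, he, Pi.sub_apply, Pi.add_apply, ricLim_q, Matrix.add_apply,
      Matrix.sub_apply, Matrix.mul_apply]
    ring
  have hentry : ∀ (u : n → n → ℂ) (ε : ℝ), 0 ≤ ε → (∀ i j, ‖u i j‖ ≤ ε) → ‖u‖ ≤ ε := by
    intro u ε hε h
    rw [pi_norm_le_iff_of_nonneg hε]
    intro i
    rw [pi_norm_le_iff_of_nonneg hε]
    intro j
    exact h i j
  have hsmall : ∀ ε > 0, ∀ᶠ k in atTop, ∀ x ∈ Icc a b, dist (F k x) (v x (y k x)) ≤ ε := by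
    intro ε hε
    have h1 : ∀ᶠ k in atTop, ∀ i j, ‖E i j - Es k i j‖ ≤ ε / 2 := by
      rw [eventually_all]
      intro i
      rw [eventually_all]
      intro j
      have h2 : Tendsto (fun k => Es k i j) atTop (𝓝 (E i j)) :=
        ((continuous_id.matrix_elem i j).tendsto E).comp hE
      have h3 := Metric.tendsto_nhds.mp h2 (ε / 2) (by positivity)
      filter_upwards [h3] with k hk
      rw [← dist_eq_norm, dist_comm]
      exact hk.le
    have h4 : ∀ᶠ k in atTop, ∀ i j, ∀ x ∈ Icc a b, ‖Ws k x i j - W x i j‖ ≤ ε / 2 := by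
      rw [eventually_all]
      intro i
      rw [eventually_all]
      intro j
      have h3 := Metric.tendstoUniformlyOn_iff.mp (hconv i j) (ε / 2) (by positivity)
      filter_upwards [h3] with k hk x hx
      rw [← dist_eq_norm, dist_comm]
      exact (hk x hx).le
    filter_upwards [h1, h4] with k hk1 hk2 x hx
    rw [dist_eq_norm, hFv]
    refine (norm_add_le _ _).trans ?_
    have a1 := hentry (fun i j => E i j - Es k i j) (ε / 2) (by positivity) hk1
    have a2 := hentry (fun i j => Ws k x i j - W x i j) (ε / 2) (by positivity)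
      (fun i j => hk2 i j x hx)
    linarith
  have hsq' : ∀ ε > 0, ∀ᶠ k in atTop, ∀ i j, ‖msqrt (Es k) i j - msqrt E i j‖ ≤ ε := by
    intro ε hε
    rw [eventually_all]
    intro i
    rw [eventually_all]
    intro j
    have h2 : Tendsto (fun k => msqrt (Es k) i j) atTop (𝓝 (msqrt E i j)) :=
      ((continuous_id.matrix_elem i j).tendsto (msqrt E)).comp hsq
    have h3 := Metric.tendsto_nhds.mp h2 ε hε
    filter_upwards [h3] with k hk
    rw [← dist_eq_norm]
    exact hk.le
  have hstart : ∀ ε > 0, ∀ k l, (∀ i j, ‖msqrt (Es k) i j - msqrt E i j‖ ≤ ε) →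
      (∀ i j, ‖msqrt (Es l) i j - msqrt E i j‖ ≤ ε) → dist (y k a) (y l a) ≤ 2 * ε := by
    intro ε hε k l hk hl
    rw [dist_eq_norm]
    refine hentry _ _ (by positivity) fun i j => ?_
    have e1 : (y k a - y l a) i j =
        (msqrt (Es l) i j - msqrt E i j) - (msqrt (Es k) i j - msqrt E i j) := by
      simp only [hy, Pi.sub_apply]
      rw [(hR k).init, (hR l).init, Matrix.neg_apply, Matrix.neg_apply]
      ring
    rw [e1]
    refine (norm_sub_le _ _).trans ?_
    have := hk i j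
    have := hl i j
    linarith
  -- Lipschitz constant
  set K : NNReal := ⟨2 * R * Fintype.card n + 1, by positivity⟩ with hK
  have hKpos : (0 : ℝ) < K := by
    rw [hK]
    change (0 : ℝ) < 2 * R * Fintype.card n + 1
    positivity
  have hqlip : ∀ u z : n → n → ℂ, ‖u‖ ≤ R → ‖z‖ ≤ R → ‖ricLim_q u - ricLim_q z‖ ≤ K * ‖u - z‖ := by
    intro u z hu hz
    refine (ricLim_q_lip hR0 hu hz).trans ?_
    refine mul_le_mul_of_nonneg_right ?_ (norm_nonneg _)
    change 2 * R * Fintype.card n ≤ 2 * R * Fintype.card n + 1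
    linarith
  have hvdist : ∀ x, ∀ u z : n → n → ℂ, v x u - v x z = ricLim_q u - ricLim_q z := by
    intro x u z
    simp only [hv]
    abel
  have hvlip : ∀ x, LipschitzOnWith K (v x) (Metric.closedBall (0 : n → n → ℂ) R) := by
    intro x
    refine LipschitzOnWith.of_dist_le_mul fun u hu z hz => ?_
    rw [dist_eq_norm, dist_eq_norm, hvdist]
    exact hqlip u z (mem_closedBall_zero_iff.mp hu) (mem_closedBall_zero_iff.mp hz)
  set C : ℝ := 2 * Real.exp (K * (b - a)) + 2 / K * Real.exp (K * (b - a)) with hC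
  have hCpos : 0 < C := by positivity
  have hcauchy : UniformCauchySeqOn y atTop (Icc a b) := by
    rw [Metric.uniformCauchySeqOn_iff]
    intro ε hε
    have hδ : 0 < ε / (2 * C) := by positivity
    obtain ⟨N, hN⟩ := eventually_atTop.mp ((hsq' _ hδ).and (hsmall _ hδ))
    refine ⟨N, fun k hk l hl x hx => ?_⟩
    have key := dist_le_of_approx_trajectories_ODE_of_mem (v := v) (K := K)
      (s := fun _ => Metric.closedBall (0 : n → n → ℂ) R) (f := y k) (g := y l) (f' := F k)
      (g' := F l) (a := a) (b := b) (εf := ε / (2 * C)) (εg := ε / (2 * C))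
      (δ := 2 * (ε / (2 * C)))
      (fun t _ => hvlip t) (hyc k)
      (fun t ht => (hyd k t ⟨ht.1, ht.2.le⟩).mono_of_mem_nhdsWithin
        (Icc_mem_nhdsGE_of_mem ht))
      (fun t ht => (hN k hk).2 t ⟨ht.1, ht.2.le⟩)
      (fun t ht => mem_closedBall_zero_iff.mpr (hyb k t ⟨ht.1, ht.2.le⟩))
      (hyc l)
      (fun t ht => (hyd l t ⟨ht.1, ht.2.le⟩).mono_of_mem_nhdsWithin
        (Icc_mem_nhdsGE_of_mem ht))
      (fun t ht => (hN l hl).2 t ⟨ht.1, ht.2.le⟩)
      (fun t ht => mem_closedBall_zero_iff.mpr (hyb l t ⟨ht.1, ht.2.le⟩))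
      (hstart _ hδ k l (hN k hk).1 (hN l hl).1) x hx
    have hg := ricLim_gronwall (K := K) (ε := ε / (2 * C)) (t := x - a) (T := b - a) hKpos hδ.le
      (by linarith [hx.2])
    refine (key.trans hg).trans_lt ?_
    change ε / (2 * C) * C < ε
    have : ε / (2 * C) * C = ε / 2 := by
      field_simp
    rw [this]
    linarith
  -- the limit
  have hex : ∀ x, ∃ z : n → n → ℂ, x ∈ Icc a b → Tendsto (fun k => y k x) atTop (𝓝 z) := by
    intro x
    by_cases hx : x ∈ Icc a b
    · obtain ⟨z, hz⟩ := cauchySeq_tendsto_of_complete (hcauchy.cauchySeq hx)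
      exact ⟨z, fun _ => hz⟩
    · exact ⟨0, fun h => absurd h hx⟩
  choose z hz using hex
  have hunif : TendstoUniformlyOn y z atTop (Icc a b) :=
    hcauchy.tendstoUniformlyOn_of_tendsto fun x hx => hz x hx
  have hzc : ContinuousOn z (Icc a b) := hunif.continuousOn (Eventually.of_forall hyc).frequently
  have hzb : ∀ x ∈ Icc a b, ‖z x‖ ≤ R := by
    intro x hx
    exact le_of_tendsto' (hz x hx).norm fun k => hyb k x hx
  have hwc : ContinuousOn w (Icc a b) := by
    rw [continuousOn_pi]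
    intro i
    rw [continuousOn_pi]
    intro j
    refine (hconv i j).continuousOn (Eventually.of_forall fun k => ?_).frequently
    exact (continuous_id.matrix_elem i j).comp_continuousOn (hWsc k)
  have hqc : Continuous (ricLim_q (n := n)) := by
    unfold ricLim_q
    fun_prop
  have hgc : ContinuousOn (fun x => v x (z x)) (Icc a b) :=
    ((hqc.comp_continuousOn hzc).sub continuousOn_const).add hwc
  have hFunif : TendstoUniformlyOn F (fun x => v x (z x)) atTop (Icc a b) := by
    rw [Metric.tendstoUniformlyOn_iff] at hunif ⊢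
    intro ε hε
    have h1 := hunif (ε / (2 * K)) (by positivity)
    have h2 := hsmall (ε / 4) (by positivity)
    filter_upwards [h1, h2] with k hk1 hk2 x hx
    have a1 := hk1 x hx
    have a2 := hk2 x hx
    have a3 : dist (v x (z x)) (v x (y k x)) ≤ K * dist (z x) (y k x) := by
      rw [dist_eq_norm, dist_eq_norm, hvdist]
      exact hqlip _ _ (hzb x hx) (hyb k x hx)
    have a4 : (K : ℝ) * dist (z x) (y k x) ≤ ε / 2 := by
      calc (K : ℝ) * dist (z x) (y k x) ≤ K * (ε / (2 * K)) :=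
            mul_le_mul_of_nonneg_left a1.le hKpos.le
        _ = ε / 2 := by field_simp
    have a5 := dist_triangle (v x (z x)) (v x (y k x)) (F k x)
    rw [dist_comm (v x (y k x)) (F k x)] at a5
    linarith
  have hzd := ricLim_deriv (convex_Icc a b) hyd (fun x hx => hz x hx) hFunif hgc
  -- conclusion
  have hmat : ∀ x ∈ Icc a b, Tendsto (fun k => Ys k x) atTop (𝓝 (Matrix.of (z x))) := by
    intro x hx
    exact tendsto_pi_nhds.mpr fun i => tendsto_pi_nhds.mpr fun j =>
      tendsto_pi_nhds.mp (tendsto_pi_nhds.mp (hz x hx) i) j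
  have hb : b ∈ Icc a b := ⟨hab, le_rfl⟩
  refine ⟨hEpsd, fun x => Matrix.of (z x), ⟨?_, ?_, ?_⟩, ?_, hmat b hb⟩
  · intro x hx
    refine Matrix.IsHermitian.ext fun i j => ?_
    have t1 : Tendsto (fun k => y k x i j) atTop (𝓝 (z x i j)) :=
      ((tendsto_pi_nhds.mp (tendsto_pi_nhds.mp (hz x hx) i)) j)
    have t2 : Tendsto (fun k => star (y k x j i)) atTop (𝓝 (star (z x j i))) :=
      (continuous_star.tendsto _).comp ((tendsto_pi_nhds.mp (tendsto_pi_nhds.mp (hz x hx) j)) i)
    have t3 : (fun k => star (y k x j i)) = fun k => y k x i j := by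
      funext k
      exact ((hR k).herm x hx).apply i j
    rw [t3] at t2
    exact tendsto_nhds_unique t2 t1
  · have t1 := hmat a ⟨le_rfl, hab⟩
    have t2 : (fun k => Ys k a) = fun k => -(msqrt (Es k)) := funext fun k => (hR k).init
    rw [t2] at t1
    exact tendsto_nhds_unique t1 hsq.neg
  · intro x hx i j
    have h1 := (hasDerivWithinAt_pi.mp ((hasDerivWithinAt_pi.mp (hzd x hx)) i)) j
    exact h1
  · exact ricLim_posSemidef_lim hend (hsq.sub (hmat b hb))

end Vale.Agent.P371.Gen
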