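import Vale.Agent.Lib.P371.Gen.QVI
import Vale.Agent.Lib.P371.Gen.RicDir
import Vale.Agent.Lib.P371.Gen.RicLim
import Vale.Agent.Lib.P371.Gen.RicBound

/-! # P371 Gen: existence of the corner energy (module Corner)

`N = card n`, `w₁ = w₀ + 1`, `ρ = max 1 ((w₀ L √N + 2 w₀ N)^2) + N (w₁ + 1) + N`, `L = b - a`.
`V` = matrices as a real inner product space with `⟪A, B⟫ = Re tr (Aᴴ B)` (for instance
`EuclideanSpace ℂ (n × n)` with `InnerProductSpace.rclikeToReal`, entries as coordinates).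
`K₀ = {G | G ≥ 0, tr G ≤ ρ}` (compact, convex), `C G = Adm a b (𝒲 G) ∩ K₀`, `Φ G E = √E - Y b`
where `Y` is the Riccati solution for `(𝒲 G, E)` (unique: `ric_unique`; `0` if there is none).
* nonempty: `w₀ 1 ∈ Adm` (`adm_const`), `tr = N w₀ ≤ ρ`. Convex: `adm_convex`.
* `hgraph`, `hΦ`: `ric_limit`; `𝒲 (G_k) → 𝒲 (G₀)` uniformly on `[a,b]` as `𝒲` is jointly
  continuous on the compact `K₀ × [a,b]`; `continuousOn_msqrt`; uniqueness `ric_unique`.
* `hlsc`: let `δ_k = sup_x ‖𝒲 (G_k) x - 𝒲 (G₀) x‖ → 0`. For `H ∈ C G₀`, `H + δ_k' 1 ∈ Adm (𝒲 (G_k))`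
  by `adm_of_le` (`δ_k' = N δ_k`), and `H_k = (1 - r_k) (H + δ_k' 1) + r_k w₀ 1 ∈ Adm` by
  `adm_convex`, with `r_k → 0` such that `tr H_k ≤ ρ`: `r_k = N δ_k' / (ρ - N w₀)` (or `r_k = 0`
  when that is `> 1`, for finitely many `k` take `H_k = w₀ 1`).
The fixed point `E = G` of `qvi` satisfies `tr (Φ (H - E)) ≥ 0` for `H ∈ C E`,
`Φ = √E - Y b ≥ 0`. With `H = w₀ 1`: `tr (E Φ) ≤ w₀ tr Φ ≤ 2 w₀ tr √E` (as `Y b ≥ -√E`,
`ric_ge`). With `trace_bound`: `2 tr (E √E) ≤ w₀ L tr E + 2 w₀ tr √E`, so `energy_bound` gives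
`tr E ≤ max 1 (..)`. If `Φ ≠ 0`, `adm_dir` gives `H` with `E + H ∈ Adm`,
`tr (E + H) ≤ tr E + N ≤ ρ`, and `tr (Φ H) < 0`: contradiction. So `Y b = √E`.
The bounds `-√E ≤ Y ≤ √E` are `ric_ge`, `ric_le`. -/

open Matrix Set MeasureTheory Filter Topology
open scoped ComplexOrder RealInnerProductSpace

namespace Vale.Agent.P371.Gen

variable {n : Type*} [Fintype n] [DecidableEq n]

/-! ### the space -/

/-- Matrices as a real inner product space. -/
abbrev cn_CV (n : Type*) [Fintype n] : Type _ := PiLp 2 (fun _ : n × n => ℂ)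

noncomputable def cn_cto (A : Matrix n n ℂ) : cn_CV n := WithLp.toLp 2 (fun p : n × n => A p.1 p.2)

noncomputable def cn_cof (v : cn_CV n) : Matrix n n ℂ := fun i j => v (i, j)

omit [DecidableEq n] in
@[simp] theorem cn_cof_cto (A : Matrix n n ℂ) : cn_cof (cn_cto A) = A := rfl

omit [DecidableEq n] in
@[simp] theorem cn_cto_cof (v : cn_CV n) : cn_cto (cn_cof v) = v := rfl

omit [DecidableEq n] in
theorem cn_cof_apply (v : cn_CV n) (i j : n) : cn_cof v i j = v (i, j) := rfl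

omit [DecidableEq n] in
theorem cn_continuous_cto : Continuous (cn_cto : Matrix n n ℂ → cn_CV n) := by
  refine (PiLp.continuous_toLp 2 (fun _ : n × n => ℂ)).comp ?_
  exact continuous_pi fun p => continuous_apply_apply p.1 p.2

omit [DecidableEq n] in
theorem cn_continuous_cof : Continuous (cn_cof : cn_CV n → Matrix n n ℂ) := by
  refine continuous_pi fun i => continuous_pi fun j => ?_
  exact (continuous_apply (i, j)).comp (PiLp.continuous_ofLp 2 (fun _ : n × n => ℂ))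

omit [DecidableEq n] in
theorem cn_cof_add (v w : cn_CV n) : cn_cof (v + w) = cn_cof v + cn_cof w := rfl

omit [DecidableEq n] in
theorem cn_cof_sub (v w : cn_CV n) : cn_cof (v - w) = cn_cof v - cn_cof w := rfl

omit [DecidableEq n] in
theorem cn_cof_smul (s : ℝ) (v : cn_CV n) : cn_cof (s • v) = (s : ℂ) • cn_cof v := by
  ext i j
  simp [cn_cof_apply]

omit [DecidableEq n] in
theorem cn_inner_cto {A : Matrix n n ℂ} (hA : A.IsHermitian) (v : cn_CV n) :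
    ⟪cn_cto A, v⟫ = rtr (A * cn_cof v) := by
  rw [PiLp.inner_apply, Fintype.sum_prod_type, rtr, Matrix.trace]
  simp only [Matrix.diag_apply, Matrix.mul_apply, Complex.re_sum]
  rw [Finset.sum_comm]
  refine Finset.sum_congr rfl fun i _ => Finset.sum_congr rfl fun j _ => ?_
  rw [Complex.inner]
  have h1 : (starRingEnd ℂ) (A j i) = A i j := by
    have := hA.apply i j
    simpa using this
  show (v (j, i) * (starRingEnd ℂ) (A j i)).re = (A i j * v (j, i)).re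
  rw [h1, mul_comm]

omit [DecidableEq n] in
theorem cn_continuous_rtr : Continuous (rtr : Matrix n n ℂ → ℝ) :=
  Complex.continuous_re.comp (continuous_id.matrix_trace)

omit [Fintype n] [DecidableEq n] in
theorem cn_isClosed_herm : IsClosed {A : Matrix n n ℂ | A.IsHermitian} :=
  isClosed_eq continuous_id.matrix_conjTranspose continuous_id

omit [DecidableEq n] in
theorem cn_isClosed_psd : IsClosed {A : Matrix n n ℂ | A.PosSemidef} := by
  have h : {A : Matrix n n ℂ | A.PosSemidef} = {A : Matrix n n ℂ | A.IsHermitian} ∩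
      ⋂ x : n → ℂ, {A : Matrix n n ℂ | 0 ≤ (star x ⬝ᵥ A *ᵥ x).re} := by
    ext A
    simp only [mem_ofPred_eq, mem_inter_iff, mem_iInter]
    constructor
    · intro hA
      exact ⟨hA.isHermitian, fun x => by simpa using hA.re_dotProduct_nonneg x⟩
    · rintro ⟨h1, h2⟩
      rw [Matrix.posSemidef_iff_dotProduct_mulVec]
      refine ⟨h1, fun x => ?_⟩
      rw [Complex.nonneg_iff]
      refine ⟨h2 x, ?_⟩
      have h3 := h1.im_star_dotProduct_mulVec_self x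
      simpa using h3.symm
  rw [h]
  refine cn_isClosed_herm.inter (isClosed_iInter fun x => ?_)
  refine isClosed_le continuous_const ?_
  refine Complex.continuous_re.comp ?_
  exact Continuous.dotProduct continuous_const (Continuous.matrix_mulVec continuous_id continuous_const)

/-- The compact set. -/
def cn_KM (n : Type*) [Fintype n] (ρ : ℝ) : Set (Matrix n n ℂ) := {A | A.PosSemidef ∧ rtr A ≤ ρ}

omit [DecidableEq n] in
theorem cn_isCompact_KM (ρ : ℝ) : IsCompact (cn_KM n ρ) := by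
  classical
  have h1 : IsCompact (Set.pi univ fun _ : n => Set.pi univ fun _ : n =>
      Metric.closedBall (0 : ℂ) ρ) :=
    isCompact_univ_pi fun _ => isCompact_univ_pi fun _ => isCompact_closedBall _ _
  refine h1.of_isClosed_subset ?_ ?_
  · exact cn_isClosed_psd.inter (isClosed_le cn_continuous_rtr continuous_const)
  · rintro A ⟨hA, hr⟩ i - j -
    rw [mem_closedBall_zero_iff]
    exact (norm_entry_le_rtr hA i j).trans hr

omit [DecidableEq n] in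
theorem cn_rtr_add (A B : Matrix n n ℂ) : rtr (A + B) = rtr A + rtr B := by
  simp [rtr, Matrix.trace_add]

omit [DecidableEq n] in
theorem cn_rtr_sub (A B : Matrix n n ℂ) : rtr (A - B) = rtr A - rtr B := by
  simp [rtr, Matrix.trace_sub]

omit [DecidableEq n] in
theorem cn_rtr_smul (s : ℝ) (A : Matrix n n ℂ) : rtr ((s : ℂ) • A) = s * rtr A := by
  simp [rtr, Matrix.trace_smul]

theorem cn_rtr_one : rtr (1 : Matrix n n ℂ) = Fintype.card n := by
  simp [rtr, Matrix.trace_one]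

omit [DecidableEq n] in
theorem cn_rtr_mul_comm (A B : Matrix n n ℂ) : rtr (A * B) = rtr (B * A) := by
  rw [rtr, rtr, Matrix.trace_mul_comm]

omit [Fintype n] [DecidableEq n] in
theorem cn_psd_smul {A : Matrix n n ℂ} (hA : A.PosSemidef) {s : ℝ} (hs : 0 ≤ s) :
    ((s : ℂ) • A).PosSemidef :=
  hA.smul (by exact_mod_cast hs)

/-- A Hermitian matrix with entries bounded by `δ` is at most `N δ`. -/
theorem cn_psd_of_entry {D : Matrix n n ℂ} (hD : D.IsHermitian) {δ : ℝ}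
    (h : ∀ i j, ‖D i j‖ ≤ δ) :
    ((((Fintype.card n : ℝ) * δ : ℝ) : ℂ) • (1 : Matrix n n ℂ) - D).PosSemidef := by
  rw [Matrix.posSemidef_iff_dotProduct_mulVec]
  have hH : ((((Fintype.card n : ℝ) * δ : ℝ) : ℂ) • (1 : Matrix n n ℂ) - D).IsHermitian := by
    refine Matrix.IsHermitian.sub ?_ hD
    rw [Matrix.IsHermitian, Matrix.conjTranspose_smul, Matrix.conjTranspose_one]
    simp
  refine ⟨hH, fun x => ?_⟩
  rw [Complex.nonneg_iff]
  refine ⟨?_, by simpa using (hH.im_star_dotProduct_mulVec_self x).symm⟩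
  rw [Matrix.sub_mulVec, dotProduct_sub, Matrix.smul_mulVec, Matrix.one_mulVec, Complex.sub_re,
    sub_nonneg]
  have h1 : (star x ⬝ᵥ D *ᵥ x).re ≤ δ * (∑ i, ‖x i‖) ^ 2 := by
    calc (star x ⬝ᵥ D *ᵥ x).re ≤ ‖star x ⬝ᵥ D *ᵥ x‖ := Complex.re_le_norm _
      _ ≤ ∑ i, ∑ j, ‖x i‖ * (δ * ‖x j‖) := by
        rw [dotProduct]
        refine (norm_sum_le _ _).trans (Finset.sum_le_sum fun i _ => ?_)
        rw [Matrix.mulVec, dotProduct, Finset.mul_sum]
        refine (norm_sum_le _ _).trans (Finset.sum_le_sum fun j _ => ?_)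
        rw [norm_mul, norm_mul, Pi.star_apply, norm_star]
        exact mul_le_mul_of_nonneg_left
          (mul_le_mul_of_nonneg_right (h i j) (norm_nonneg _)) (norm_nonneg _)
      _ = δ * (∑ i, ‖x i‖) ^ 2 := by
        rw [sq, Finset.sum_mul_sum, Finset.mul_sum]
        refine Finset.sum_congr rfl fun i _ => ?_
        rw [Finset.mul_sum]
        exact Finset.sum_congr rfl fun j _ => by ring
  have h2 : (star x ⬝ᵥ (((Fintype.card n : ℝ) * δ : ℝ) : ℂ) • x).re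
      = (Fintype.card n : ℝ) * δ * ∑ i, ‖x i‖ ^ 2 := by
    rw [dotProduct_smul, smul_eq_mul, Complex.re_ofReal_mul]
    congr 1
    rw [dotProduct, Complex.re_sum]
    refine Finset.sum_congr rfl fun i _ => ?_
    rw [Pi.star_apply, Complex.star_def, mul_comm, Complex.mul_conj, Complex.ofReal_re,
      Complex.normSq_eq_norm_sq]
  rw [h2]
  refine h1.trans ?_
  rcases isEmpty_or_nonempty n with hn | hn
  · simp
  · have hδ : 0 ≤ δ := (norm_nonneg _).trans (h hn.some hn.some)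
    have h3 : (∑ i, ‖x i‖) ^ 2 ≤ (Fintype.card n : ℝ) * ∑ i, ‖x i‖ ^ 2 := by
      have := sq_sum_le_card_mul_sum_sq (s := (Finset.univ : Finset n)) (f := fun i => ‖x i‖)
      simpa using this
    calc δ * (∑ i, ‖x i‖) ^ 2 ≤ δ * ((Fintype.card n : ℝ) * ∑ i, ‖x i‖ ^ 2) :=
          mul_le_mul_of_nonneg_left h3 hδ
      _ = (Fintype.card n : ℝ) * δ * ∑ i, ‖x i‖ ^ 2 := by ring

/-! ### the potential -/

section pot

variable {a b : ℝ} {𝒲 : Matrix n n ℂ → ℝ → Matrix n n ℂ}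

omit [DecidableEq n] in
theorem cn_pot_unif
    (hcont : ContinuousOn (fun p : Matrix n n ℂ × ℝ => 𝒲 p.1 p.2)
      ({G | G.PosSemidef} ×ˢ Icc a b)) {ρ : ℝ} {G : ℕ → Matrix n n ℂ} {G₀ : Matrix n n ℂ}
    (hG : ∀ k, G k ∈ cn_KM n ρ) (hG₀ : G₀ ∈ cn_KM n ρ) (hlim : Tendsto G atTop (𝓝 G₀)) (i j : n) :
    TendstoUniformlyOn (fun k x => 𝒲 (G k) x i j) (fun x => 𝒲 G₀ x i j) atTop (Icc a b) := by
  have hc : ContinuousOn (fun p : Matrix n n ℂ × ℝ => 𝒲 p.1 p.2 i j) (cn_KM n ρ ×ˢ Icc a b) := by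
    have h1 : ContinuousOn (fun p : Matrix n n ℂ × ℝ => 𝒲 p.1 p.2) (cn_KM n ρ ×ˢ Icc a b) :=
      hcont.mono (prod_mono (fun A hA => hA.1) subset_rfl)
    exact (continuous_apply_apply i j).comp_continuousOn h1
  have hu : UniformContinuousOn (Function.HasUncurry.uncurry
      (fun (p : Matrix n n ℂ) (x : ℝ) => 𝒲 p x i j)) (cn_KM n ρ ×ˢ Icc a b) :=
    ((cn_isCompact_KM ρ).prod isCompact_Icc).uniformContinuousOn_of_continuous hc
  have h2 := hu.tendstoUniformlyOn hG₀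
  have h3 : Tendsto G atTop (𝓝[cn_KM n ρ] G₀) :=
    tendsto_nhdsWithin_iff.2 ⟨hlim, Eventually.of_forall hG⟩
  intro u hu'
  exact h3.eventually (h2 u hu')

omit [DecidableEq n] [Fintype n] in
theorem cn_pot_cont_x
    (hcont : ContinuousOn (fun p : Matrix n n ℂ × ℝ => 𝒲 p.1 p.2)
      ({G | G.PosSemidef} ×ˢ Icc a b)) {G : Matrix n n ℂ} (hG : G.PosSemidef) :
    ContinuousOn (𝒲 G) (Icc a b) := by
  have h1 : ContinuousOn (fun x : ℝ => (G, x)) (Icc a b) :=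
    (continuous_const.prodMk continuous_id).continuousOn
  exact hcont.comp h1 (fun x hx => ⟨hG, hx⟩)

end pot

theorem cn_exists_modulus {a b : ℝ} {F : ℕ → ℝ → ℂ} {f : ℝ → ℂ}
    (hF : ∀ k, ContinuousOn (F k) (Icc a b)) (hf : ContinuousOn f (Icc a b))
    (hu : TendstoUniformlyOn F f atTop (Icc a b)) :
    ∃ δ : ℕ → ℝ, Tendsto δ atTop (𝓝 0) ∧ (∀ k, 0 ≤ δ k) ∧
      ∀ k, ∀ x ∈ Icc a b, ‖F k x - f x‖ ≤ δ k := by
  refine ⟨fun k => sSup ((fun x => ‖F k x - f x‖) '' Icc a b), ?_, ?_, ?_⟩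
  · rw [Metric.tendsto_atTop]
    intro ε hε
    rw [Metric.tendstoUniformlyOn_iff] at hu
    obtain ⟨K, hK⟩ := eventually_atTop.1 (hu (ε / 2) (by positivity))
    refine ⟨K, fun k hk => ?_⟩
    have h0 : 0 ≤ sSup ((fun x => ‖F k x - f x‖) '' Icc a b) :=
      Real.sSup_nonneg (by rintro _ ⟨x, -, rfl⟩; exact norm_nonneg _)
    have h1 : sSup ((fun x => ‖F k x - f x‖) '' Icc a b) ≤ ε / 2 := by
      refine Real.sSup_le ?_ (by positivity)
      rintro _ ⟨x, hx, rfl⟩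
      have := hK k hk x hx
      rw [dist_comm, dist_eq_norm] at this
      exact this.le
    rw [Real.dist_eq, sub_zero, abs_of_nonneg h0]
    linarith
  · intro k
    exact Real.sSup_nonneg (by rintro _ ⟨x, -, rfl⟩; exact norm_nonneg _)
  · intro k x hx
    exact le_csSup (isCompact_Icc.bddAbove_image ((hF k).sub hf).norm) ⟨x, hx, rfl⟩

section main

variable {a b : ℝ} {𝒲 : Matrix n n ℂ → ℝ → Matrix n n ℂ}

omit [DecidableEq n] in
theorem cn_exists_modulus_mat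
    (hcont : ContinuousOn (fun p : Matrix n n ℂ × ℝ => 𝒲 p.1 p.2)
      ({G | G.PosSemidef} ×ˢ Icc a b)) {ρ : ℝ} {G : ℕ → Matrix n n ℂ} {G₀ : Matrix n n ℂ}
    (hG : ∀ k, G k ∈ cn_KM n ρ) (hG₀ : G₀ ∈ cn_KM n ρ) (hlim : Tendsto G atTop (𝓝 G₀)) :
    ∃ δ : ℕ → ℝ, Tendsto δ atTop (𝓝 0) ∧ (∀ k, 0 ≤ δ k) ∧
      ∀ k, ∀ x ∈ Icc a b, ∀ i j, ‖(𝒲 (G k) x - 𝒲 G₀ x) i j‖ ≤ δ k := by
  have h : ∀ i j, ∃ δ : ℕ → ℝ, Tendsto δ atTop (𝓝 0) ∧ (∀ k, 0 ≤ δ k) ∧
      ∀ k, ∀ x ∈ Icc a b, ‖𝒲 (G k) x i j - 𝒲 G₀ x i j‖ ≤ δ k := by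
    intro i j
    refine cn_exists_modulus ?_ ?_ (cn_pot_unif hcont hG hG₀ hlim i j)
    · intro k
      exact (continuous_apply_apply i j).comp_continuousOn (cn_pot_cont_x hcont (hG k).1)
    · exact (continuous_apply_apply i j).comp_continuousOn (cn_pot_cont_x hcont hG₀.1)
  choose δ h1 h2 h3 using h
  refine ⟨fun k => ∑ i, ∑ j, δ i j k, ?_, ?_, ?_⟩
  · have : Tendsto (fun k => ∑ i, ∑ j, δ i j k) atTop (𝓝 (∑ _i : n, ∑ _j : n, (0 : ℝ))) :=
      tendsto_finsetSum _ fun i _ => tendsto_finsetSum _ fun j _ => h1 i j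
    simpa using this
  · intro k
    exact Finset.sum_nonneg fun i _ => Finset.sum_nonneg fun j _ => h2 i j k
  · intro k x hx i j
    rw [Matrix.sub_apply]
    refine (h3 i j k x hx).trans ?_
    have e1 : δ i j k ≤ ∑ j, δ i j k :=
      Finset.single_le_sum (f := fun j => δ i j k) (fun j _ => h2 i j k) (Finset.mem_univ j)
    have e2 : ∑ j, δ i j k ≤ ∑ i, ∑ j, δ i j k :=
      Finset.single_le_sum (f := fun i => ∑ j, δ i j k)
        (fun i _ => Finset.sum_nonneg fun j _ => h2 i j k) (Finset.mem_univ i)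
    exact e1.trans e2

theorem cn_corner_lsc (hab : a ≤ b)
    (hcont : ContinuousOn (fun p : Matrix n n ℂ × ℝ => 𝒲 p.1 p.2)
      ({G | G.PosSemidef} ×ˢ Icc a b))
    (hpsd : ∀ G : Matrix n n ℂ, G.PosSemidef → ∀ x ∈ Icc a b, (𝒲 G x).PosSemidef) {w₀ : ℝ}
    (hw₀ : 0 ≤ w₀)
    (hle : ∀ G : Matrix n n ℂ, G.PosSemidef → ∀ x ∈ Icc a b,
      ((w₀ : ℂ) • (1 : Matrix n n ℂ) - 𝒲 G x).PosSemidef) {ρ : ℝ}
    (hρ : Fintype.card n * w₀ < ρ) {G : ℕ → Matrix n n ℂ} {G₀ : Matrix n n ℂ}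
    (hG : ∀ k, G k ∈ cn_KM n ρ) (hG₀ : G₀ ∈ cn_KM n ρ) (hlim : Tendsto G atTop (𝓝 G₀))
    {H : Matrix n n ℂ} (hH : H ∈ Adm a b (𝒲 G₀)) (hHρ : rtr H ≤ ρ) :
    ∃ Hs : ℕ → Matrix n n ℂ, (∀ k, Hs k ∈ Adm a b (𝒲 (G k)) ∧ rtr (Hs k) ≤ ρ) ∧
      Tendsto Hs atTop (𝓝 H) := by
  obtain ⟨δ, d1, d2, d3⟩ := cn_exists_modulus_mat hcont hG hG₀ hlim
  have hd : 0 < ρ - Fintype.card n * w₀ := by linarith
  obtain ⟨dp, hdp⟩ : ∃ dp : ℕ → ℝ, dp = fun k => (Fintype.card n : ℝ) * δ k := ⟨_, rfl⟩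
  obtain ⟨r, hr⟩ : ∃ r : ℕ → ℝ, r = fun k =>
    min 1 ((Fintype.card n : ℝ) * dp k / (ρ - Fintype.card n * w₀)) := ⟨_, rfl⟩
  have hdp0 : ∀ k, 0 ≤ dp k := fun k => by rw [hdp]; exact mul_nonneg (Nat.cast_nonneg _) (d2 k)
  have hdpl : Tendsto dp atTop (𝓝 0) := by
    rw [hdp]
    simpa using d1.const_mul (Fintype.card n : ℝ)
  have hr0 : ∀ k, 0 ≤ r k := fun k => by
    rw [hr]
    exact le_min zero_le_one (div_nonneg (mul_nonneg (Nat.cast_nonneg _) (hdp0 k)) hd.le)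
  have hr1 : ∀ k, r k ≤ 1 := fun k => by rw [hr]; exact min_le_left _ _
  have hrl : Tendsto r atTop (𝓝 0) := by
    have h1 : Tendsto (fun k => (Fintype.card n : ℝ) * dp k / (ρ - Fintype.card n * w₀)) atTop
        (𝓝 ((Fintype.card n : ℝ) * 0 / (ρ - Fintype.card n * w₀))) :=
      (hdpl.const_mul _).div_const _
    have h2 : Tendsto r atTop
        (𝓝 (min 1 ((Fintype.card n : ℝ) * 0 / (ρ - Fintype.card n * w₀)))) := by
      rw [hr]
      exact tendsto_const_nhds.min h1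
    simpa using h2
  have hkey : ∀ k, (1 - r k) * ((Fintype.card n : ℝ) * dp k)
      ≤ r k * (ρ - Fintype.card n * w₀) := by
    intro k
    have hnn : 0 ≤ (Fintype.card n : ℝ) * dp k := mul_nonneg (Nat.cast_nonneg _) (hdp0 k)
    rcases le_total 1 ((Fintype.card n : ℝ) * dp k / (ρ - Fintype.card n * w₀)) with h | h
    · have h1 : r k = 1 := by rw [hr]; exact min_eq_left h
      rw [h1]
      simp only [sub_self, zero_mul, one_mul]
      exact hd.le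
    · have h1 : r k = (Fintype.card n : ℝ) * dp k / (ρ - Fintype.card n * w₀) := by
        rw [hr]; exact min_eq_right h
      have h2 : r k * (ρ - Fintype.card n * w₀) = (Fintype.card n : ℝ) * dp k := by
        rw [h1]; field_simp
      rw [h2]
      nlinarith [hr0 k]
  have hH1 : H.PosSemidef := hH.1
  have hmem : ∀ k, H + (dp k : ℂ) • (1 : Matrix n n ℂ) ∈ Adm a b (𝒲 (G k)) := by
    intro k
    obtain ⟨hE, Y, hR, hend⟩ := hH
    have hp : ((dp k : ℂ) • (1 : Matrix n n ℂ)).PosSemidef := cn_psd_smul Matrix.PosSemidef.one (hdp0 k)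
    obtain ⟨Y', -, -, -, h⟩ := adm_of_le (W' := 𝒲 (G k)) (E' := H + (dp k : ℂ) • (1 : Matrix n n ℂ))
      hab (cn_pot_cont_x hcont (hG k).1) (hpsd _ (hG k).1) hE hR hend
      (by simpa using hp) (by
        intro x hx
        have h1 := cn_psd_of_entry (((hpsd _ (hG k).1 x hx).isHermitian).sub
          ((hpsd _ hG₀.1 x hx).isHermitian)) (d3 k x hx)
        have h2 : 𝒲 G₀ x - H - (𝒲 (G k) x - (H + (dp k : ℂ) • (1 : Matrix n n ℂ)))
            = ((((Fintype.card n : ℝ) * δ k : ℝ) : ℂ) • (1 : Matrix n n ℂ)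
              - (𝒲 (G k) x - 𝒲 G₀ x)) := by
          rw [hdp]
          abel
        rw [h2]
        exact h1)
    exact h
  refine ⟨fun k => ((1 - r k : ℝ) : ℂ) • (H + (dp k : ℂ) • (1 : Matrix n n ℂ))
    + ((r k : ℝ) : ℂ) • ((w₀ : ℂ) • (1 : Matrix n n ℂ)), ?_, ?_⟩
  · intro k
    refine ⟨adm_convex hab (cn_pot_cont_x hcont (hG k).1) (hpsd _ (hG k).1) (hmem k)
      (adm_const hab (cn_pot_cont_x hcont (hG k).1) (hpsd _ (hG k).1) hw₀ (hle _ (hG k).1))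
      (by linarith [hr1 k]) (hr0 k) (by ring), ?_⟩
    rw [cn_rtr_add, cn_rtr_smul, cn_rtr_smul, cn_rtr_add, cn_rtr_smul, cn_rtr_smul, cn_rtr_one]
    have h1 : (1 - r k) * rtr H ≤ (1 - r k) * ρ :=
      mul_le_mul_of_nonneg_left hHρ (by linarith [hr1 k])
    have := hkey k
    nlinarith
  · have hc1 : Tendsto (fun k => ((1 - r k : ℝ) : ℂ)) atTop (𝓝 ((1 - 0 : ℝ) : ℂ)) :=
      (Complex.continuous_ofReal.tendsto _).comp (hrl.const_sub 1)
    have hc2 : Tendsto (fun k => ((r k : ℝ) : ℂ)) atTop (𝓝 ((0 : ℝ) : ℂ)) :=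
      (Complex.continuous_ofReal.tendsto _).comp hrl
    have hc3 : Tendsto (fun k => ((dp k : ℝ) : ℂ)) atTop (𝓝 ((0 : ℝ) : ℂ)) :=
      (Complex.continuous_ofReal.tendsto _).comp hdpl
    have h4 : Tendsto (fun k => H + (dp k : ℂ) • (1 : Matrix n n ℂ)) atTop
        (𝓝 (H + ((0 : ℝ) : ℂ) • (1 : Matrix n n ℂ))) :=
      tendsto_const_nhds.add (hc3.smul_const _)
    have h5 := (hc1.smul h4).add (hc2.smul_const ((w₀ : ℂ) • (1 : Matrix n n ℂ)))
    simpa using h5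

open Classical in
/-- The end value of the Riccati solution. -/
noncomputable def cn_yend (a b : ℝ) (𝒲 : Matrix n n ℂ → ℝ → Matrix n n ℂ) (G E : Matrix n n ℂ) :
    Matrix n n ℂ :=
  if h : ∃ Y : ℝ → Matrix n n ℂ, IsRic a b (𝒲 G) E Y then h.choose b else 0

theorem cn_yend_eq (hab : a ≤ b) {G E : Matrix n n ℂ} {Y : ℝ → Matrix n n ℂ}
    (hY : IsRic a b (𝒲 G) E Y) : cn_yend a b 𝒲 G E = Y b := by
  have h : ∃ Y : ℝ → Matrix n n ℂ, IsRic a b (𝒲 G) E Y := ⟨Y, hY⟩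
  rw [cn_yend, dif_pos h]
  exact ric_unique hab h.choose_spec hY b ⟨hab, le_rfl⟩

end main

theorem exists_corner {a b : ℝ} (hab : a < b) (𝒲 : Matrix n n ℂ → ℝ → Matrix n n ℂ)
    (hcont : ContinuousOn (fun p : Matrix n n ℂ × ℝ => 𝒲 p.1 p.2)
      ({G | G.PosSemidef} ×ˢ Icc a b))
    (hpsd : ∀ G : Matrix n n ℂ, G.PosSemidef → ∀ x ∈ Icc a b, (𝒲 G x).PosSemidef) {w₀ : ℝ}
    (hw₀ : 0 ≤ w₀)
    (hle : ∀ G : Matrix n n ℂ, G.PosSemidef → ∀ x ∈ Icc a b,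
      ((w₀ : ℂ) • (1 : Matrix n n ℂ) - 𝒲 G x).PosSemidef) :
    ∃ (E : Matrix n n ℂ) (Y : ℝ → Matrix n n ℂ), E.PosSemidef ∧ IsRic a b (𝒲 E) E Y ∧
      Y b = msqrt E ∧ (∀ x ∈ Icc a b, (msqrt E - Y x).PosSemidef) ∧
      ∀ x ∈ Icc a b, (msqrt E + Y x).PosSemidef := by
  have hab' : a ≤ b := hab.le
  obtain ⟨M, hM⟩ : ∃ M : ℝ, M = max 1 ((w₀ * (b - a) * Real.sqrt (Fintype.card n)
    + 2 * w₀ * Fintype.card n) ^ 2) := ⟨_, rfl⟩
  have hM1 : 1 ≤ M := by rw [hM]; exact le_max_left _ _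
  obtain ⟨ρ, hρ⟩ : ∃ ρ : ℝ, ρ = M + Fintype.card n * w₀ + Fintype.card n := ⟨_, rfl⟩
  have hN0 : (0 : ℝ) ≤ Fintype.card n := Nat.cast_nonneg _
  have hNw : (0 : ℝ) ≤ Fintype.card n * w₀ := mul_nonneg hN0 hw₀
  have hρw : Fintype.card n * w₀ < ρ := by rw [hρ]; linarith
  have hw1 : ((w₀ : ℂ) • (1 : Matrix n n ℂ)).PosSemidef := cn_psd_smul Matrix.PosSemidef.one hw₀
  have hw1r : rtr ((w₀ : ℂ) • (1 : Matrix n n ℂ)) ≤ ρ := by
    rw [cn_rtr_smul, cn_rtr_one]; linarith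
  -- admissible `w₀`
  have hadm : ∀ G : Matrix n n ℂ, G.PosSemidef →
      (w₀ : ℂ) • (1 : Matrix n n ℂ) ∈ Adm a b (𝒲 G) := fun G hG =>
    adm_const hab' (cn_pot_cont_x hcont hG) (hpsd _ hG) hw₀ (hle _ hG)
  have hcl : ∀ G : ℕ → cn_CV n, ∀ G₀ : cn_CV n, (∀ k, G k ∈ cn_cof ⁻¹' cn_KM n ρ) →
      Tendsto G atTop (𝓝 G₀) → cn_cof G₀ ∈ cn_KM n ρ := by
    intro G G₀ hG hl
    have h1 : IsClosed (cn_KM n ρ) := (cn_isCompact_KM ρ).isClosed
    exact h1.mem_of_tendsto ((cn_continuous_cof.tendsto G₀).comp hl) (Eventually.of_forall hG)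
  have hlimit : ∀ (G E : ℕ → cn_CV n) (G₀ E₀ : cn_CV n), (∀ k, G k ∈ cn_cof ⁻¹' cn_KM n ρ) →
      (∀ k, cn_cof (E k) ∈ Adm a b (𝒲 (cn_cof (G k)))) →
      Tendsto G atTop (𝓝 G₀) → Tendsto E atTop (𝓝 E₀) →
      cn_cof E₀ ∈ Adm a b (𝒲 (cn_cof G₀)) ∧
      Tendsto (fun k => cn_yend a b 𝒲 (cn_cof (G k)) (cn_cof (E k))) atTop
        (𝓝 (cn_yend a b 𝒲 (cn_cof G₀) (cn_cof E₀))) := by
    intro G E G₀ E₀ hG hE hlG hlE
    have hG₀ := hcl G G₀ hG hlG
    have hE1 : ∀ k, (cn_cof (E k)).PosSemidef := fun k => (hE k).1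
    have hE2 : ∀ k, ∃ Y : ℝ → Matrix n n ℂ, IsRic a b (𝒲 (cn_cof (G k))) (cn_cof (E k)) Y ∧
        (msqrt (cn_cof (E k)) - Y b).PosSemidef := fun k => (hE k).2
    choose Ys hY1 hY2 using hE2
    obtain ⟨hE0, Y, hY, hend, hl⟩ := ric_limit (Ws := fun k => 𝒲 (cn_cof (G k))) (W := 𝒲 (cn_cof G₀))
      hab' (fun k => cn_pot_cont_x hcont (hG k).1) (fun k => hpsd _ (hG k).1)
      (fun i j => cn_pot_unif hcont hG hG₀ ((cn_continuous_cof.tendsto G₀).comp hlG) i j) hE1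
      ((cn_continuous_cof.tendsto E₀).comp hlE) hY1 hY2
    refine ⟨⟨hE0, Y, hY, hend⟩, ?_⟩
    rw [cn_yend_eq hab' hY]
    refine hl.congr fun k => ?_
    rw [cn_yend_eq hab' (hY1 k)]
  obtain ⟨G, hGK, hGC, hG⟩ := qvi (V := cn_CV n) (K₀ := cn_cof ⁻¹' cn_KM n ρ)
    (by
      have h1 : cn_cof ⁻¹' cn_KM n ρ = cn_cto '' cn_KM n ρ := by
        ext v
        constructor
        · intro hv
          exact ⟨cn_cof v, hv, cn_cto_cof v⟩
        · rintro ⟨A, hA, rfl⟩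
          exact hA
      rw [h1]
      exact (cn_isCompact_KM ρ).image cn_continuous_cto)
    (by
      intro v hv w hw s t hs ht hst
      refine ⟨?_, ?_⟩
      · rw [cn_cof_add, cn_cof_smul, cn_cof_smul]
        exact (cn_psd_smul hv.1 hs).add (cn_psd_smul hw.1 ht)
      · rw [cn_cof_add, cn_cof_smul, cn_cof_smul, cn_rtr_add, cn_rtr_smul, cn_rtr_smul]
        have h1 := mul_le_mul_of_nonneg_left hv.2 hs
        have h2 := mul_le_mul_of_nonneg_left hw.2 ht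
        have h3 : s * ρ + t * ρ = ρ := by rw [← add_mul, hst, one_mul]
        linarith)
    ⟨cn_cto ((w₀ : ℂ) • (1 : Matrix n n ℂ)), hw1, hw1r⟩
    (fun v => {w | cn_cof w ∈ Adm a b (𝒲 (cn_cof v)) ∧ w ∈ cn_cof ⁻¹' cn_KM n ρ})
    (fun v _ w hw => hw.2)
    (fun v hv => ⟨cn_cto ((w₀ : ℂ) • (1 : Matrix n n ℂ)), hadm _ hv.1, hw1, hw1r⟩)
    (by
      intro v hv x hx y hy s t hs ht hst
      have hadm2 : cn_cof (s • x + t • y) ∈ Adm a b (𝒲 (cn_cof v)) := by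
        rw [cn_cof_add, cn_cof_smul, cn_cof_smul]
        exact adm_convex hab' (cn_pot_cont_x hcont hv.1) (hpsd _ hv.1) hx.1 hy.1 hs ht hst
      refine ⟨hadm2, hadm2.1, ?_⟩
      rw [cn_cof_add, cn_cof_smul, cn_cof_smul, cn_rtr_add, cn_rtr_smul, cn_rtr_smul]
      have h1 := mul_le_mul_of_nonneg_left hx.2.2 hs
      have h2 := mul_le_mul_of_nonneg_left hy.2.2 ht
      have h3 : s * ρ + t * ρ = ρ := by rw [← add_mul, hst, one_mul]
      linarith)
    (by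
      intro G E G₀ E₀ hG hE hlG hlE
      exact ⟨(hlimit G E G₀ E₀ hG (fun k => (hE k).1) hlG hlE).1,
        hcl E E₀ (fun k => (hE k).2) hlE⟩)
    (by
      intro G G₀ hG hlG H hH
      obtain ⟨Hs, h1, h2⟩ := cn_corner_lsc hab' hcont hpsd hw₀ hle hρw (G := fun k => cn_cof (G k))
        (G₀ := cn_cof G₀) hG (hcl G G₀ hG hlG) ((cn_continuous_cof.tendsto G₀).comp hlG) hH.1 hH.2.2
      refine ⟨fun k => cn_cto (Hs k), fun k => ⟨(h1 k).1, (h1 k).1.1, (h1 k).2⟩, ?_⟩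
      exact (cn_continuous_cto.tendsto (cn_cof H)).comp h2)
    (fun v w => cn_cto (msqrt (cn_cof w) - cn_yend a b 𝒲 (cn_cof v) (cn_cof w)))
    (by
      intro G E G₀ E₀ hG hE hlG hlE
      have h1 := (hlimit G E G₀ E₀ hG (fun k => (hE k).1) hlG hlE).2
      have hE0 : (cn_cof E₀).PosSemidef := (hcl E E₀ (fun k => (hE k).2) hlE).1
      have h2 : Tendsto (fun k => msqrt (cn_cof (E k))) atTop (𝓝 (msqrt (cn_cof E₀))) := by
        have h3 : Tendsto (fun k => cn_cof (E k)) atTop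
            (𝓝[{A : Matrix n n ℂ | A.IsHermitian}] (cn_cof E₀)) :=
          tendsto_nhdsWithin_iff.2 ⟨(cn_continuous_cof.tendsto E₀).comp hlE,
            Eventually.of_forall fun k => (hE k).1.1.isHermitian⟩
        exact Tendsto.comp (continuousOn_msqrt (cn_cof E₀) hE0.isHermitian) h3
      exact (cn_continuous_cto.tendsto _).comp (h2.sub h1))
  -- the fixed point
  have hE0 : (cn_cof G).PosSemidef := hGC.1.1
  obtain ⟨-, Y, hR, hend⟩ := hGC.1
  have hWc := cn_pot_cont_x hcont hE0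
  have hWp := hpsd _ hE0
  have hYH : (Y b).IsHermitian := hR.herm b ⟨hab', le_rfl⟩
  have hge := ric_ge hab' hWp hE0 hR
  have hvi : ∀ H : Matrix n n ℂ, H ∈ Adm a b (𝒲 (cn_cof G)) → rtr H ≤ ρ →
      0 ≤ rtr ((msqrt (cn_cof G) - Y b) * (H - cn_cof G)) := by
    intro H hH hr
    have h1 := hG (cn_cto H) ⟨hH, hH.1, hr⟩
    simp only [cn_yend_eq hab' hR] at h1
    rw [cn_inner_cto hend.isHermitian, cn_cof_sub, cn_cof_cto] at h1
    exact h1
  have hEM : rtr (cn_cof G) ≤ M := by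
    rw [hM]
    refine energy_bound hw₀ (by linarith) hE0 ?_
    have h1 := hvi _ (hadm _ hE0) hw1r
    have h2 := trace_bound hab' hWc hWp (hle _ hE0) hE0 hR hend
    have h3 : rtr ((msqrt (cn_cof G) - Y b) * ((w₀ : ℂ) • (1 : Matrix n n ℂ) - cn_cof G))
        = w₀ * rtr (msqrt (cn_cof G) - Y b) - rtr (cn_cof G * (msqrt (cn_cof G) - Y b)) := by
      rw [mul_sub, cn_rtr_sub, Matrix.mul_smul, mul_one, cn_rtr_smul, cn_rtr_mul_comm (cn_cof G)]
    have h4 : 0 ≤ rtr (msqrt (cn_cof G) + Y b) := rtr_nonneg (hge b ⟨hab', le_rfl⟩)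
    rw [h3, cn_rtr_sub] at h1
    rw [cn_rtr_add] at h4
    have h5 : w₀ * (rtr (msqrt (cn_cof G)) - rtr (Y b)) ≤ w₀ * (2 * rtr (msqrt (cn_cof G))) :=
      mul_le_mul_of_nonneg_left (by linarith) hw₀
    linarith
  have hfin : msqrt (cn_cof G) - Y b = 0 := by
    by_contra hne
    obtain ⟨H, h1, h2, h3⟩ := adm_dir hab' hWc hWp hE0 hR hend hne
    have h4 : rtr (cn_cof G + H) ≤ ρ := by
      rw [cn_rtr_add, hρ]
      linarith
    have h5 := hvi _ h1 h4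
    rw [add_sub_cancel_left] at h5
    exact absurd h5 (not_le.2 h2)
  exact ⟨cn_cof G, Y, hE0, hR, (sub_eq_zero.1 hfin).symm, ric_le hab' hWp hE0 hR hend, hge⟩

end Vale.Agent.P371.Gen
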