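import Vale.Agent.Lib.P371.Gen.JBound
import Vale.Agent.Lib.P371.H1

/-! # P371 Gen: lower bound, matrix form (module JBoundMat)

`jbound`: `K = √E`, `v ∈ H^1(ℝ; ℂ^N)`. Since `⟨v, A v⟩' = 2 Re ⟨v', A v⟩ + ⟨v, A' v⟩`,
on `(-∞, a]`: `‖v'‖^2 + ⟨v, E v⟩ = ‖v' - K v‖^2 + ⟨v, K v⟩'` integrates to `≥ ⟨v(a), K v(a)⟩`
(`v → 0` at infinity); on `[b, ∞)` likewise with `v' + K v`: `≥ ⟨v(b), K v(b)⟩`; on `[a, b]`:
`‖v'‖^2 + ⟨v, E v⟩ - ⟨v, W v⟩ = ‖v' + Y v‖^2 - ⟨v, Y v⟩'` (as `Y' = Y^2 - E + W`) integrates to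
`≥ -⟨v(b), Y(b) v(b)⟩ + ⟨v(a), Y(a) v(a)⟩ = -⟨v(b), K v(b)⟩ - ⟨v(a), K v(a)⟩`. Add up.
(Tools: `HasW` / `HasWM` calculus in `Lib/P371/WDeriv.lean`, `WMat.lean`; `IsH1` in `H1.lean`.)

`jbound_mat`: sum `jbound` over the `m` functions `v_a = ` column `a` of `T (Umat f x)ᴴ`:
`∑_a v_a v_aᴴ = T (gram f x) T`, and `∫ gram f = 1`. -/

open Matrix Set MeasureTheory
open scoped ComplexOrder

namespace Vale.Agent.P371.Gen

/-- the columns of `T (Umat f x)ᴴ` -/
noncomputable def vcol {m N : ℕ} (T : Matrix (Fin N) (Fin N) ℂ)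
    (f : Fin N → ℝ → EuclideanSpace ℂ (Fin m)) (α : Fin m) (x : ℝ) :
    EuclideanSpace ℂ (Fin N) :=
  WithLp.toLp 2 (fun i => (T * (Umat f x)ᴴ) i α)

theorem vcol_apply {m N : ℕ} (T : Matrix (Fin N) (Fin N) ℂ)
    (f : Fin N → ℝ → EuclideanSpace ℂ (Fin m)) (α : Fin m) (x : ℝ) (i : Fin N) :
    vcol T f α x i = (T * (Umat f x)ᴴ) i α := rfl

theorem vcol_apply' {m N : ℕ} (T : Matrix (Fin N) (Fin N) ℂ)
    (f : Fin N → ℝ → EuclideanSpace ℂ (Fin m)) (α : Fin m) (x : ℝ) (i : Fin N) :
    vcol T f α x i = ∑ j, T i j * star (f j x α) := by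
  rw [vcol_apply, Matrix.mul_apply]
  rfl

theorem hasWM_vcol {m N : ℕ} (T : Matrix (Fin N) (Fin N) ℂ)
    {f f' : Fin N → ℝ → EuclideanSpace ℂ (Fin m)} (hf : ∀ j, IsH1 (f j) (f' j)) :
    HasWM (fun x => T * (Umat f x)ᴴ) (fun x => T * (Umat f' x)ᴴ) := by
  have h1 := (IsH1.hasWM hf).conjTranspose
  intro i α
  have := HasW.sum Finset.univ fun k _ => (h1 k α).const_mul (T i k)
  simpa [Matrix.mul_apply] using this

theorem memLp_vcol {m N : ℕ} (T : Matrix (Fin N) (Fin N) ℂ)
    {f : Fin N → ℝ → EuclideanSpace ℂ (Fin m)} (hf : ∀ j, MemLp (f j) 2 volume) (α : Fin m) :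
    MemLp (vcol T f α) 2 volume := by
  refine MemLp.of_eval_piLp fun i => ?_
  have e : (fun x => vcol T f α x i) = fun x => ∑ j, T i j * star (f j x α) := by
    funext x
    exact vcol_apply' T f α x i
  rw [e]
  refine memLp_finsetSum _ fun j _ => ?_
  exact ((Umat_memLp hf α j).star).const_mul (T i j)

theorem isH1_vcol {m N : ℕ} (T : Matrix (Fin N) (Fin N) ℂ)
    {f f' : Fin N → ℝ → EuclideanSpace ℂ (Fin m)} (hf : ∀ j, IsH1 (f j) (f' j)) (α : Fin m) :
    IsH1 (vcol T f α) (vcol T f' α) where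
  memLp := memLp_vcol T (fun j => (hf j).memLp) α
  memLp_deriv := memLp_vcol T (fun j => (hf j).memLp_deriv) α
  ftc := by
    intro a b
    have hW := hasWM_vcol T hf
    have hint : IntervalIntegrable (vcol T f' α) volume a b :=
      ((memLp_vcol T (fun j => (hf j).memLp_deriv) α).locallyIntegrable
        (by norm_num)).integrableOn_isCompact isCompact_uIcc |>.intervalIntegrable
    ext i
    have h := ContinuousLinearMap.intervalIntegral_comp_comm
      (EuclideanSpace.proj i : EuclideanSpace ℂ (Fin N) →L[ℂ] ℂ) hint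
    have h' : ∫ t in a..b, vcol T f' α t i = (∫ t in a..b, vcol T f' α t) i := h
    rw [← h']
    exact (hW i α).ftc a b

theorem sum_inner_vcol {m N : ℕ} (T M : Matrix (Fin N) (Fin N) ℂ) (hT : T.IsHermitian)
    (f : Fin N → ℝ → EuclideanSpace ℂ (Fin m)) (x : ℝ) :
    ∑ α, inner ℂ (vcol T f α x) (app M (vcol T f α x)) = (M * (T * gram f x * T)).trace := by
  have h1 : T * gram f x * T = (T * (Umat f x)ᴴ) * (T * (Umat f x)ᴴ)ᴴ := by
    rw [Matrix.conjTranspose_mul, Matrix.conjTranspose_conjTranspose, hT.eq, gram_eq]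
    simp only [Matrix.mul_assoc]
  rw [h1, ← Matrix.mul_assoc, Matrix.trace_mul_comm, Matrix.trace]
  refine Finset.sum_congr rfl fun α _ => ?_
  rw [Matrix.diag_apply, Matrix.mul_apply, PiLp.inner_apply]
  refine Finset.sum_congr rfl fun i _ => ?_
  rw [RCLike.inner_apply, Matrix.conjTranspose_apply, Matrix.mul_apply]
  rw [mul_comm]
  rfl

theorem sum_norm_vcol {m N : ℕ} (T : Matrix (Fin N) (Fin N) ℂ) (hT : T.IsHermitian)
    (f : Fin N → ℝ → EuclideanSpace ℂ (Fin m)) (x : ℝ) :
    ∑ α, ‖vcol T f α x‖ ^ 2 = rtr (T * T * ((Umat f x)ᴴ * Umat f x)) := by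
  have h1 : (T * T * ((Umat f x)ᴴ * Umat f x)).trace
      = ((T * (Umat f x)ᴴ)ᴴ * (T * (Umat f x)ᴴ)).trace := by
    rw [Matrix.conjTranspose_mul, Matrix.conjTranspose_conjTranspose, hT.eq]
    rw [← Matrix.mul_assoc (T * T), Matrix.trace_mul_comm]
    simp only [Matrix.mul_assoc]
  rw [rtr, h1, gram_trace]
  refine Finset.sum_congr rfl fun α _ => ?_
  rw [EuclideanSpace.norm_sq_eq]
  rfl

theorem integrable_inner_app_const {N : ℕ} (M : Matrix (Fin N) (Fin N) ℂ)
    {v : ℝ → EuclideanSpace ℂ (Fin N)} (hv : MemLp v 2 volume) :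
    Integrable (fun x => inner ℂ (v x) (app M (v x))) := by
  have hc : ∀ i, MemLp (fun x => v x i) 2 volume := fun i => hv.eval_piLp i
  have e : (fun x => inner ℂ (v x) (app M (v x)))
      = fun x => ∑ i, ∑ j, M i j * (star (v x i) * v x j) := by
    funext x
    rw [PiLp.inner_apply]
    refine Finset.sum_congr rfl fun i _ => ?_
    rw [RCLike.inner_apply]
    change (M *ᵥ (v x).ofLp) i * _ = _
    rw [Matrix.mulVec, dotProduct, Finset.sum_mul]
    refine Finset.sum_congr rfl fun j _ => ?_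
    change M i j * v x j * star (v x i) = _
    ring
  rw [e]
  refine integrable_finsetSum _ fun i _ => integrable_finsetSum _ fun j _ => ?_
  exact (((hc i).star).integrable_mul (hc j)).const_mul _

theorem continuousOn_inner_app {N : ℕ} {W : ℝ → Matrix (Fin N) (Fin N) ℂ} {s : Set ℝ}
    (hW : ContinuousOn W s) {v : ℝ → EuclideanSpace ℂ (Fin N)} (hv : Continuous v) :
    ContinuousOn (fun x => inner ℂ (v x) (app (W x) (v x))) s := by
  have e : (fun x => inner ℂ (v x) (app (W x) (v x)))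
      = fun x => ∑ i, ∑ j, W x i j * (star (v x i) * v x j) := by
    funext x
    rw [PiLp.inner_apply]
    refine Finset.sum_congr rfl fun i _ => ?_
    rw [RCLike.inner_apply]
    change (W x *ᵥ (v x).ofLp) i * _ = _
    rw [Matrix.mulVec, dotProduct, Finset.sum_mul]
    refine Finset.sum_congr rfl fun j _ => ?_
    change W x i j * v x j * star (v x i) = _
    ring
  have hc : ∀ i, Continuous fun x => v x i := fun i =>
    (EuclideanSpace.proj i : EuclideanSpace ℂ (Fin N) →L[ℂ] ℂ).continuous.comp hv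
  have hWc : ∀ i j, ContinuousOn (fun x => W x i j) s := fun i j =>
    (continuous_apply_apply i j).comp_continuousOn hW
  rw [e]
  refine continuousOn_finsetSum _ fun i _ => continuousOn_finsetSum _ fun j _ => ?_
  exact (hWc i j).mul ((((hc i).star).mul (hc j)).continuousOn)

theorem integrable_gram_entry {m N : ℕ} {f f' : Fin N → ℝ → EuclideanSpace ℂ (Fin m)}
    (hf : ∀ j, IsH1 (f j) (f' j)) (i j : Fin N) : Integrable (fun x => gram f x i j) := by
  have h := integrable_gram (Umat_memLp fun j => (hf j).memLp)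
    (Umat_memLp fun j => (hf j).memLp) i j
  refine h.congr (Filter.Eventually.of_forall fun x => ?_)
  change ((Umat f x)ᴴ * Umat f x) i j = gram f x i j
  rw [gram_eq]

theorem integral_trace_gram {m N : ℕ} {f f' : Fin N → ℝ → EuclideanSpace ℂ (Fin m)}
    (hf : ∀ j, IsH1 (f j) (f' j))
    (ho : ∀ i j, (∫ x, inner ℂ (f i x) (f j x)) = if i = j then (1 : ℂ) else 0)
    (T E : Matrix (Fin N) (Fin N) ℂ) :
    ∫ x, (E * (T * gram f x * T)).trace = (E * (T * T)).trace := by
  have e : ∀ G : Matrix (Fin N) (Fin N) ℂ, (E * (T * G * T)).trace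
      = ∑ i, ∑ j, (T * E * T) i j * G j i := by
    intro G
    have : (E * (T * G * T)).trace = ((T * E * T) * G).trace := by
      rw [← Matrix.mul_assoc E, Matrix.trace_mul_comm]
      simp only [Matrix.mul_assoc]
    rw [this, Matrix.trace]
    refine Finset.sum_congr rfl fun i _ => ?_
    rw [Matrix.diag_apply, Matrix.mul_apply]
  have h0 : (E * (T * T)).trace = (E * (T * 1 * T)).trace := by rw [Matrix.mul_one]
  rw [h0, e 1]
  have hi : ∀ i j, Integrable (fun x => (T * E * T) i j * gram f x j i) := fun i j =>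
    (integrable_gram_entry hf j i).const_mul _
  calc ∫ x, (E * (T * gram f x * T)).trace
      = ∫ x, ∑ i, ∑ j, (T * E * T) i j * gram f x j i :=
        integral_congr_ae (Filter.Eventually.of_forall fun x => e (gram f x))
    _ = ∑ i, ∫ x, ∑ j, (T * E * T) i j * gram f x j i :=
        integral_finsetSum _ fun i _ => integrable_finsetSum _ fun j _ => hi i j
    _ = ∑ i, ∑ j, (T * E * T) i j * (1 : Matrix (Fin N) (Fin N) ℂ) j i := by
        refine Finset.sum_congr rfl fun i _ => ?_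
        refine (integral_finsetSum _ fun j _ => hi i j).trans ?_
        refine Finset.sum_congr rfl fun j _ => ?_
        refine (integral_const_mul _ _).trans ?_
        congr 1
        have := ho j i
        rw [Matrix.one_apply, ← this]
        rfl

theorem jbound_mat {m N : ℕ} {a b : ℝ} (hab : a < b) {W Y : ℝ → Matrix (Fin N) (Fin N) ℂ}
    {E : Matrix (Fin N) (Fin N) ℂ} (hWc : ContinuousOn W (Icc a b)) (hE : E.PosSemidef)
    (hR : IsRic a b W E Y) (hend : Y b = msqrt E)
    {f f' : Fin N → ℝ → EuclideanSpace ℂ (Fin m)} (hf : ∀ j, IsH1 (f j) (f' j))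
    (ho : ∀ i j, (∫ x, inner ℂ (f i x) (f j x)) = if i = j then (1 : ℂ) else 0)
    {T : Matrix (Fin N) (Fin N) ℂ} (hT : T.IsHermitian) :
    ∫ x in a..b, rtr (W x * (T * gram f x * T)) ≤
      (∫ x, rtr (T * T * ((Umat f' x)ᴴ * Umat f' x))) + rtr (E * (T * T)) := by
  have hv : ∀ α, IsH1 (vcol T f α) (vcol T f' α) := fun α => isH1_vcol T hf α
  have hsum := Finset.sum_le_sum fun α (_ : α ∈ Finset.univ) =>
    jbound hab hWc hE hR hend (hv α)
  have hab' : uIcc a b = Icc a b := uIcc_of_le hab.le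
  have hWi : ∀ α, IntervalIntegrable
      (fun x => (inner ℂ (vcol T f α x) (app (W x) (vcol T f α x))).re) volume a b := by
    intro α
    apply ContinuousOn.intervalIntegrable
    rw [hab']
    exact Complex.continuous_re.comp_continuousOn (continuousOn_inner_app hWc (hv α).continuous)
  have hEi : ∀ α, Integrable
      (fun x => (inner ℂ (vcol T f α x) (app E (vcol T f α x))).re) := fun α =>
    (integrable_inner_app_const E (hv α).memLp).re
  have e1 : ∑ α, (∫ x in a..b, (inner ℂ (vcol T f α x) (app (W x) (vcol T f α x))).re)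
      = ∫ x in a..b, rtr (W x * (T * gram f x * T)) := by
    rw [← intervalIntegral.integral_finsetSum fun α _ => hWi α]
    refine intervalIntegral.integral_congr fun x _ => ?_
    change ∑ α, (inner ℂ (vcol T f α x) (app (W x) (vcol T f α x))).re = _
    rw [← Complex.re_sum, sum_inner_vcol T (W x) hT f x, rtr]
  have e2 : ∑ α, (∫ x, ‖vcol T f' α x‖ ^ 2)
      = ∫ x, rtr (T * T * ((Umat f' x)ᴴ * Umat f' x)) := by
    rw [← integral_finsetSum _ fun α _ => (hv α).integrable_deriv_sq]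
    refine integral_congr_ae (Filter.Eventually.of_forall fun x => ?_)
    exact sum_norm_vcol T hT f' x
  have e3 : ∑ α, (∫ x, (inner ℂ (vcol T f α x) (app E (vcol T f α x))).re)
      = rtr (E * (T * T)) := by
    rw [← integral_finsetSum _ fun α _ => hEi α]
    have e4 : ∀ x, ∑ α, (inner ℂ (vcol T f α x) (app E (vcol T f α x))).re
        = ((E * (T * gram f x * T)).trace).re := by
      intro x
      rw [← Complex.re_sum, sum_inner_vcol T E hT f x]
    simp only [e4]
    rw [rtr, ← integral_trace_gram hf ho T E]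
    have hi : Integrable (fun x => (E * (T * gram f x * T)).trace) := by
      have h5 : Integrable (fun x => ∑ α, inner ℂ (vcol T f α x) (app E (vcol T f α x))) :=
        integrable_finsetSum _ fun α _ => integrable_inner_app_const E (hv α).memLp
      refine h5.congr (Filter.Eventually.of_forall fun x => ?_)
      exact sum_inner_vcol T E hT f x
    exact integral_re hi
  rw [Finset.sum_add_distrib, e1, e2, e3] at hsum
  exact hsum

end Vale.Agent.P371.Gen
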