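import Vale.Agent.Lib.P371.Gen.KlFacts
import Vale.Agent.Lib.P371.Gen.Cont

/-! # P371 Gen: derivative, continuity of K_l and a bound for B_l (module KlFacts2)

`E ≥ 0`, `l > 0`. Everything is diagonal in the eigenbasis of `E`.
`K_l - √E ≥ c(l) > 0`: `√(e+l) - √e = l/(√(e+l)+√e) ≥ l / (2 √(M + l))` if `e ≤ M`. Hence
`K_l ± Y ≥ c(l)` when `-√E ≤ Y ≤ √E`, and `X + l = E - Y^2 + l = K_l^2 - Y^2`. -/

open Matrix Set MeasureTheory
open scoped ComplexOrder

namespace Vale.Agent.P371.Gen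

variable {n : Type*} [Fintype n] [DecidableEq n] {E Y : Matrix n n ℂ}

/-- entries of the functional calculus -/
private theorem kf2_entry {A : Matrix n n ℂ} (hA : A.IsHermitian) :
    ∃ c : n → n → n → ℂ, ∀ (f : ℝ → ℝ) (i j : n),
      mf f A i j = ∑ k, c i j k * ((f (hA.eigenvalues k) : ℝ) : ℂ) := by
  refine ⟨fun i j k => (hA.eigenvectorUnitary : Matrix n n ℂ) i k
    * star ((hA.eigenvectorUnitary : Matrix n n ℂ) j k), fun f i j => ?_⟩
  unfold mf
  rw [hA.cfc_eq, Matrix.IsHermitian.cfc, Unitary.conjStarAlgAut_apply, Matrix.mul_apply]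
  refine Finset.sum_congr rfl fun k _ => ?_
  rw [Matrix.mul_diagonal, Matrix.star_apply]
  simp only [Function.comp_apply]
  rw [mul_right_comm]
  rfl

private theorem kf2_pos (hE : E.PosSemidef) {l : ℝ} (hl : 0 < l) (k : n) :
    0 < hE.isHermitian.eigenvalues k + l :=
  add_pos_of_nonneg_of_pos (hE.eigenvalues_nonneg k) hl

private theorem kf2_inv (hE : E.PosSemidef) {l : ℝ} (hl : 0 < l) :
    (Kl l E)⁻¹ = mf (fun e => (Real.sqrt (e + l))⁻¹) E := by
  apply Matrix.inv_eq_right_inv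
  unfold Kl
  rw [← mf_mul hE.isHermitian]
  have h1 : mf (fun t => Real.sqrt (t + l) * (Real.sqrt (t + l))⁻¹) E = mf (fun _ => 1) E := by
    apply mf_congr hE.isHermitian
    intro k
    exact mul_inv_cancel₀ (Real.sqrt_pos.2 (kf2_pos hE hl k)).ne'
  rw [h1, mf_const hE.isHermitian]
  simp

theorem hasDerivAt_Kl (hE : E.PosSemidef) {l : ℝ} (hl : 0 < l) (i j : n) :
    HasDerivAt (fun t => Kl t E i j) ((((2 : ℝ)⁻¹ : ℝ) : ℂ) * (Kl l E)⁻¹ i j) l := by
  obtain ⟨c, hc⟩ := kf2_entry hE.isHermitian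
  rw [kf2_inv hE hl]
  have e1 : (fun t => Kl t E i j)
      = fun t : ℝ => ∑ k, c i j k * ((Real.sqrt (hE.isHermitian.eigenvalues k + t) : ℝ) : ℂ) := by
    funext t
    exact hc _ i j
  rw [e1, hc, Finset.mul_sum]
  have h1 : ∀ k ∈ Finset.univ, HasDerivAt
      (fun t : ℝ => c i j k * ((Real.sqrt (hE.isHermitian.eigenvalues k + t) : ℝ) : ℂ))
      ((((2 : ℝ)⁻¹ : ℝ) : ℂ) * (c i j k *
        (((Real.sqrt (hE.isHermitian.eigenvalues k + l))⁻¹ : ℝ) : ℂ))) l := by
    intro k _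
    have hp := kf2_pos hE hl k
    have h2 : HasDerivAt (fun t : ℝ => hE.isHermitian.eigenvalues k + t) 1 l :=
      (hasDerivAt_id l).const_add _
    have h3 := h2.sqrt hp.ne'
    have h4 := (h3.ofReal_comp).const_mul (c i j k)
    refine h4.congr_deriv ?_
    push_cast
    rw [one_div, mul_inv]
    ring
  exact HasDerivAt.fun_sum h1

theorem continuousOn_Kl_inv (hE : E.PosSemidef) (i j : n) :
    ContinuousOn (fun t => (Kl t E)⁻¹ i j) (Ioi 0) := by
  obtain ⟨c, hc⟩ := kf2_entry hE.isHermitian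
  have e1 : EqOn (fun t => (Kl t E)⁻¹ i j)
      (fun t : ℝ => ∑ k, c i j k *
        (((Real.sqrt (hE.isHermitian.eigenvalues k + t))⁻¹ : ℝ) : ℂ)) (Ioi 0) := by
    intro t ht
    simp only
    rw [kf2_inv hE ht]
    exact hc _ i j
  refine ContinuousOn.congr ?_ e1
  refine continuousOn_finsetSum _ fun k _ => ?_
  refine continuousOn_const.mul ?_
  refine Complex.continuous_ofReal.comp_continuousOn ?_
  refine ContinuousOn.inv₀ (by fun_prop) ?_
  intro t ht
  exact (Real.sqrt_pos.2 (kf2_pos hE ht k)).ne'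

/-- Joint continuity of `Kl`. -/
theorem continuous_Kl (hE : E.PosSemidef) : Continuous (fun l : ℝ => Kl l E) := by
  obtain ⟨c, hc⟩ := kf2_entry hE.isHermitian
  refine continuous_matrix fun i j => ?_
  have e1 : (fun t => Kl t E i j)
      = fun t : ℝ => ∑ k, c i j k * ((Real.sqrt (hE.isHermitian.eigenvalues k + t) : ℝ) : ℂ) := by
    funext t
    exact hc _ i j
  rw [e1]
  fun_prop

private theorem kf2_log {R l x : ℝ} (hR : 1 ≤ R) (hl : 0 < l) (h1 : l / R ≤ x)
    (h2 : x ≤ R) : |Real.log x| ≤ |Real.log l| + Real.log R := by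
  have hR0 : 0 < R := lt_of_lt_of_le one_pos hR
  have hx : 0 < x := lt_of_lt_of_le (div_pos hl hR0) h1
  have h3 : Real.log (l / R) ≤ Real.log x := Real.log_le_log (div_pos hl hR0) h1
  have h4 : Real.log x ≤ Real.log R := Real.log_le_log hx h2
  rw [Real.log_div hl.ne' hR0.ne'] at h3
  have h5 := neg_abs_le (Real.log l)
  have h6 := abs_nonneg (Real.log l)
  rw [abs_le]
  constructor <;> linarith

/-- Bound for small `l`: `|tr (M B_l)| ≤ (∑ ‖M i j‖) C (1 + |log l|)` for `0 < l ≤ 1`, with `C`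
depending only on `tr E`. Proof: the eigenvalues of `K_l ± Y` lie in
`[l / (2 √(tr E + 1)), 2 √(tr E + 1)]`, `norm_mf_entry_le`, `abs_rtr_mul_le`. -/
theorem abs_rtr_BB_le (hE : E.PosSemidef) :
    ∃ C : ℝ, 0 ≤ C ∧ ∀ Y : Matrix n n ℂ, Y.IsHermitian → (msqrt E - Y).PosSemidef →
      (msqrt E + Y).PosSemidef → ∀ l : ℝ, 0 < l → l ≤ 1 → ∀ M : Matrix n n ℂ,
        |rtr (M * BB l E Y)| ≤ (∑ i, ∑ j, ‖M i j‖) * (C * (1 + |Real.log l|)) := by
  have hT : 0 ≤ rtr E := rtr_nonneg hE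
  set R : ℝ := 2 * Real.sqrt (rtr E + 1) with hRdef
  have hR : 1 ≤ R := by
    have h1 : (1 : ℝ) ≤ Real.sqrt (rtr E + 1) := by
      rw [Real.one_le_sqrt]
      linarith
    linarith
  have hR0 : 0 < R := lt_of_lt_of_le one_pos hR
  have hlR : 0 ≤ Real.log R := Real.log_nonneg hR
  refine ⟨3 + 2 * Real.log R, by linarith, ?_⟩
  intro Y hY h1 h2 l hl hl1 M
  have hs1 : Real.sqrt (rtr E + l) ≤ Real.sqrt (rtr E + 1) := Real.sqrt_le_sqrt (by linarith)
  have hs0 : 0 < Real.sqrt (rtr E + l) := Real.sqrt_pos.2 (by linarith)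
  have hlow : l / R ≤ l / (2 * Real.sqrt (rtr E + l)) :=
    div_le_div_of_nonneg_left hl.le (by positivity) (by linarith)
  have hup : 2 * Real.sqrt (rtr E + l) ≤ R := by linarith
  have hKH : (Kl l E).IsHermitian := mf_isHermitian _ _
  have hpH : (Kl l E + Y).IsHermitian := hKH.add hY
  have hmH : (Kl l E - Y).IsHermitian := hKH.sub hY
  have b1 : ∀ i j, ‖mf Real.log (Kl l E + Y) i j‖ ≤ |Real.log l| + Real.log R := by
    intro i j
    refine norm_mf_entry_le hpH (fun k => ?_) i j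
    exact kf2_log hR hl (hlow.trans (le_eigenvalues hpH (Kl_add_ge hE h2 hl) k))
      ((eigenvalues_le hpH (Kl_add_le hE h1 hl) k).trans hup)
  have b2 : ∀ i j, ‖mf Real.log (Kl l E - Y) i j‖ ≤ |Real.log l| + Real.log R := by
    intro i j
    refine norm_mf_entry_le hmH (fun k => ?_) i j
    exact kf2_log hR hl (hlow.trans (le_eigenvalues hmH (Kl_sub_ge hE h1 hl) k))
      ((eigenvalues_le hmH (Kl_sub_le hE h2 hl) k).trans hup)
  refine abs_rtr_mul_le M (BB l E Y) fun i j => ?_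
  have b3 : ‖(((Real.log l : ℝ) : ℂ) • (1 : Matrix n n ℂ)) i j‖ ≤ |Real.log l| := by
    rw [Matrix.smul_apply, smul_eq_mul, norm_mul, Complex.norm_real, Real.norm_eq_abs,
      Matrix.one_apply]
    split_ifs
    · simp
    · simp
  have b4 : BB l E Y i j = mf Real.log (Kl l E + Y) i j + mf Real.log (Kl l E - Y) i j
      - (((Real.log l : ℝ) : ℂ) • (1 : Matrix n n ℂ)) i j := rfl
  rw [b4]
  have b5 := norm_sub_le (mf Real.log (Kl l E + Y) i j + mf Real.log (Kl l E - Y) i j)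
    ((((Real.log l : ℝ) : ℂ) • (1 : Matrix n n ℂ)) i j)
  have b6 := norm_add_le (mf Real.log (Kl l E + Y) i j) (mf Real.log (Kl l E - Y) i j)
  have b7 := b1 i j
  have b8 := b2 i j
  have b9 := mul_nonneg hlR (abs_nonneg (Real.log l))
  nlinarith

end Vale.Agent.P371.Gen
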