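import Vale.Agent.Lib.P371.Gen.KleinD
import Vale.Agent.Lib.P371.Gen.KlFacts2
import Vale.Agent.Lib.P371.Gen.Bdry

/-! # P371 Gen: boundary term at fixed l (module ThmF1)

Let `Y` solve `Y' = Y^2 - E + W` on `[a,b]`, `Y a = -√E`, `Y b = √E`, `-√E ≤ Y ≤ √E`, `W ≥ 0`
continuous. Then `2 II θ tr E^{θ+1/2} ≤ c_p ∫_a^b tr W^{1+θ}`.

Proof. Fix `0 < ε < R`. For `l > 0` let `Λ_l(Y) = tr η(K_l + Y) - tr η(K_l - Y)`. By
`hasDeriv_eta`, `(d/dx) (Λ_l(Y x) - log l tr (Y x)) = tr (B_l(Y x) Y'(x))`, and the boundary values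
give (everything diagonal in the eigenbasis of `E`, `κ_i = √e_i`, `bd` from `Scalar2`)
`∫_a^b tr (B_l(Y x) Y' x) dx = 2 ∑_i bd κ_i l`.   (bdry_matrix)
Multiply by `l^{θ-1}`, integrate over `l ∈ [ε, R]`, exchange the integrals (the integrand is
continuous on the compact `[a,b] × [ε,R]`: `continuousOn_mf_log` and the uniform lower bounds of
`KlFacts`), and apply `mainA` for fixed `x` with `Z = (1+1/θ)^{-1} W x`
(`Y' = (1+1/θ) Z - (E - Y^2)`):
`2 ∑_i ∫_ε^R l^{θ-1} bd κ_i l dl ≤ ∫_a^b [ε^θ (1/θ) (g_x(ε) - tr X_x) + (1/θ) kap θ tr Z^{1+θ}] dx`.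
The first term on the right tends to `0` as `ε → 0` (`abs_rtr_BB_le`, uniform in `x`, and
`ε^θ (1 + |log ε|) → 0`). The left side tends to `2 ∑_i kap θ κ_i^{2θ+1} II θ`
(`int_bdry`, as `ε → 0`, `R → ∞`). Divide by `kap θ > 0`, and
`(1/θ) (1+1/θ)^{-(1+θ)} = cp θ`. -/

open Matrix Set MeasureTheory
open scoped ComplexOrder

namespace Vale.Agent.P371.Gen

variable {n : Type*} [Fintype n] [DecidableEq n] {E : Matrix n n ℂ}

/-- The primitive. -/
private noncomputable def prim (l : ℝ) (E : Matrix n n ℂ) (Y : Matrix n n ℂ) : ℝ :=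
  rtr (mf (fun u => u * Real.log u - u) (Kl l E + Y)) -
    rtr (mf (fun u => u * Real.log u - u) (Kl l E - Y)) - Real.log l * rtr Y

omit [DecidableEq n] in
private theorem rtr_add' (A B : Matrix n n ℂ) : rtr (A + B) = rtr A + rtr B := by
  unfold rtr
  rw [Matrix.trace_add, Complex.add_re]

omit [DecidableEq n] in
private theorem rtr_sub' (A B : Matrix n n ℂ) : rtr (A - B) = rtr A - rtr B := by
  unfold rtr
  rw [Matrix.trace_sub, Complex.sub_re]

omit [DecidableEq n] in
private theorem rtr_neg' (A : Matrix n n ℂ) : rtr (-A) = -rtr A := by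
  unfold rtr
  rw [Matrix.trace_neg, Complex.neg_re]

omit [DecidableEq n] in
private theorem rtr_smul' (c : ℝ) (A : Matrix n n ℂ) : rtr ((c : ℂ) • A) = c * rtr A := by
  unfold rtr
  rw [Matrix.trace_smul, smul_eq_mul, Complex.re_ofReal_mul]

omit [DecidableEq n] in
private theorem hasDeriv_rtr {Y Y' : ℝ → Matrix n n ℂ} {a b : ℝ} (h : HasMD Y Y' a b) {x : ℝ}
    (hx : x ∈ Icc a b) :
    HasDerivWithinAt (fun t => rtr (Y t)) (rtr (Y' x)) (Icc a b) x := by
  have h1 : HasDerivWithinAt (fun t => ∑ i, Y t i i) (∑ i, Y' x i i) (Icc a b) x :=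
    HasDerivWithinAt.fun_sum fun i _ => h x hx i i
  exact Complex.reCLM.hasFDerivAt.comp_hasDerivWithinAt x h1

private theorem prim_deriv (hE : E.PosSemidef) {a b : ℝ} {V Y : ℝ → Matrix n n ℂ}
    (hY : HasMD Y V a b)
    (hbd1 : ∀ x ∈ Icc a b, (msqrt E - Y x).PosSemidef)
    (hbd2 : ∀ x ∈ Icc a b, (msqrt E + Y x).PosSemidef) {l : ℝ} (hl : 0 < l) {x : ℝ}
    (hx : x ∈ Icc a b) :
    HasDerivWithinAt (fun t => prim l E (Y t)) (rtr (BB l E (Y x) * V x)) (Icc a b) x := by
  have hP : HasMD (fun x => Kl l E + Y x) V a b := by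
    intro x hx i j
    exact (hY x hx i j).const_add (Kl l E i j)
  have hQ : HasMD (fun x => Kl l E - Y x) (fun x => -(V x)) a b := by
    intro x hx i j
    exact (hY x hx i j).const_sub (Kl l E i j)
  have h1 := hasDeriv_eta hP (fun x hx => Kl_add_posDef hE (hbd2 x hx) hl) hx
  have h2 := hasDeriv_eta hQ (fun x hx => Kl_sub_posDef hE (hbd1 x hx) hl) hx
  have h3 := (hasDeriv_rtr hY hx).const_mul (Real.log l)
  have h4 := (h1.sub h2).sub h3
  have e : rtr (BB l E (Y x) * V x) = rtr (mf Real.log (Kl l E + Y x) * V x) -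
      rtr (mf Real.log (Kl l E - Y x) * -(V x)) - Real.log l * rtr (V x) := by
    unfold BB LL
    rw [Matrix.sub_mul, Matrix.add_mul, Matrix.smul_mul, Matrix.one_mul, rtr_sub', rtr_add',
      rtr_smul', Matrix.mul_neg, rtr_neg']
    ring
  rw [e]
  exact h4

private theorem prim_top (hE : E.PosSemidef) {l : ℝ} (hl : 0 < l) :
    prim l E (msqrt E) = ∑ i, bd (Real.sqrt (hE.isHermitian.eigenvalues i)) l := by
  have hH := hE.isHermitian
  unfold prim
  have e1 : Kl l E + msqrt E = mf (fun e => Real.sqrt (e + l) + Real.sqrt e) E := by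
    unfold Kl msqrt
    exact (mf_add hH (fun e => Real.sqrt (e + l)) (fun e => Real.sqrt e)).symm
  have e2 : Kl l E - msqrt E = mf (fun e => Real.sqrt (e + l) - Real.sqrt e) E := by
    unfold Kl msqrt
    exact (mf_sub hH (fun e => Real.sqrt (e + l)) (fun e => Real.sqrt e)).symm
  have e3 : rtr (msqrt E) = ∑ i, Real.sqrt (hE.isHermitian.eigenvalues i) := by
    unfold msqrt
    exact rtr_mf hH _
  rw [e1, e2, e3, mf_comp hH, mf_comp hH, rtr_mf hH, rtr_mf hH, Finset.mul_sum,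
    ← Finset.sum_sub_distrib, ← Finset.sum_sub_distrib]
  refine Finset.sum_congr rfl fun i _ => ?_
  have h0 : 0 ≤ hE.isHermitian.eigenvalues i := hE.eigenvalues_nonneg i
  unfold bd eta
  rw [Real.sq_sqrt h0]
  ring

private theorem prim_neg (l : ℝ) (E Y : Matrix n n ℂ) : prim l E (-Y) = -prim l E Y := by
  unfold prim
  rw [sub_neg_eq_add, ← sub_eq_add_neg, rtr_neg']
  ring

/-- The boundary term at fixed `l`. -/
theorem bdry_matrix (hE : E.PosSemidef) {a b : ℝ} (hab : a < b) {W Y : ℝ → Matrix n n ℂ}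
    (hWc : ContinuousOn W (Icc a b)) (hR : IsRic a b W E Y) (hend : Y b = msqrt E)
    (hbd1 : ∀ x ∈ Icc a b, (msqrt E - Y x).PosSemidef)
    (hbd2 : ∀ x ∈ Icc a b, (msqrt E + Y x).PosSemidef) {l : ℝ} (hl : 0 < l) :
    ∫ x in a..b, rtr (BB l E (Y x) * (Y x * Y x - E + W x)) =
      2 * ∑ i, bd (Real.sqrt (hE.isHermitian.eigenvalues i)) l := by
  have hYc : ContinuousOn Y (Icc a b) :=
    continuousOn_pi.2 fun i => continuousOn_pi.2 fun j => fun x hx =>
      (hR.deriv x hx i j).continuousWithinAt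
  have hd : ∀ x ∈ Icc a b, HasDerivWithinAt (fun t => prim l E (Y t))
      (rtr (BB l E (Y x) * (Y x * Y x - E + W x))) (Icc a b) x := fun x hx =>
    prim_deriv hE hR.deriv hbd1 hbd2 hl hx
  have hc : 0 < l / (2 * Real.sqrt (rtr E + l)) := by
    have h1 : 0 ≤ rtr E := rtr_nonneg hE
    have h2 : 0 < Real.sqrt (rtr E + l) := Real.sqrt_pos.2 (by linarith)
    positivity
  have hPc : ContinuousOn (fun x => Kl l E + Y x) (Icc a b) := continuousOn_const.add hYc
  have hQc : ContinuousOn (fun x => Kl l E - Y x) (Icc a b) := continuousOn_const.sub hYc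
  have hLP : ContinuousOn (fun x => mf Real.log (Kl l E + Y x)) (Icc a b) :=
    continuousOn_mf_log hPc hc fun x hx => Kl_add_ge hE (hbd2 x hx) hl
  have hLQ : ContinuousOn (fun x => mf Real.log (Kl l E - Y x)) (Icc a b) :=
    continuousOn_mf_log hQc hc fun x hx => Kl_sub_ge hE (hbd1 x hx) hl
  have hBc : ContinuousOn (fun x => BB l E (Y x)) (Icc a b) := by
    unfold BB LL
    exact (hLP.add hLQ).sub continuousOn_const
  have hVc : ContinuousOn (fun x => Y x * Y x - E + W x) (Icc a b) :=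
    ((hYc.mul hYc).sub continuousOn_const).add hWc
  have hfc : ContinuousOn (fun x => rtr (BB l E (Y x) * (Y x * Y x - E + W x))) (Icc a b) :=
    continuous_rtr.comp_continuousOn (hBc.mul hVc)
  have hint : IntervalIntegrable (fun x => rtr (BB l E (Y x) * (Y x * Y x - E + W x))) volume
      a b := by
    refine ContinuousOn.intervalIntegrable ?_
    rw [uIcc_of_le hab.le]
    exact hfc
  rw [intervalIntegral.integral_eq_sub_of_hasDerivAt_of_le hab.le
    (f := fun t => prim l E (Y t)) (fun x hx => (hd x hx).continuousWithinAt)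
    (fun x hx => (hd x (Ioo_subset_Icc_self hx)).hasDerivAt (Icc_mem_nhds hx.1 hx.2)) hint]
  show prim l E (Y b) - prim l E (Y a) = _
  rw [hend, hR.init, prim_neg, prim_top hE hl]
  ring

end Vale.Agent.P371.Gen
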