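import Vale.Agent.Lib.P371.Gen.KlFacts2

/-! # P371 Gen: joint continuity (module ThmF2)

Let `Y` solve `Y' = Y^2 - E + W` on `[a,b]`, `Y a = -√E`, `Y b = √E`, `-√E ≤ Y ≤ √E`, `W ≥ 0`
continuous. Then `2 II θ tr E^{θ+1/2} ≤ c_p ∫_a^b tr W^{1+θ}`.

Proof. Fix `0 < ε < R`. For `l > 0` let `Λ_l(Y) = tr η(K_l + Y) - tr η(K_l - Y)`. By
`hasDeriv_eta`, `(d/dx) (Λ_l(Y x) - log l tr (Y x)) = tr (B_l(Y x) Y'(x))`, and the boundary values
give (everything diagonal in the eigenbasis of `E`, `κ_i = √e_i`, `bd` from `Scalar2`)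
`∫_a^b tr (B_l(Y x) Y' x) dx = 2 ∑_i bd κ_i l`.   (bdry_matrix)
Multiply by `l^{θ-1}`, integrate over `l ∈ [ε, R]`, exchange the integrals (the integrand is
continuous on the compact `[a,b] × [ε,R]`: `continuousOn_mf_log` and the uniform lower bounds of
`KlFacts`), and apply `mainA` for fixed `x` with `Z = (1+1/θ)^{-1} W x`
(`Y' = (1+1/θ) Z - (E - Y^2)`):
`2 ∑_i ∫_ε^R l^{θ-1} bd κ_i l dl ≤ ∫_a^b [ε^θ (1/θ) (g_x(ε) - tr X_x) + (1/θ) kap θ tr Z^{1+θ}] dx`.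
The first term on the right tends to `0` as `ε → 0` (`abs_rtr_BB_le`, uniform in `x`, and
`ε^θ (1 + |log ε|) → 0`). The left side tends to `2 ∑_i kap θ κ_i^{2θ+1} II θ`
(`int_bdry`, as `ε → 0`, `R → ∞`). Divide by `kap θ > 0`, and
`(1/θ) (1+1/θ)^{-(1+θ)} = cp θ`. -/

open Matrix Set MeasureTheory
open scoped ComplexOrder

namespace Vale.Agent.P371.Gen

variable {n : Type*} [Fintype n] [DecidableEq n] {E : Matrix n n ℂ}

/-- A lower bound `A - c' ≥ 0` gives `A - c ≥ 0` for `c ≤ c'`. -/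
private theorem thmF2_shift {A : Matrix n n ℂ} {c c' : ℝ} (hc : c ≤ c')
    (h : (A - ((c' : ℝ) : ℂ) • (1 : Matrix n n ℂ)).PosSemidef) :
    (A - ((c : ℝ) : ℂ) • (1 : Matrix n n ℂ)).PosSemidef := by
  have h1 : ((((c' - c : ℝ)) : ℂ) • (1 : Matrix n n ℂ)).PosSemidef :=
    Matrix.PosSemidef.one.smul (Complex.zero_le_real.mpr (sub_nonneg.mpr hc))
  have h2 : A - ((c : ℝ) : ℂ) • (1 : Matrix n n ℂ) =
      (A - ((c' : ℝ) : ℂ) • (1 : Matrix n n ℂ)) + (((c' - c : ℝ)) : ℂ) • (1 : Matrix n n ℂ) := by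
    rw [Complex.ofReal_sub, sub_smul]
    abel
  rw [h2]
  exact h.add h1

/-- Joint continuity of the integrand. -/
theorem continuousOn_BB_path (hE : E.PosSemidef) {a b : ℝ} {Y : ℝ → Matrix n n ℂ}
    (hYc : ContinuousOn Y (Icc a b)) (hYH : ∀ x ∈ Icc a b, (Y x).IsHermitian)
    (hbd1 : ∀ x ∈ Icc a b, (msqrt E - Y x).PosSemidef)
    (hbd2 : ∀ x ∈ Icc a b, (msqrt E + Y x).PosSemidef) {ε R : ℝ} (hε : 0 < ε) :
    ContinuousOn (fun p : ℝ × ℝ => BB p.2 E (Y p.1)) (Icc a b ×ˢ Icc ε R) := by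
  by_cases hR : ε ≤ R
  · have htr : 0 ≤ rtr E := rtr_nonneg hE
    have hc : 0 < ε / (2 * Real.sqrt (rtr E + R)) := by
      have h1 : 0 < rtr E + R := by linarith
      positivity
    have hcl : ∀ l ∈ Icc ε R, ε / (2 * Real.sqrt (rtr E + R)) ≤
        l / (2 * Real.sqrt (rtr E + l)) := by
      intro l hl
      have h1 : 0 < rtr E + l := by linarith [hl.1]
      have h2 : Real.sqrt (rtr E + l) ≤ Real.sqrt (rtr E + R) :=
        Real.sqrt_le_sqrt (by linarith [hl.2])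
      have h3 : 0 < Real.sqrt (rtr E + l) := Real.sqrt_pos.mpr h1
      exact div_le_div₀ (by linarith [hl.1]) hl.1 (by positivity) (by linarith)
    have hK : ContinuousOn (fun p : ℝ × ℝ => Kl p.2 E) (Icc a b ×ˢ Icc ε R) :=
      ((continuous_Kl hE).comp continuous_snd).continuousOn
    have hY : ContinuousOn (fun p : ℝ × ℝ => Y p.1) (Icc a b ×ˢ Icc ε R) :=
      hYc.comp continuous_fst.continuousOn (fun p hp => hp.1)
    have h1 : ContinuousOn (fun p : ℝ × ℝ => mf Real.log (Kl p.2 E + Y p.1))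
        (Icc a b ×ˢ Icc ε R) := by
      refine continuousOn_mf_log (hK.add hY) hc ?_
      intro p hp
      exact thmF2_shift (hcl p.2 hp.2) (Kl_add_ge hE (hbd2 p.1 hp.1) (hε.trans_le hp.2.1))
    have h2 : ContinuousOn (fun p : ℝ × ℝ => mf Real.log (Kl p.2 E - Y p.1))
        (Icc a b ×ˢ Icc ε R) := by
      refine continuousOn_mf_log (hK.sub hY) hc ?_
      intro p hp
      exact thmF2_shift (hcl p.2 hp.2) (Kl_sub_ge hE (hbd1 p.1 hp.1) (hε.trans_le hp.2.1))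
    have h3 : ContinuousOn (fun p : ℝ × ℝ => ((Real.log p.2 : ℝ) : ℂ)) (Icc a b ×ˢ Icc ε R) := by
      refine Complex.continuous_ofReal.comp_continuousOn ?_
      refine ContinuousOn.log continuous_snd.continuousOn ?_
      intro p hp
      exact (hε.trans_le hp.2.1).ne'
    have h4 : ContinuousOn (fun p : ℝ × ℝ => ((Real.log p.2 : ℝ) : ℂ) • (1 : Matrix n n ℂ))
        (Icc a b ×ˢ Icc ε R) := h3.smul continuousOn_const
    unfold BB LL
    exact (h1.add h2).sub h4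
  · rw [Icc_eq_empty hR, prod_empty]
    exact continuousOn_empty _

end Vale.Agent.P371.Gen
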