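import Vale.Agent.Lib.P371.Gen.MainA
import Vale.Agent.Lib.P371.Gen.ThmF1
import Vale.Agent.Lib.P371.Gen.ThmF2
import Vale.Agent.Lib.P371.Gen.Const

/-! # P371 Gen: Theorem F (module ThmF)

Let `Y` solve `Y' = Y^2 - E + W` on `[a,b]`, `Y a = -√E`, `Y b = √E`, `-√E ≤ Y ≤ √E`, `W ≥ 0`
continuous. Then `2 II θ tr E^{θ+1/2} ≤ c_p ∫_a^b tr W^{1+θ}`.

Proof. Fix `0 < ε < R`. For `l > 0` let `Λ_l(Y) = tr η(K_l + Y) - tr η(K_l - Y)`. By
`hasDeriv_eta`, `(d/dx) (Λ_l(Y x) - log l tr (Y x)) = tr (B_l(Y x) Y'(x))`, and the boundary values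
give (everything diagonal in the eigenbasis of `E`, `κ_i = √e_i`, `bd` from `Scalar2`)
`∫_a^b tr (B_l(Y x) Y' x) dx = 2 ∑_i bd κ_i l`.   (bdry_matrix)
Multiply by `l^{θ-1}`, integrate over `l ∈ [ε, R]`, exchange the integrals (the integrand is
continuous on the compact `[a,b] × [ε,R]`: `continuousOn_mf_log` and the uniform lower bounds of
`KlFacts`), and apply `mainA` for fixed `x` with `Z = (1+1/θ)^{-1} W x`
(`Y' = (1+1/θ) Z - (E - Y^2)`):
`2 ∑_i ∫_ε^R l^{θ-1} bd κ_i l dl ≤ ∫_a^b [ε^θ (1/θ) (g_x(ε) - tr X_x) + (1/θ) kap θ tr Z^{1+θ}] dx`.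
The first term on the right tends to `0` as `ε → 0` (`abs_rtr_BB_le`, uniform in `x`, and
`ε^θ (1 + |log ε|) → 0`). The left side tends to `2 ∑_i kap θ κ_i^{2θ+1} II θ`
(`int_bdry`, as `ε → 0`, `R → ∞`). Divide by `kap θ > 0`, and
`(1/θ) (1+1/θ)^{-(1+θ)} = cp θ`. -/

open Matrix Set MeasureTheory Filter
open scoped ComplexOrder Topology

namespace Vale.Agent.P371.Gen

variable {n : Type*} [Fintype n] [DecidableEq n] {E : Matrix n n ℂ}

theorem ric_contOn {a b : ℝ} {W Y : ℝ → Matrix n n ℂ} (hR : IsRic a b W E Y) :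
    ContinuousOn Y (Icc a b) := by
  refine continuousOn_pi.mpr (fun i => continuousOn_pi.mpr (fun j => ?_))
  intro x hx
  exact (hR.deriv x hx i j).continuousWithinAt

theorem tp_smul_pos {A : Matrix n n ℂ} (hA : A.PosSemidef) {c p : ℝ} (hc : 0 ≤ c) :
    tp p ((c : ℂ) • A) = c ^ p * tp p A := by
  have hH := hA.isHermitian
  have h1 : (c : ℂ) • A = mf (fun t => c * t) A := by
    rw [mf_const_mul hH c (fun t => t), mf_id hH]
  unfold tp
  rw [h1, mf_comp hH (fun t => t ^ p) (fun t => c * t), rtr_mf hH, rtr_mf hH, Finset.mul_sum]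
  refine Finset.sum_congr rfl (fun i _ => ?_)
  exact Real.mul_rpow hc (hA.eigenvalues_nonneg i)

theorem continuousOn_tp {p : ℝ} (hp : 0 ≤ p) :
    ContinuousOn (fun A : Matrix n n ℂ => tp p A) {A | A.IsHermitian} :=
  continuous_rtr.comp_continuousOn (continuousOn_mf (Real.continuous_rpow_const hp))

/-- Bound of the boundary term at `ε`. -/
theorem gg_bound (hE : E.PosSemidef) {a b : ℝ} {Y : ℝ → Matrix n n ℂ}
    (hYc : ContinuousOn Y (Icc a b)) (hYH : ∀ x ∈ Icc a b, (Y x).IsHermitian)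
    (hbd1 : ∀ x ∈ Icc a b, (msqrt E - Y x).PosSemidef)
    (hbd2 : ∀ x ∈ Icc a b, (msqrt E + Y x).PosSemidef) :
    ∃ M : ℝ, 0 ≤ M ∧ ∀ ε, 0 < ε → ε ≤ 1 → ∀ x ∈ Icc a b,
      gg E (Y x) ε - rtr (E - Y x * Y x) ≤ M * (1 + |Real.log ε|) := by
  obtain ⟨C, hC0, hC⟩ := abs_rtr_BB_le hE
  have hX : ContinuousOn (fun x => E - Y x * Y x) (Icc a b) := continuousOn_const.sub (hYc.mul hYc)
  have hent : ∀ i j, ContinuousOn (fun x => ‖(E - Y x * Y x) i j‖) (Icc a b) := by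
    intro i j
    apply ContinuousOn.norm
    exact ((continuous_apply j).comp (continuous_apply i)).comp_continuousOn hX
  have hs : ContinuousOn (fun x => ∑ i, ∑ j, ‖(E - Y x * Y x) i j‖) (Icc a b) :=
    continuousOn_finsetSum _ (fun i _ => continuousOn_finsetSum _ (fun j _ => hent i j))
  obtain ⟨M1, hM1⟩ := (isCompact_Icc.bddAbove_image hs)
  have ht : ContinuousOn (fun x => |rtr (E - Y x * Y x)|) (Icc a b) :=
    (continuous_rtr.comp_continuousOn hX).abs
  obtain ⟨M2, hM2⟩ := (isCompact_Icc.bddAbove_image ht)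
  set M3 : ℝ := ∑ i : n, ∑ j : n, ‖(1 : Matrix n n ℂ) i j‖ with hM3
  have hM3' : 0 ≤ M3 := Finset.sum_nonneg (fun i _ => Finset.sum_nonneg (fun j _ => norm_nonneg _))
  refine ⟨(|M1| + M3) * C + |M2|, by positivity, ?_⟩
  intro ε hε hε1 x hx
  have h1 : ∑ i, ∑ j, ‖(E - Y x * Y x + (ε : ℂ) • (1 : Matrix n n ℂ)) i j‖ ≤ |M1| + M3 := by
    have h2 : ∑ i, ∑ j, ‖(E - Y x * Y x) i j‖ ≤ |M1| :=
      (hM1 (mem_image_of_mem _ hx)).trans (le_abs_self _)
    refine le_trans ?_ (add_le_add_left h2 M3)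
    rw [hM3, ← Finset.sum_add_distrib]
    refine Finset.sum_le_sum (fun i _ => ?_)
    rw [← Finset.sum_add_distrib]
    refine Finset.sum_le_sum (fun j _ => ?_)
    rw [Matrix.add_apply, Matrix.smul_apply]
    refine (norm_add_le _ _).trans (add_le_add_right ?_ _)
    rw [norm_smul]
    have : ‖(ε : ℂ)‖ ≤ 1 := by rw [Complex.norm_real, Real.norm_eq_abs, abs_of_pos hε]; exact hε1
    exact mul_le_of_le_one_left (norm_nonneg _) this
  have h3 := hC (Y x) (hYH x hx) (hbd1 x hx) (hbd2 x hx) ε hε hε1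
    (E - Y x * Y x + (ε : ℂ) • (1 : Matrix n n ℂ))
  have hlog : 0 ≤ |Real.log ε| := abs_nonneg _
  have h4 : |gg E (Y x) ε| ≤ (|M1| + M3) * (C * (1 + |Real.log ε|)) :=
    h3.trans (mul_le_mul_of_nonneg_right h1 (by positivity))
  have h5 : |rtr (E - Y x * Y x)| ≤ |M2| :=
    (hM2 (mem_image_of_mem _ hx)).trans (le_abs_self _)
  have h6 : gg E (Y x) ε ≤ (|M1| + M3) * (C * (1 + |Real.log ε|)) := (le_abs_self _).trans h4
  have h7 : -rtr (E - Y x * Y x) ≤ |M2| := (neg_le_abs _).trans h5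
  have h8 : |M2| ≤ |M2| * (1 + |Real.log ε|) := by
    nlinarith [abs_nonneg M2]
  nlinarith

/-- Joint continuity of the integrand. -/
theorem cont_integrand (θ : ℝ) (hE : E.PosSemidef) {a b : ℝ} {W Y : ℝ → Matrix n n ℂ}
    (hWc : ContinuousOn W (Icc a b)) (hYc : ContinuousOn Y (Icc a b))
    (hYH : ∀ x ∈ Icc a b, (Y x).IsHermitian)
    (hbd1 : ∀ x ∈ Icc a b, (msqrt E - Y x).PosSemidef)
    (hbd2 : ∀ x ∈ Icc a b, (msqrt E + Y x).PosSemidef) {ε R : ℝ} (hε : 0 < ε) :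
    ContinuousOn (fun p : ℝ × ℝ => p.1 ^ (θ - 1) *
      rtr (BB p.1 E (Y p.2) * (Y p.2 * Y p.2 - E + W p.2))) (Icc ε R ×ˢ Icc a b) := by
  have hB := continuousOn_BB_path (R := R) hE hYc hYH hbd1 hbd2 hε
  have hmap : MapsTo (fun p : ℝ × ℝ => (p.2, p.1)) (Icc ε R ×ˢ Icc a b) (Icc a b ×ˢ Icc ε R) :=
    fun p hp => ⟨hp.2, hp.1⟩
  have hsw : ContinuousOn (fun p : ℝ × ℝ => (p.2, p.1)) (Icc ε R ×ˢ Icc a b) :=
    (continuous_snd.prodMk continuous_fst).continuousOn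
  have hB' : ContinuousOn (fun p : ℝ × ℝ => BB p.1 E (Y p.2)) (Icc ε R ×ˢ Icc a b) :=
    ContinuousOn.comp (f := fun p : ℝ × ℝ => (p.2, p.1)) hB hsw hmap
  have hs : MapsTo (fun p : ℝ × ℝ => p.2) (Icc ε R ×ˢ Icc a b) (Icc a b) := fun p hp => hp.2
  have hY2 : ContinuousOn (fun p : ℝ × ℝ => Y p.2) (Icc ε R ×ˢ Icc a b) :=
    ContinuousOn.comp (f := fun p : ℝ × ℝ => p.2) hYc continuous_snd.continuousOn hs
  have hW2 : ContinuousOn (fun p : ℝ × ℝ => W p.2) (Icc ε R ×ˢ Icc a b) :=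
    ContinuousOn.comp (f := fun p : ℝ × ℝ => p.2) hWc continuous_snd.continuousOn hs
  have h2 : ContinuousOn (fun p : ℝ × ℝ => p.1 ^ (θ - 1)) (Icc ε R ×ˢ Icc a b) := by
    apply ContinuousOn.rpow_const continuous_fst.continuousOn
    intro p hp
    left
    exact (lt_of_lt_of_le hε hp.1.1).ne'
  have h3 : ContinuousOn (fun p : ℝ × ℝ => Y p.2 * Y p.2 - E + W p.2) (Icc ε R ×ˢ Icc a b) :=
    ((hY2.mul hY2).sub continuousOn_const).add hW2
  have h4 : ContinuousOn (fun p : ℝ × ℝ => BB p.1 E (Y p.2) * (Y p.2 * Y p.2 - E + W p.2))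
      (Icc ε R ×ˢ Icc a b) := hB'.mul h3
  exact h2.mul (continuous_rtr.comp_continuousOn h4)

/-- Step 1: the inequality for `l ∈ [ε, R]`. -/
theorem step1 {θ : ℝ} (h0 : 0 < θ) (h1 : θ < 1) (hE : E.PosSemidef) {a b : ℝ} (hab : a < b)
    {W Y : ℝ → Matrix n n ℂ} (hWc : ContinuousOn W (Icc a b))
    (hW : ∀ x ∈ Icc a b, (W x).PosSemidef) (hR : IsRic a b W E Y) (hend : Y b = msqrt E)
    (hbd1 : ∀ x ∈ Icc a b, (msqrt E - Y x).PosSemidef)
    (hbd2 : ∀ x ∈ Icc a b, (msqrt E + Y x).PosSemidef) {c : ℝ} (hc0 : 0 ≤ c)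
    (hcW : ∀ x, ((1 + 1 / θ : ℝ) : ℂ) • ((c : ℂ) • W x) = W x) {M : ℝ} {ε : ℝ} (hε : 0 < ε)
    (hM : ∀ x ∈ Icc a b, gg E (Y x) ε - rtr (E - Y x * Y x) ≤ M * (1 + |Real.log ε|)) {R : ℝ}
    (hεR : ε ≤ R) :
    ∫ l in ε..R, l ^ (θ - 1) * (2 * ∑ i, bd (Real.sqrt (hE.isHermitian.eigenvalues i)) l) ≤
      (b - a) * (ε ^ θ * (1 / θ) * (M * (1 + |Real.log ε|)))
        + (1 / θ) * kap θ * ∫ x in a..b, tp (1 + θ) ((c : ℂ) • W x) := by
  have hYc := ric_contOn hR
  have hYH := hR.herm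
  set f : ℝ → ℝ → ℝ := fun l x =>
    l ^ (θ - 1) * rtr (BB l E (Y x) * (Y x * Y x - E + W x)) with hf
  have hfc : ContinuousOn (Function.uncurry f) (Icc ε R ×ˢ Icc a b) :=
    cont_integrand θ hE hWc hYc hYH hbd1 hbd2 hε
  have hfi : IntegrableOn (Function.uncurry f) (Icc ε R ×ˢ Icc a b) :=
    hfc.integrableOn_compact (isCompact_Icc.prod isCompact_Icc)
  have hfi' : IntegrableOn (Function.uncurry f) (uIoc ε R ×ˢ uIoc a b) := by
    rw [uIoc_of_le hεR, uIoc_of_le hab.le]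
    exact hfi.mono_set (prod_mono Ioc_subset_Icc_self Ioc_subset_Icc_self)
  have e1 : ∫ l in ε..R, l ^ (θ - 1) *
      (2 * ∑ i, bd (Real.sqrt (hE.isHermitian.eigenvalues i)) l) = ∫ l in ε..R, ∫ x in a..b, f l x := by
    apply intervalIntegral.integral_congr
    intro l hl
    rw [uIcc_of_le hεR] at hl
    have hl0 : 0 < l := lt_of_lt_of_le hε hl.1
    simp only [hf]
    rw [intervalIntegral.integral_const_mul, bdry_matrix hE hab hWc hR hend hbd1 hbd2 hl0]
  rw [e1, intervalIntegral_intervalIntegral_swap hfi']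
  have hint1 : IntervalIntegrable (fun x => ∫ l in ε..R, f l x) volume a b := by
    rw [intervalIntegrable_iff_integrableOn_Ioc_of_le hab.le]
    have h3 : Integrable (Function.uncurry f)
        ((volume.restrict (Ioc ε R)).prod (volume.restrict (Ioc a b))) := by
      rw [Measure.prod_restrict, ← Measure.volume_eq_prod]
      exact hfi.mono_set (prod_mono Ioc_subset_Icc_self Ioc_subset_Icc_self)
    have h4 := h3.integral_prod_right
    refine h4.congr (Filter.Eventually.of_forall (fun x => ?_))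
    simp only [Function.uncurry]
    rw [intervalIntegral.integral_of_le hεR]
  have hZc : ContinuousOn (fun x => tp (1 + θ) ((c : ℂ) • W x)) (Icc a b) := by
    have : ContinuousOn (fun x => c ^ (1 + θ) * tp (1 + θ) (W x)) (Icc a b) :=
      continuousOn_const.mul ((continuousOn_tp (by positivity)).comp hWc
        (fun x hx => (hW x hx).isHermitian))
    exact this.congr (fun x hx => tp_smul_pos (hW x hx) hc0)
  have hint2 : IntervalIntegrable (fun x => ε ^ θ * (1 / θ) * (M * (1 + |Real.log ε|))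
      + (1 / θ) * kap θ * tp (1 + θ) ((c : ℂ) • W x)) volume a b := by
    apply ContinuousOn.intervalIntegrable
    rw [uIcc_of_le hab.le]
    exact continuousOn_const.add (continuousOn_const.mul hZc)
  have hint3 : IntervalIntegrable (fun x => (1 / θ) * kap θ * tp (1 + θ) ((c : ℂ) • W x))
      volume a b := by
    apply ContinuousOn.intervalIntegrable
    rw [uIcc_of_le hab.le]
    exact (continuousOn_const.mul hZc)
  calc ∫ x in a..b, ∫ l in ε..R, f l x
      ≤ ∫ x in a..b, (ε ^ θ * (1 / θ) * (M * (1 + |Real.log ε|))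
          + (1 / θ) * kap θ * tp (1 + θ) ((c : ℂ) • W x)) := by
        apply intervalIntegral.integral_mono_on hab.le hint1 hint2
        intro x hx
        have hcpos : ((c : ℂ) • W x).PosSemidef :=
          (hW x hx).smul (by exact_mod_cast hc0)
        have h5 := mainA h0 h1 hE (hR.herm x hx) (hbd1 x hx) (hbd2 x hx) hcpos hε hεR
        have h6 : ∫ l in ε..R, f l x = ∫ l in ε..R, l ^ (θ - 1) * rtr (BB l E (Y x) *
            (((1 + 1 / θ : ℝ) : ℂ) • ((c : ℂ) • W x) - (E - Y x * Y x))) := by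
          apply intervalIntegral.integral_congr
          intro l _
          simp only [hf]
          rw [hcW x]
          congr 3
          abel
        rw [h6]
        refine h5.trans ?_
        have h7 := hM x hx
        have h8 : 0 ≤ ε ^ θ * (1 / θ) := by positivity
        have h9 := mul_le_mul_of_nonneg_left h7 h8
        linarith
    _ = (b - a) * (ε ^ θ * (1 / θ) * (M * (1 + |Real.log ε|)))
      + (1 / θ) * kap θ * ∫ x in a..b, tp (1 + θ) ((c : ℂ) • W x) := by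
        rw [intervalIntegral.integral_add (by simp) hint3, intervalIntegral.integral_const,
          intervalIntegral.integral_const_mul, smul_eq_mul]

theorem thmF {θ : ℝ} (h0 : 0 < θ) (h1 : θ < 1) (hE : E.PosSemidef) {a b : ℝ} (hab : a < b)
    {W Y : ℝ → Matrix n n ℂ} (hWc : ContinuousOn W (Icc a b))
    (hW : ∀ x ∈ Icc a b, (W x).PosSemidef) (hR : IsRic a b W E Y) (hend : Y b = msqrt E)
    (hbd1 : ∀ x ∈ Icc a b, (msqrt E - Y x).PosSemidef)
    (hbd2 : ∀ x ∈ Icc a b, (msqrt E + Y x).PosSemidef) :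
    2 * II θ * tp (θ + 1 / 2) E ≤ cp θ * ∫ x in a..b, tp (1 + θ) (W x) := by
  have hYc := ric_contOn hR
  have hH := hE.isHermitian
  set F : ℝ → ℝ := fun l => l ^ (θ - 1) *
    (2 * ∑ i, bd (Real.sqrt (hE.isHermitian.eigenvalues i)) l) with hF
  have hFs : F = fun l => ∑ i, 2 * (l ^ (θ - 1) * bd (Real.sqrt (hE.isHermitian.eigenvalues i)) l) := by
    funext l
    simp only [hF, Finset.mul_sum]
    exact Finset.sum_congr rfl (fun i _ => by ring)
  have hFi : IntegrableOn F (Ioi 0) := by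
    rw [hFs]
    exact integrable_finsetSum _
      (fun i _ => (integrableOn_bd h0 h1 (Real.sqrt_nonneg _)).const_mul 2)
  have hFv : ∫ l in Ioi (0 : ℝ), F l = kap θ * (2 * II θ * tp (θ + 1 / 2) E) := by
    rw [hFs, integral_finsetSum _
      (fun i _ => (integrableOn_bd h0 h1 (Real.sqrt_nonneg _)).const_mul 2)]
    unfold tp
    rw [rtr_mf hH, Finset.mul_sum, Finset.mul_sum]
    refine Finset.sum_congr rfl (fun i _ => ?_)
    rw [integral_const_mul, int_bdry h0 h1 (Real.sqrt_nonneg _)]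
    have : Real.sqrt (hE.isHermitian.eigenvalues i) ^ (2 * θ + 1)
        = hE.isHermitian.eigenvalues i ^ (θ + 1 / 2) := by
      rw [Real.sqrt_eq_rpow, ← Real.rpow_mul (hE.eigenvalues_nonneg i)]
      congr 1; ring
    rw [this]; ring
  obtain ⟨M, hM0, hM⟩ := gg_bound hE hYc hR.herm hbd1 hbd2
  set c : ℝ := θ / (1 + θ) with hc
  have hc0 : 0 ≤ c := by positivity
  have hcW : ∀ x, ((1 + 1 / θ : ℝ) : ℂ) • ((c : ℂ) • W x) = W x := by
    intro x
    rw [smul_smul]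
    have : ((1 + 1 / θ : ℝ) : ℂ) * (c : ℂ) = 1 := by
      rw [← Complex.ofReal_mul]
      have : (1 + 1 / θ) * c = 1 := by rw [hc]; field_simp; ring
      rw [this]; simp
    rw [this, one_smul]
  have hstep1 : ∀ ε, 0 < ε → ε ≤ 1 → ∀ R, ε ≤ R → ∫ l in ε..R, F l ≤
      (b - a) * (ε ^ θ * (1 / θ) * (M * (1 + |Real.log ε|)))
        + (1 / θ) * kap θ * ∫ x in a..b, tp (1 + θ) ((c : ℂ) • W x) := by
    intro ε hε hε1 R hεR
    exact step1 h0 h1 hE hab hWc hW hR hend hbd1 hbd2 hc0 hcW hε (hM ε hε hε1) hεR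
  -- step 2 : `R → ∞`
  have hstep2 : ∀ ε, 0 < ε → ε ≤ 1 → ∫ l in Ioi ε, F l ≤
      (b - a) * (ε ^ θ * (1 / θ) * (M * (1 + |Real.log ε|)))
        + (1 / θ) * kap θ * ∫ x in a..b, tp (1 + θ) ((c : ℂ) • W x) := by
    intro ε hε hε1
    have ht := intervalIntegral_tendsto_integral_Ioi ε
      (hFi.mono_set (Ioi_subset_Ioi hε.le)) tendsto_id
    refine le_of_tendsto ht ?_
    filter_upwards [eventually_ge_atTop ε] with R hR'
    exact hstep1 ε hε hε1 R hR'
  -- step 3 : `ε → 0`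
  have hlim1 : Tendsto (fun ε => ∫ l in Ioi ε, F l) (𝓝[>] 0) (𝓝 (∫ l in Ioi (0 : ℝ), F l)) := by
    have hprim : ContinuousOn (fun ε => ∫ l in (0 : ℝ)..ε, F l) (uIcc 0 1) := by
      apply intervalIntegral.continuousOn_primitive_interval'
      · rw [intervalIntegrable_iff_integrableOn_Ioc_of_le zero_le_one]
        exact hFi.mono_set Ioc_subset_Ioi_self
      · exact left_mem_uIcc
    have h2 : Tendsto (fun ε => ∫ l in (0 : ℝ)..ε, F l) (𝓝[>] 0) (𝓝 0) := by
      have h3 := hprim 0 left_mem_uIcc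
      unfold ContinuousWithinAt at h3
      have h30 : (fun ε => ∫ l in (0 : ℝ)..ε, F l) 0 = 0 := intervalIntegral.integral_same
      rw [h30] at h3
      apply h3.mono_left
      rw [uIcc_of_le zero_le_one]
      have : 𝓝[>] (0 : ℝ) = 𝓝[Ioc 0 1] 0 := (nhdsWithin_Ioc_eq_nhdsGT zero_lt_one).symm
      rw [this]
      exact nhdsWithin_mono _ Ioc_subset_Icc_self
    have h4 : Tendsto (fun ε => (∫ l in Ioi (0 : ℝ), F l) - ∫ l in (0 : ℝ)..ε, F l) (𝓝[>] 0)
        (𝓝 ((∫ l in Ioi (0 : ℝ), F l) - 0)) := tendsto_const_nhds.sub h2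
    rw [sub_zero] at h4
    refine h4.congr' ?_
    filter_upwards [self_mem_nhdsWithin] with ε hε
    have hε' : (0 : ℝ) < ε := hε
    have h5 := intervalIntegral.integral_Ioi_sub_Ioi hFi hε'.le
    linarith
  have hlim2 : Tendsto (fun ε : ℝ => (b - a) * (ε ^ θ * (1 / θ) * (M * (1 + |Real.log ε|)))
        + (1 / θ) * kap θ * ∫ x in a..b, tp (1 + θ) ((c : ℂ) • W x)) (𝓝[>] 0)
      (𝓝 ((b - a) * ((1 / θ) * M * (0 + |0|))
        + (1 / θ) * kap θ * ∫ x in a..b, tp (1 + θ) ((c : ℂ) • W x))) := by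
    have h2 : Tendsto (fun ε : ℝ => Real.log ε * ε ^ θ) (𝓝[>] 0) (𝓝 0) :=
      tendsto_log_mul_rpow_nhdsGT_zero h0
    have h3 : Tendsto (fun ε : ℝ => ε ^ θ) (𝓝[>] 0) (𝓝 0) := by
      have h4 : ContinuousAt (fun ε : ℝ => ε ^ θ) 0 :=
        Real.continuousAt_rpow_const _ _ (Or.inr h0.le)
      have h5 := h4.tendsto
      simp only [Real.zero_rpow h0.ne'] at h5
      exact h5.mono_left nhdsWithin_le_nhds
    have h6 : Tendsto (fun ε : ℝ => (b - a) * ((1 / θ) * M * (ε ^ θ + |Real.log ε * ε ^ θ|))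
        + (1 / θ) * kap θ * ∫ x in a..b, tp (1 + θ) ((c : ℂ) • W x)) (𝓝[>] 0)
      (𝓝 ((b - a) * ((1 / θ) * M * (0 + |0|))
        + (1 / θ) * kap θ * ∫ x in a..b, tp (1 + θ) ((c : ℂ) • W x))) :=
      (((h3.add h2.abs).const_mul ((1 / θ) * M)).const_mul (b - a)).add_const _
    refine h6.congr' ?_
    filter_upwards [self_mem_nhdsWithin] with ε hε
    have hε' : (0 : ℝ) < ε := hε
    rw [abs_mul, abs_of_nonneg (Real.rpow_nonneg hε'.le θ)]
    ring
  have hfin : kap θ * (2 * II θ * tp (θ + 1 / 2) E) ≤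
      (1 / θ) * kap θ * ∫ x in a..b, tp (1 + θ) ((c : ℂ) • W x) := by
    rw [← hFv]
    have h2 := le_of_tendsto_of_tendsto hlim1 hlim2 (by
      have : 𝓝[>] (0 : ℝ) = 𝓝[Ioc 0 1] 0 := (nhdsWithin_Ioc_eq_nhdsGT zero_lt_one).symm
      rw [this]
      filter_upwards [self_mem_nhdsWithin] with ε hε
      exact hstep2 ε hε.1 hε.2)
    simpa using h2
  have hint : ∫ x in a..b, tp (1 + θ) ((c : ℂ) • W x)
      = c ^ (1 + θ) * ∫ x in a..b, tp (1 + θ) (W x) := by
    rw [← intervalIntegral.integral_const_mul]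
    apply intervalIntegral.integral_congr
    intro x hx
    rw [uIcc_of_le hab.le] at hx
    exact tp_smul_pos (hW x hx) hc0
  rw [hint] at hfin
  have hcp : (1 / θ) * c ^ (1 + θ) = cp θ := by
    unfold cp
    rw [hc, Real.div_rpow h0.le (by positivity), Real.rpow_add h0, Real.rpow_one]
    field_simp
  have hk := kap_pos h0 h1
  have : kap θ * (2 * II θ * tp (θ + 1 / 2) E) ≤
      kap θ * (cp θ * ∫ x in a..b, tp (1 + θ) (W x)) := by
    calc _ ≤ _ := hfin
      _ = _ := by rw [← hcp]; ring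
  exact le_of_mul_le_mul_left this hk

end Vale.Agent.P371.Gen
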