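import Vale.Agent.Lib.P371.Gen.Young
import Vale.Agent.Lib.P371.Meas

/-! # P371 Gen: the Gram matrix (module Gram)

`test_identity`: `((Umat f x)ᴴ * W x * Umat f x) i j = ⟨f i x, W x f j x⟩`, and the eigenvalue
equation tested with `f i`: `∫ ⟨f_i, W f_j⟩ = ∫ ⟨f_i', f_j'⟩ - λ_j δ_ij`. Integrability of
`⟨f_i, W f_j⟩`: `|⟨u, W v⟩| ≤ (⟨u, W u⟩ + ⟨v, W v⟩)/2` and `integrable_inner_app`.
`young_int`: with `V = Umat f x * T` (`m × N`), `tr (T T Uᴴ W U) = tr (W V Vᴴ)
≤ cp θ tr W^{1+θ} + tr (V Vᴴ)^q`, and `tr (V Vᴴ)^q = tr (Vᴴ V)^q = tr (T gram T)^q`.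
Integrability of `tp q (T gram T)`: continuous in `x`, `≤ (τ g)^q`, `g = ∑ ‖f_j‖^2` bounded and
integrable.
`tail`: `tp q (T gram T) ≤ (rtr (T gram T))^q ≤ (τ g)^q ≤ τ^q C^{q-1} g` if `T T ≤ τ`. -/

open Matrix Set MeasureTheory
open scoped ComplexOrder

namespace Vale.Agent.P371.Gen

variable {m N : ℕ}

theorem gram_posSemidef (f : Fin N → ℝ → EuclideanSpace ℂ (Fin m)) (x : ℝ) :
    (gram f x).PosSemidef := by
  rw [gram_eq]
  exact Matrix.posSemidef_conjTranspose_mul_self _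

theorem continuous_gram {f f' : Fin N → ℝ → EuclideanSpace ℂ (Fin m)}
    (hf : ∀ j, IsH1 (f j) (f' j)) : Continuous (gram f) := by
  refine continuous_matrix fun i j => ?_
  exact ((hf i).continuous).inner ((hf j).continuous)

theorem rtr_gram (f : Fin N → ℝ → EuclideanSpace ℂ (Fin m)) (x : ℝ) :
    rtr (gram f x) = ∑ j, ‖f j x‖ ^ 2 := by
  rw [gram_eq]
  exact Umat_trace f x

/-- `gram f x ≤ C`. -/
theorem gram_bound {f f' : Fin N → ℝ → EuclideanSpace ℂ (Fin m)}
    (hf : ∀ j, IsH1 (f j) (f' j)) : ∃ C : ℝ, 0 ≤ C ∧ ∀ x, rtr (gram f x) ≤ C := by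
  refine ⟨∑ j, ((1 + ∫ y, ‖f j y‖ ^ 2) / 2 + (1 + ∫ y, ‖f' j y‖ ^ 2) / 2) ^ 2,
    Finset.sum_nonneg fun j _ => sq_nonneg _, fun x => ?_⟩
  rw [rtr_gram]
  exact Finset.sum_le_sum fun j _ =>
    pow_le_pow_left₀ (norm_nonneg _) ((hf j).bounded x) 2

theorem integrable_rtr_gram {f f' : Fin N → ℝ → EuclideanSpace ℂ (Fin m)}
    (hf : ∀ j, IsH1 (f j) (f' j)) : Integrable (fun x => rtr (gram f x)) := by
  have h : (fun x => rtr (gram f x)) = fun x => ∑ j, ‖f j x‖ ^ 2 := funext fun x => rtr_gram f x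
  rw [h]
  exact integrable_finsetSum _ fun j _ => (hf j).integrable_sq

theorem tgt_posSemidef (f : Fin N → ℝ → EuclideanSpace ℂ (Fin m))
    {T : Matrix (Fin N) (Fin N) ℂ} (hT : T.IsHermitian) (x : ℝ) :
    (T * gram f x * T).PosSemidef := by
  have h := (gram_posSemidef f x).mul_mul_conjTranspose_same T
  rwa [hT.eq] at h

/-- The pointwise bound for `tail`. -/
theorem tp_tgt_le (f : Fin N → ℝ → EuclideanSpace ℂ (Fin m)) {q : ℝ} (hq : 1 ≤ q)
    {T : Matrix (Fin N) (Fin N) ℂ} (hT : T.IsHermitian) {τ C : ℝ} (hτ : 0 ≤ τ)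
    (h : ((τ : ℂ) • (1 : Matrix (Fin N) (Fin N) ℂ) - T * T).PosSemidef) (x : ℝ)
    (hC : rtr (gram f x) ≤ C) :
    tp q (T * gram f x * T) ≤ τ ^ q * C ^ (q - 1) * rtr (gram f x) := by
  have hM := tgt_posSemidef f hT x
  have hg0 : 0 ≤ rtr (gram f x) := rtr_nonneg (gram_posSemidef f x)
  have h1 := tp_le hM hq
  have h2 : rtr (T * gram f x * T) ≤ τ * rtr (gram f x) := by
    have h3 := rtr_mul_nonneg h (gram_posSemidef f x)
    have h4 : rtr (((τ : ℂ) • (1 : Matrix (Fin N) (Fin N) ℂ) - T * T) * gram f x)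
        = τ * rtr (gram f x) - rtr (T * gram f x * T) := by
      unfold rtr
      rw [sub_mul, smul_mul_assoc, one_mul, trace_sub, trace_smul, Matrix.trace_mul_comm (T * _) T,
        ← mul_assoc]
      simp
    rw [h4] at h3
    linarith
  have h5 : (rtr (T * gram f x * T)) ^ q ≤ (τ * rtr (gram f x)) ^ q :=
    Real.rpow_le_rpow (rtr_nonneg hM) h2 (by linarith)
  have h6 : (rtr (gram f x)) ^ q = (rtr (gram f x)) ^ (q - 1) * rtr (gram f x) := by
    have := Real.rpow_add_one' hg0 (y := q - 1) (by linarith)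
    rwa [sub_add_cancel] at this
  have h7 : (rtr (gram f x)) ^ (q - 1) ≤ C ^ (q - 1) :=
    Real.rpow_le_rpow hg0 hC (by linarith)
  calc tp q (T * gram f x * T) ≤ (rtr (T * gram f x * T)) ^ q := h1
    _ ≤ (τ * rtr (gram f x)) ^ q := h5
    _ = τ ^ q * ((rtr (gram f x)) ^ (q - 1) * rtr (gram f x)) := by
        rw [Real.mul_rpow hτ hg0, h6]
    _ ≤ τ ^ q * (C ^ (q - 1) * rtr (gram f x)) := by
        have : 0 ≤ τ ^ q := Real.rpow_nonneg hτ q
        gcongr
    _ = τ ^ q * C ^ (q - 1) * rtr (gram f x) := by ring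

theorem integrable_tp {f f' : Fin N → ℝ → EuclideanSpace ℂ (Fin m)}
    (hf : ∀ j, IsH1 (f j) (f' j)) {q : ℝ} (hq : 1 ≤ q) {T : Matrix (Fin N) (Fin N) ℂ}
    (hT : T.IsHermitian) : Integrable (fun x => tp q (T * gram f x * T)) := by
  obtain ⟨C, hC0, hC⟩ := gram_bound hf
  have hTT : (T * T).PosSemidef := by
    have h := Matrix.posSemidef_conjTranspose_mul_self T
    rwa [hT.eq] at h
  have hτ : 0 ≤ rtr (T * T) := rtr_nonneg hTT
  have hle := le_rtr hTT
  refine Integrable.mono' ((integrable_rtr_gram hf).const_mul ((rtr (T * T)) ^ q * C ^ (q - 1)))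
    ?_ (Filter.Eventually.of_forall fun x => ?_)
  · have h1 : (fun x => tp q (T * gram f x * T))
        = fun x => trF (fun t => t ^ q) (T * gram f x * T) := by
      funext x
      have hH := (tgt_posSemidef f hT x).isHermitian
      rw [trF_of hH]
      exact rtr_mf hH _
    rw [h1]
    refine (measurable_trF (fun i j => ?_) (fun x => (tgt_posSemidef f hT x).isHermitian)
      (Real.continuous_rpow_const (by linarith))).aestronglyMeasurable
    have hc : Continuous fun x => T * gram f x * T :=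
      (continuous_const.mul (continuous_gram hf)).mul continuous_const
    exact (hc.matrix_elem i j).measurable
  · rw [Real.norm_of_nonneg (tp_nonneg (tgt_posSemidef f hT x) q)]
    exact tp_tgt_le f hq hT hτ hle x (hC x)

theorem tail {f f' : Fin N → ℝ → EuclideanSpace ℂ (Fin m)} (hf : ∀ j, IsH1 (f j) (f' j))
    {q : ℝ} (hq : 1 ≤ q) {τ : ℝ} (hτ : 0 ≤ τ) {ε : ℝ} (hε : 0 < ε) :
    ∃ a b : ℝ, a < b ∧ ∀ T : Matrix (Fin N) (Fin N) ℂ, T.IsHermitian →
      ((τ : ℂ) • (1 : Matrix (Fin N) (Fin N) ℂ) - T * T).PosSemidef →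
      ∫ x, tp q (T * gram f x * T) ≤ (∫ x in a..b, tp q (T * gram f x * T)) + ε := by
  obtain ⟨C, hC0, hC⟩ := gram_bound hf
  have hI : Integrable (fun x => τ ^ q * C ^ (q - 1) * rtr (gram f x)) :=
    (integrable_rtr_gram hf).const_mul _
  have hlim := intervalIntegral_tendsto_integral hI
    (a := fun r : ℝ => -r) (b := fun r : ℝ => r) (l := Filter.atTop)
    Filter.tendsto_neg_atTop_atBot Filter.tendsto_id
  have hev := (hlim.eventually (lt_mem_nhds (sub_lt_self _ hε))).and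
    (Filter.eventually_gt_atTop (0 : ℝ))
  obtain ⟨r, hr, hr0⟩ := hev.exists
  refine ⟨-r, r, by linarith, fun T hT h => ?_⟩
  have hTi := integrable_tp hf hq hT
  have hk : Integrable (fun x => τ ^ q * C ^ (q - 1) * rtr (gram f x)
      - tp q (T * gram f x * T)) := hI.sub hTi
  have hle : ∫ x in (-r)..r, (τ ^ q * C ^ (q - 1) * rtr (gram f x) - tp q (T * gram f x * T))
      ≤ ∫ x, (τ ^ q * C ^ (q - 1) * rtr (gram f x) - tp q (T * gram f x * T)) := by
    rw [intervalIntegral.integral_of_le (by linarith)]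
    refine setIntegral_le_integral hk (Filter.Eventually.of_forall fun x => ?_)
    exact sub_nonneg.mpr (tp_tgt_le f hq hT hτ h x (hC x))
  rw [intervalIntegral.integral_sub hI.intervalIntegrable hTi.intervalIntegrable,
    integral_sub hI hTi] at hle
  have hr' : (∫ x, τ ^ q * C ^ (q - 1) * rtr (gram f x)) - ε
      < ∫ x in (-r)..r, τ ^ q * C ^ (q - 1) * rtr (gram f x) := hr
  linarith

end Vale.Agent.P371.Gen
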