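import Vale.Agent.Lib.P371.Gen.Red
import Vale.Agent.Lib.P371.Gen.Gram

/-! # P371 Gen: Young inequality integrated (module YoungInt)

`test_identity`: `((Umat f x)ᴴ * W x * Umat f x) i j = ⟨f i x, W x f j x⟩`, and the eigenvalue
equation tested with `f i`: `∫ ⟨f_i, W f_j⟩ = ∫ ⟨f_i', f_j'⟩ - λ_j δ_ij`. Integrability of
`⟨f_i, W f_j⟩`: `|⟨u, W v⟩| ≤ (⟨u, W u⟩ + ⟨v, W v⟩)/2` and `integrable_inner_app`.
`young_int`: with `V = Umat f x * T` (`m × N`), `tr (T T Uᴴ W U) = tr (W V Vᴴ)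
≤ cp θ tr W^{1+θ} + tr (V Vᴴ)^q`, and `tr (V Vᴴ)^q = tr (Vᴴ V)^q = tr (T gram T)^q`.
Integrability of `tp q (T gram T)`: continuous in `x`, `≤ (τ g)^q`, `g = ∑ ‖f_j‖^2` bounded and
integrable.
`tail`: `tp q (T gram T) ≤ (rtr (T gram T))^q ≤ (τ g)^q ≤ τ^q C^{q-1} g` if `T T ≤ τ`. -/

open Matrix Set MeasureTheory
open scoped ComplexOrder

namespace Vale.Agent.P371.Gen

variable {m N : ℕ}

/-- the pointwise inequality -/
theorem youngInt_point {θ : ℝ} (h0 : 0 < θ) {W : Matrix (Fin m) (Fin m) ℂ} (hW : W.PosSemidef)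
    (f : Fin N → ℝ → EuclideanSpace ℂ (Fin m)) (x : ℝ)
    {T : Matrix (Fin N) (Fin N) ℂ} (hT : T.IsHermitian) :
    rtr (T * T * ((Umat f x)ᴴ * W * Umat f x)) ≤
      cp θ * trPow (1 + θ) W + tp (1 + 1 / θ) (T * gram f x * T) := by
  have hq : 0 < 1 + 1 / θ := by positivity
  have h1 : rtr (T * T * ((Umat f x)ᴴ * W * Umat f x)) =
      rtr (W * ((Umat f x * T) * (Umat f x * T)ᴴ)) := by
    have hTT : Tᴴ = T := hT
    unfold rtr
    rw [Matrix.conjTranspose_mul, hTT]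
    have e1 : T * T * ((Umat f x)ᴴ * W * Umat f x) =
        (T * T * (Umat f x)ᴴ) * (W * Umat f x) := by
      simp only [Matrix.mul_assoc]
    have e2 : W * (Umat f x * T * (T * (Umat f x)ᴴ)) =
        (W * Umat f x) * (T * T * (Umat f x)ᴴ) := by
      simp only [Matrix.mul_assoc]
    rw [e1, e2, Matrix.trace_mul_comm]
  have hD : ((Umat f x * T) * (Umat f x * T)ᴴ).PosSemidef :=
    Matrix.posSemidef_self_mul_conjTranspose _
  have h2 := young_mat h0 hW hD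
  rw [tp_swap hq, tp_eq_trPow hW.isHermitian] at h2
  have h3 : (Umat f x * T)ᴴ * (Umat f x * T) = T * gram f x * T := by
    have hTT : Tᴴ = T := hT
    rw [gram_eq, Matrix.conjTranspose_mul, hTT]
    simp only [Matrix.mul_assoc]
  rw [h3] at h2
  rw [h1]
  exact h2

theorem young_int {θ : ℝ} (h0 : 0 < θ) {W : ℝ → Matrix (Fin m) (Fin m) ℂ}
    (hW : IsPotential (1 + θ) W) {lam : Fin N → ℝ} {f f' : Fin N → ℝ → EuclideanSpace ℂ (Fin m)}
    (hf : ∀ j, IsEigenfunction W (lam j) (f j) (f' j))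
    (ho : ∀ i j, (∫ x, inner ℂ (f i x) (f j x)) = if i = j then (1 : ℂ) else 0)
    {T : Matrix (Fin N) (Fin N) ℂ} (hT : T.IsHermitian) :
    ∫ x, rtr (T * T * ((Umat f x)ᴴ * W x * Umat f x)) ≤
      cp θ * (∫ x, trPow (1 + θ) (W x)) + ∫ x, tp (1 + 1 / θ) (T * gram f x * T) := by
  have hp : (1 : ℝ) ≤ 1 + θ := by linarith
  have hq : (1 : ℝ) ≤ 1 + 1 / θ := by
    have : 0 < 1 / θ := by positivity
    linarith
  have hL := (test_identity hp hW hf ho (T * T)).1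
  have hI1 : Integrable (fun x => cp θ * trPow (1 + θ) (W x)) :=
    (hW.integrable (by linarith)).const_mul (cp θ)
  have hI2 : Integrable (fun x => tp (1 + 1 / θ) (T * gram f x * T)) :=
    integrable_tp (fun j => (hf j).1) hq hT
  rw [← integral_const_mul, ← integral_add hI1 hI2]
  exact integral_mono hL (hI1.add hI2) fun x => youngInt_point h0 (hW.posSemidef x) f x hT

end Vale.Agent.P371.Gen
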