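import Vale.Agent.Lib.P371.Gen.Pot
import Vale.Agent.Lib.P371.Gen.JBoundMat
import Vale.Agent.Lib.P371.Gen.ThmF
import Vale.Agent.Lib.P371.Gen.Corner
import Vale.Agent.Lib.P371.Gen.YoungInt
import Vale.Agent.Lib.P371.Gen.Alg

/-! # P371 Gen: assembly 1: core (module Core)

`core`: `T = Tm E` with `E` from `exists_corner` for `𝒲 G = pot θ f (Tm G)` on `[a,b]` from `tail`.
`cp ∫ trPow W + ∫ tp q (T gram T) ≥ ∫ rtr (T T Uᴴ W U)` (`young_int`)
`= ∫ rtr (T T U'ᴴ U') + rtr (T T Λ)` (`test_identity`, `Λ = diag(-λ_j)`)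
`≥ ∫_a^b rtr (𝒲 T gram T) - rtr (E T T) + rtr (T T Λ)` (`jbound_mat`)
`= (1+1/θ) ∫_a^b tp q (T gram T) + rtr (T T (Λ - E))`, so by `tail`
`cp ∫ trPow W ≥ (1/θ) ∫_a^b tp q (T gram T) + rtr (T T (Λ - E)) - ε`, and
`(1/θ) ∫_a^b tp q = cp ∫_a^b tp (1+θ) 𝒲 ≥ 2 II θ tp (θ+1/2) E` (`thmF`).

`eig_sum_le`: `γ = θ + 1/2`, `β = 2 II θ`. If `γ ≥ 1` take `Tm` constant, `T^2 = β γ Λ^{γ-1}` and
`alg_ge`; if `γ ≤ 1` take `Tm G = (β γ)^{1/2} (G + δ)^{(γ-1)/2}` (on `G ≥ 0`; continuity: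
`continuousOn_mf` for `t ↦ (max t 0 + δ)^{(γ-1)/2}`) and `alg_lt`, then `δ → 0`. -/

open Matrix Set MeasureTheory
open scoped ComplexOrder ENNReal

namespace Vale.Agent.P371.Gen

variable {m N : ℕ}

theorem core {θ : ℝ} (h0 : 0 < θ) (h1 : θ < 1) {W : ℝ → Matrix (Fin m) (Fin m) ℂ}
    (hW : IsPotential (1 + θ) W) {lam : Fin N → ℝ} {f f' : Fin N → ℝ → EuclideanSpace ℂ (Fin m)}
    (hf : ∀ j, IsEigenfunction W (lam j) (f j) (f' j))
    (ho : ∀ i j, (∫ x, inner ℂ (f i x) (f j x)) = if i = j then (1 : ℂ) else 0)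
    {Tm : Matrix (Fin N) (Fin N) ℂ → Matrix (Fin N) (Fin N) ℂ}
    (hTm : ContinuousOn Tm {G | G.PosSemidef})
    (hTH : ∀ G : Matrix (Fin N) (Fin N) ℂ, G.PosSemidef → (Tm G).IsHermitian) {τ : ℝ}
    (hτ : 0 ≤ τ) (hTτ : ∀ G : Matrix (Fin N) (Fin N) ℂ, G.PosSemidef →
      ((τ : ℂ) • (1 : Matrix (Fin N) (Fin N) ℂ) - Tm G * Tm G).PosSemidef) {ε : ℝ} (hε : 0 < ε) :
    ∃ E : Matrix (Fin N) (Fin N) ℂ, E.PosSemidef ∧
      2 * II θ * tp (θ + 1 / 2) E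
        + rtr (Tm E * Tm E * (Matrix.diagonal (fun j => ((-lam j : ℝ) : ℂ)) - E)) ≤
      cp θ * (∫ x, trPow (1 + θ) (W x)) + ε := by
  have hH1 : ∀ j, IsH1 (f j) (f' j) := fun j => (hf j).1
  have hq : (1 : ℝ) ≤ 1 + 1 / θ := by
    have : 0 < 1 / θ := by positivity
    linarith
  obtain ⟨a, b, hab, htail⟩ := tail hH1 hq hτ hε
  obtain ⟨w₀, hw₀, hwb⟩ := pot_bound h0 hH1 hτ
  obtain ⟨E, Y, hE, hR, hend, hb1, hb2⟩ := exists_corner hab (fun G => pot θ f (Tm G))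
    (pot_cont h0 hH1 hTm hTH) (fun G hG x _ => pot_posSemidef h0 f (hTH G hG) x) hw₀
    (fun G hG x _ => hwb (Tm G) (hTH G hG) (hTτ G hG) x)
  refine ⟨E, hE, ?_⟩
  obtain ⟨T, hTdef⟩ : ∃ T, T = Tm E := ⟨_, rfl⟩
  have hT : T.IsHermitian := by rw [hTdef]; exact hTH E hE
  have hTT := hTτ E hE
  simp only [← hTdef] at hR hTT ⊢
  have hWc : ContinuousOn (pot θ f T) (Icc a b) := by
    have h2 := pot_cont (a := a) (b := b) h0 hH1 hTm hTH
    have h3 : ContinuousOn (fun x : ℝ => ((E, x) : Matrix (Fin N) (Fin N) ℂ × ℝ)) (Icc a b) :=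
      (continuous_const.prodMk continuous_id).continuousOn
    have h4 : MapsTo (fun x : ℝ => ((E, x) : Matrix (Fin N) (Fin N) ℂ × ℝ)) (Icc a b)
        ({G : Matrix (Fin N) (Fin N) ℂ | G.PosSemidef} ×ˢ Icc a b) := fun x hx => ⟨hE, hx⟩
    have h5 := ContinuousOn.comp (f := fun x : ℝ => ((E, x) : Matrix (Fin N) (Fin N) ℂ × ℝ))
      h2 h3 h4
    rw [hTdef]
    exact h5
  have hG : ∀ x, (T * gram f x * T).PosSemidef := fun x => tgt_posSemidef f hT x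
  have hF := thmF h0 h1 hE hab hWc (fun x _ => pot_posSemidef h0 f hT x) hR hend hb1 hb2
  have hF2 : cp θ * ∫ x in a..b, tp (1 + θ) (pot θ f T x)
      = (1 / θ) * ∫ x in a..b, tp (1 + 1 / θ) (T * gram f x * T) := by
    rw [← intervalIntegral.integral_const_mul, ← intervalIntegral.integral_const_mul]
    refine intervalIntegral.integral_congr (fun x _ => ?_)
    exact tp_smul_rpow h0 (hG x)
  have hJ := jbound_mat hab hWc hE hR hend hH1 ho hT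
  have hJ2 : ∫ x in a..b, rtr (pot θ f T x * (T * gram f x * T))
      = (1 + 1 / θ) * ∫ x in a..b, tp (1 + 1 / θ) (T * gram f x * T) := by
    rw [← intervalIntegral.integral_const_mul]
    refine intervalIntegral.integral_congr (fun x _ => ?_)
    exact rtr_smul_rpow_mul h0 (hG x)
  have hY := young_int h0 hW hf ho hT
  have hI := (test_identity (by linarith : (1 : ℝ) ≤ 1 + θ) hW hf ho (T * T)).2
  have hTl := htail T hT hTT
  have hr : rtr (T * T * (Matrix.diagonal (fun j => ((-lam j : ℝ) : ℂ)) - E))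
      = rtr (T * T * Matrix.diagonal (fun j => ((-lam j : ℝ) : ℂ))) - rtr (E * (T * T)) := by
    rw [mul_sub]
    unfold rtr
    rw [Matrix.trace_sub, Complex.sub_re, Matrix.trace_mul_comm (T * T) E]
  rw [hr]
  rw [hF2] at hF
  rw [hJ2] at hJ
  rw [hI] at hY
  linarith

end Vale.Agent.P371.Gen
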