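import Vale.Agent.Lib.P371.Gen.Core

/-! # P371 Gen: assembly 2: sums of eigenvalues (module EigSum)

`core`: `T = Tm E` with `E` from `exists_corner` for `𝒲 G = pot θ f (Tm G)` on `[a,b]` from `tail`.
`cp ∫ trPow W + ∫ tp q (T gram T) ≥ ∫ rtr (T T Uᴴ W U)` (`young_int`)
`= ∫ rtr (T T U'ᴴ U') + rtr (T T Λ)` (`test_identity`, `Λ = diag(-λ_j)`)
`≥ ∫_a^b rtr (𝒲 T gram T) - rtr (E T T) + rtr (T T Λ)` (`jbound_mat`)
`= (1+1/θ) ∫_a^b tp q (T gram T) + rtr (T T (Λ - E))`, so by `tail`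
`cp ∫ trPow W ≥ (1/θ) ∫_a^b tp q (T gram T) + rtr (T T (Λ - E)) - ε`, and
`(1/θ) ∫_a^b tp q = cp ∫_a^b tp (1+θ) 𝒲 ≥ 2 II θ tp (θ+1/2) E` (`thmF`).

`eig_sum_le`: `γ = θ + 1/2`, `β = 2 II θ`. If `γ ≥ 1` take `Tm` constant, `T^2 = β γ Λ^{γ-1}` and
`alg_ge`; if `γ ≤ 1` take `Tm G = (β γ)^{1/2} (G + δ)^{(γ-1)/2}` (on `G ≥ 0`; continuity:
`continuousOn_mf` for `t ↦ (max t 0 + δ)^{(γ-1)/2}`) and `alg_lt`, then `δ → 0`. -/

open Matrix Set MeasureTheory
open scoped ComplexOrder ENNReal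

namespace Vale.Agent.P371.Gen

variable {m N : ℕ}

/-- the functional calculus of a real diagonal matrix, trace -/
theorem eigsum_rtr_mf_diagonal (d : Fin N → ℝ)
    (hH : (Matrix.diagonal (fun j => ((d j : ℝ) : ℂ))).IsHermitian) (f : ℝ → ℝ) :
    rtr (mf f (Matrix.diagonal (fun j => ((d j : ℝ) : ℂ)))) = ∑ j, f (d j) := by
  rw [rtr_mf hH]
  have h1 := hH.roots_charpoly_eq_eigenvalues
  have h2 : (Matrix.diagonal (fun j => ((d j : ℝ) : ℂ))).charpoly.roots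
      = Multiset.map (fun j => ((d j : ℝ) : ℂ)) Finset.univ.val := by
    rw [Matrix.charpoly_diagonal, Polynomial.roots_prod]
    · simp
    · simp [Finset.prod_ne_zero_iff, Polynomial.X_sub_C_ne_zero]
  rw [h2] at h1
  have h3 := congrArg (fun M : Multiset ℂ => (M.map (fun z => f z.re)).sum) h1
  simp only [Multiset.map_map] at h3
  have h4 : (Multiset.map ((fun z : ℂ => f z.re) ∘ fun j => ((d j : ℝ) : ℂ))
      (Finset.univ : Finset (Fin N)).val).sum = ∑ j, f (d j) := rfl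
  have h5 : (Multiset.map ((fun z : ℂ => f z.re) ∘ (RCLike.ofReal ∘ hH.eigenvalues))
      (Finset.univ : Finset (Fin N)).val).sum = ∑ j, f (hH.eigenvalues j) := by
    have : ((fun z : ℂ => f z.re) ∘ (RCLike.ofReal ∘ hH.eigenvalues))
        = fun j => f (hH.eigenvalues j) := by
      funext j
      simp
    rw [this]
    rfl
  rw [← h5, ← h3]
  exact h4

theorem eigsum_posDef {lam : Fin N → ℝ} (hneg : ∀ j, lam j < 0) :
    (Matrix.diagonal (fun j => ((-lam j : ℝ) : ℂ))).PosDef := by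
  rw [Matrix.posDef_diagonal_iff]
  intro j
  have := hneg j
  exact_mod_cast (by linarith : (0 : ℝ) < -lam j)

theorem eigsum_tp {lam : Fin N → ℝ} (hneg : ∀ j, lam j < 0) (γ : ℝ) :
    tp γ (Matrix.diagonal (fun j => ((-lam j : ℝ) : ℂ))) = ∑ j, |lam j| ^ γ := by
  unfold tp
  rw [eigsum_rtr_mf_diagonal (fun j => -lam j) (eigsum_posDef hneg).isHermitian]
  exact Finset.sum_congr rfl fun j _ => by rw [abs_of_neg (hneg j)]

theorem eigsum_rtr_smul (c : ℝ) (A : Matrix (Fin N) (Fin N) ℂ) :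
    rtr ((c : ℂ) • A) = c * rtr A := by
  unfold rtr
  rw [Matrix.trace_smul, smul_eq_mul, Complex.re_ofReal_mul]

theorem eigsum_rtr_neg (A : Matrix (Fin N) (Fin N) ℂ) : rtr (-A) = - rtr A := by
  unfold rtr
  rw [Matrix.trace_neg, Complex.neg_re]

/-- nonnegative eigenvalues -/
theorem eigsum_eig_nonneg {G : Matrix (Fin N) (Fin N) ℂ} (hG : G.PosSemidef) (i : Fin N) :
    0 ≤ hG.isHermitian.eigenvalues i := hG.eigenvalues_nonneg i

/-- the case `γ ≥ 1` -/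
theorem eigsum_ge {θ : ℝ} (h0 : 0 < θ) (h1 : θ < 1) {W : ℝ → Matrix (Fin m) (Fin m) ℂ}
    (hW : IsPotential (1 + θ) W) {lam : Fin N → ℝ} (h : IsNegEigenSystem W N lam)
    (hII : 0 < II θ) (hγ : 1 ≤ θ + 1 / 2) :
    2 * II θ * ∑ j, |lam j| ^ (θ + 1 / 2) ≤ cp θ * ∫ x, trPow (1 + θ) (W x) := by
  obtain ⟨hneg, f, f', hf, ho⟩ := h
  obtain ⟨M, hM⟩ : ∃ M : Matrix (Fin N) (Fin N) ℂ,
    M = Matrix.diagonal (fun j => ((-lam j : ℝ) : ℂ)) := ⟨_, rfl⟩
  have hMP : M.PosDef := by rw [hM]; exact eigsum_posDef hneg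
  have hMH : M.IsHermitian := hMP.isHermitian
  have hMe : ∀ i, 0 ≤ hMH.eigenvalues i := eigsum_eig_nonneg hMP.posSemidef
  obtain ⟨c, hc⟩ : ∃ c : ℝ, c = 2 * II θ * (θ + 1 / 2) := ⟨_, rfl⟩
  have hc0 : 0 ≤ c := by rw [hc]; positivity
  obtain ⟨T, hT⟩ : ∃ T : Matrix (Fin N) (Fin N) ℂ,
    T = mf (fun t => Real.sqrt (c * t ^ (θ + 1 / 2 - 1))) M := ⟨_, rfl⟩
  have hTT : T * T = (c : ℂ) • mf (fun t => t ^ (θ + 1 / 2 - 1)) M := by
    rw [hT, ← mf_mul hMH, ← mf_const_mul hMH]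
    refine mf_congr hMH fun i => ?_
    exact Real.mul_self_sqrt (mul_nonneg hc0 (Real.rpow_nonneg (hMe i) _))
  have hTTp : (T * T).PosSemidef := by
    rw [hTT, ← mf_const_mul hMH]
    exact mf_posSemidef hMH fun i => mul_nonneg hc0 (Real.rpow_nonneg (hMe i) _)
  have hTH : T.IsHermitian := by rw [hT]; exact mf_isHermitian _ _
  refine le_of_forall_pos_le_add fun ε hε => ?_
  obtain ⟨E, hE, hcore⟩ := core h0 h1 hW hf ho (Tm := fun _ => T) continuousOn_const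
    (fun _ _ => hTH) (τ := rtr (T * T)) (rtr_nonneg hTTp) (fun _ _ => le_rtr hTTp) hε
  have halg := alg_ge hγ hMP hE
  rw [← eigsum_tp hneg, ← hM]
  rw [← hM] at hcore
  have e1 : rtr (T * T * (M - E))
      = c * (- rtr (mf (fun t => t ^ (θ + 1 / 2 - 1)) M * (E - M))) := by
    rw [hTT, Matrix.smul_mul, eigsum_rtr_smul, ← eigsum_rtr_neg, ← Matrix.mul_neg, neg_sub]
  have e2 : rtr ((fun _ : Matrix (Fin N) (Fin N) ℂ => T) E
      * (fun _ : Matrix (Fin N) (Fin N) ℂ => T) E * (M - E)) = rtr (T * T * (M - E)) := rfl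
  rw [e2, e1] at hcore
  have h3 := mul_le_mul_of_nonneg_left halg (by positivity : (0 : ℝ) ≤ 2 * II θ)
  rw [hc] at hcore
  linarith

/-- the regularised family of the case `γ ≤ 1` -/
theorem eigsum_lt_aux {θ : ℝ} (h0 : 0 < θ) (h1 : θ < 1) {W : ℝ → Matrix (Fin m) (Fin m) ℂ}
    (hW : IsPotential (1 + θ) W) {lam : Fin N → ℝ} (h : IsNegEigenSystem W N lam)
    (hII : 0 < II θ) (hγ : θ + 1 / 2 ≤ 1) {δ ε : ℝ} (hδ : 0 < δ) (hε : 0 < ε) :
    2 * II θ * ∑ j, |lam j| ^ (θ + 1 / 2) ≤ cp θ * (∫ x, trPow (1 + θ) (W x)) + ε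
      + 2 * II θ * (N * δ ^ (θ + 1 / 2)) := by
  obtain ⟨hneg, f, f', hf, ho⟩ := h
  obtain ⟨M, hM⟩ : ∃ M : Matrix (Fin N) (Fin N) ℂ,
    M = Matrix.diagonal (fun j => ((-lam j : ℝ) : ℂ)) := ⟨_, rfl⟩
  have hMP : M.PosDef := by rw [hM]; exact eigsum_posDef hneg
  obtain ⟨c, hc⟩ : ∃ c : ℝ, c = 2 * II θ * (θ + 1 / 2) := ⟨_, rfl⟩
  have hc0 : 0 ≤ c := by rw [hc]; positivity
  have hpos : ∀ t : ℝ, 0 < max t 0 + δ := fun t =>
    add_pos_of_nonneg_of_pos (le_max_right t 0) hδ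
  obtain ⟨φ, hφ⟩ : ∃ φ : ℝ → ℝ,
    φ = fun t => Real.sqrt (c * (max t 0 + δ) ^ (θ + 1 / 2 - 1)) := ⟨_, rfl⟩
  have hφc : Continuous φ := by
    rw [hφ]
    refine Real.continuous_sqrt.comp (continuous_const.mul ?_)
    refine Continuous.rpow_const ?_ fun t => Or.inl (hpos t).ne'
    exact (continuous_id.max continuous_const).add continuous_const
  have hφ2 : ∀ t, φ t * φ t = c * (max t 0 + δ) ^ (θ + 1 / 2 - 1) := by
    intro t
    rw [hφ]
    exact Real.mul_self_sqrt (mul_nonneg hc0 (Real.rpow_nonneg (hpos t).le _))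
  have hTT : ∀ G : Matrix (Fin N) (Fin N) ℂ, G.PosSemidef →
      mf φ G * mf φ G = (c : ℂ) • mf (fun t => (t + δ) ^ (θ + 1 / 2 - 1)) G := by
    intro G hG
    rw [← mf_mul hG.isHermitian, ← mf_const_mul hG.isHermitian]
    refine mf_congr hG.isHermitian fun i => ?_
    show φ _ * φ _ = _
    rw [hφ2, max_eq_left (eigsum_eig_nonneg hG i)]
  have hτ : ∀ G : Matrix (Fin N) (Fin N) ℂ, G.PosSemidef →
      (((c * δ ^ (θ + 1 / 2 - 1) : ℝ) : ℂ) • (1 : Matrix (Fin N) (Fin N) ℂ)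
        - mf φ G * mf φ G).PosSemidef := by
    intro G hG
    rw [← mf_mul hG.isHermitian, ← mf_const hG.isHermitian, ← mf_sub hG.isHermitian]
    refine mf_posSemidef hG.isHermitian fun i => ?_
    show 0 ≤ c * δ ^ (θ + 1 / 2 - 1) - φ _ * φ _
    rw [hφ2, ← mul_sub]
    refine mul_nonneg hc0 (sub_nonneg.2 ?_)
    have hm := le_max_right (hG.isHermitian.eigenvalues i) 0
    exact Real.rpow_le_rpow_of_nonpos hδ (by linarith) (by linarith)
  have hcont : ContinuousOn (fun G : Matrix (Fin N) (Fin N) ℂ => mf φ G) {G | G.PosSemidef} :=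
    (continuousOn_mf hφc).mono fun G hG => hG.isHermitian
  obtain ⟨E, hE, hcore⟩ := core h0 h1 hW hf ho (Tm := fun G => mf φ G) hcont
    (fun _ _ => mf_isHermitian _ _) (τ := c * δ ^ (θ + 1 / 2 - 1))
    (mul_nonneg hc0 (Real.rpow_nonneg hδ.le _)) hτ hε
  have halg := alg_lt (by linarith) hγ hMP.posSemidef hE hδ
  rw [← eigsum_tp hneg, ← hM]
  rw [← hM] at hcore
  have e2 : rtr ((fun G : Matrix (Fin N) (Fin N) ℂ => mf φ G) E
      * (fun G : Matrix (Fin N) (Fin N) ℂ => mf φ G) E * (M - E))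
      = c * rtr (mf (fun t => (t + δ) ^ (θ + 1 / 2 - 1)) E * (M - E)) := by
    show rtr (mf φ E * mf φ E * (M - E)) = _
    rw [hTT E hE, Matrix.smul_mul, eigsum_rtr_smul]
  rw [e2] at hcore
  rw [Fintype.card_fin] at halg
  have h3 := mul_le_mul_of_nonneg_left halg (by positivity : (0 : ℝ) ≤ 2 * II θ)
  rw [hc] at hcore
  linarith

theorem eig_sum_le {θ : ℝ} (h0 : 0 < θ) (h1 : θ < 1) {W : ℝ → Matrix (Fin m) (Fin m) ℂ}
    (hW : IsPotential (1 + θ) W) {lam : Fin N → ℝ} (h : IsNegEigenSystem W N lam) :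
    2 * II θ * ∑ j, |lam j| ^ (θ + 1 / 2) ≤ cp θ * ∫ x, trPow (1 + θ) (W x) := by
  have hII : 0 < II θ := II_pos h0
  by_cases hγ : 1 ≤ θ + 1 / 2
  · exact eigsum_ge h0 h1 hW h hII hγ
  · have hγ' : θ + 1 / 2 ≤ 1 := by linarith
    have hγ0 : 0 < θ + 1 / 2 := by linarith
    refine le_of_forall_pos_le_add fun η hη => ?_
    have hB : 0 < 2 * II θ * N + 1 := by positivity
    have hδ' : 0 < η / (2 * (2 * II θ * N + 1)) := by positivity
    have hδ : 0 < (η / (2 * (2 * II θ * N + 1))) ^ (1 / (θ + 1 / 2)) :=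
      Real.rpow_pos_of_pos hδ' _
    have h2 := eigsum_lt_aux h0 h1 hW h hII hγ' hδ (half_pos hη)
    rw [← Real.rpow_mul hδ'.le, one_div_mul_cancel hγ0.ne', Real.rpow_one] at h2
    have h3 : 2 * II θ * (N * (η / (2 * (2 * II θ * N + 1)))) ≤ η / 2 := by
      have e : 2 * II θ * (N * (η / (2 * (2 * II θ * N + 1))))
          = (η / 2) * ((2 * II θ * N) / (2 * II θ * N + 1)) := by
        field_simp
      rw [e]
      have h4 : (2 * II θ * N) / (2 * II θ * N + 1) ≤ 1 := by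
        rw [div_le_one hB]
        linarith
      calc (η / 2) * ((2 * II θ * N) / (2 * II θ * N + 1)) ≤ (η / 2) * 1 :=
            mul_le_mul_of_nonneg_left h4 (half_pos hη).le
        _ = η / 2 := mul_one _
    linarith

end Vale.Agent.P371.Gen
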