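import Vale.Agent.Lib.P371.Gen.EigSum
import Vale.Agent.Lib.P371.Gen.Const
import Vale.Agent.Lib.P371.LowerBound
import Vale.Agent.Lib.P371.Upper

/-! # P371 Gen: assembly 3: the theorem (module Final)

`core`: `T = Tm E` with `E` from `exists_corner` for `𝒲 G = pot θ f (Tm G)` on `[a,b]` from `tail`.
`cp ∫ trPow W + ∫ tp q (T gram T) ≥ ∫ rtr (T T Uᴴ W U)` (`young_int`)
`= ∫ rtr (T T U'ᴴ U') + rtr (T T Λ)` (`test_identity`, `Λ = diag(-λ_j)`)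
`≥ ∫_a^b rtr (𝒲 T gram T) - rtr (E T T) + rtr (T T Λ)` (`jbound_mat`)
`= (1+1/θ) ∫_a^b tp q (T gram T) + rtr (T T (Λ - E))`, so by `tail`
`cp ∫ trPow W ≥ (1/θ) ∫_a^b tp q (T gram T) + rtr (T T (Λ - E)) - ε`, and
`(1/θ) ∫_a^b tp q = cp ∫_a^b tp (1+θ) 𝒲 ≥ 2 II θ tp (θ+1/2) E` (`thmF`).

`eig_sum_le`: `γ = θ + 1/2`, `β = 2 II θ`. If `γ ≥ 1` take `Tm` constant, `T^2 = β γ Λ^{γ-1}` and
`alg_ge`; if `γ ≤ 1` take `Tm G = (β γ)^{1/2} (G + δ)^{(γ-1)/2}` (on `G ≥ 0`; continuity: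
`continuousOn_mf` for `t ↦ (max t 0 + δ)^{(γ-1)/2}`) and `alg_lt`, then `δ → 0`. -/

open Matrix Set MeasureTheory
open scoped ComplexOrder ENNReal

namespace Vale.Agent.P371.Gen

variable {m N : ℕ}

theorem LT_le {γ : ℝ} (h0 : 1 / 2 < γ) (h1 : γ < 3 / 2) (m : ℕ) :
    LT γ m ≤ ENNReal.ofReal (Lone γ) := by
  obtain ⟨θ, rfl⟩ : ∃ θ, γ = θ + 1 / 2 := ⟨γ - 1 / 2, by ring⟩
  have hθ0 : 0 < θ := by linarith
  have hθ1 : θ < 1 := by linarith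
  have hp : θ + 1 / 2 + 1 / 2 = 1 + θ := by ring
  unfold LT
  refine iSup_le fun W => iSup_le fun hW => iSup_le fun _ => ?_
  rw [hp] at hW
  refine ENNReal.div_le_of_le_mul ?_
  unfold negMoment
  refine iSup_le fun n => iSup_le fun lam => iSup_le fun h => ?_
  have h1 := eig_sum_le hθ0 hθ1 hW h
  have hII := II_pos hθ0
  have hint : Integrable (fun x => trPow (1 + θ) (W x)) := hW.integrable (by linarith)
  have hpot : potInt (θ + 1 / 2 + 1 / 2) W = ENNReal.ofReal (∫ x, trPow (1 + θ) (W x)) := by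
    rw [hp, ofReal_integral_eq_lintegral_ofReal hint
      (Filter.Eventually.of_forall fun x => trPow_nonneg (hW.posSemidef x) _)]
    rfl
  rw [hpot, ← cp_div hθ0, ← ENNReal.ofReal_mul (div_pos (cp_pos hθ0) (by linarith)).le,
    ← ENNReal.ofReal_sum_of_nonneg (fun j _ => Real.rpow_nonneg (abs_nonneg _) _)]
  refine ENNReal.ofReal_le_ofReal ?_
  rw [div_mul_eq_mul_div, le_div_iff₀ (by linarith)]
  linarith

theorem LT_eq {γ : ℝ} (h0 : 1 / 2 < γ) (h1 : γ < 3 / 2) {m : ℕ} (hm : 1 ≤ m) :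
    LT γ m = ENNReal.ofReal (Lone γ) :=
  le_antisymm (LT_le h0 h1 m) (Lone_le_LT h0 hm)

end Vale.Agent.P371.Gen
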