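import Vale.Agent.Lib.P371.Gen.FunA

/-! # P371 Gen: functional calculus, traces and eigenvalues (module FunB)

`mf f A = U * diagonal (f ∘ eigenvalues) * U*` for Hermitian `A` (`Matrix.IsHermitian.cfc_eq`).

`exists_ovl`: with eigenbases `e_i` of `A` and `f_j` of `B` take `w i j = |⟨e_i, f_j⟩|^2` (that is
`w i j = ‖(U_A^* U_B) i j‖^2`, a unitary matrix, whence the row and column sums are `1`); then
`tr (f(A) g(B)) = ∑ w i j f(a_i) g(b_j)`.

`norm_mf_entry_le`: `(f(A)) i j = ∑_k U i k f(a_k) conj (U j k)`, Cauchy-Schwarz with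
`∑_k |U i k|^2 = 1`. -/

open Matrix Set MeasureTheory
open scoped ComplexOrder

namespace Vale.Agent.P371.Gen

variable {n : Type*} [Fintype n] [DecidableEq n]

theorem funB_mf_eq {A : Matrix n n ℂ} (hA : A.IsHermitian) (f : ℝ → ℝ) :
    mf f A = (hA.eigenvectorUnitary : Matrix n n ℂ) *
      Matrix.diagonal (fun i => (f (hA.eigenvalues i) : ℂ)) *
      star (hA.eigenvectorUnitary : Matrix n n ℂ) := by
  unfold mf
  rw [hA.cfc_eq, IsHermitian.cfc, Unitary.conjStarAlgAut_apply]
  rfl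

theorem funB_A_eq {A : Matrix n n ℂ} (hA : A.IsHermitian) :
    A = (hA.eigenvectorUnitary : Matrix n n ℂ) *
      Matrix.diagonal (fun i => (hA.eigenvalues i : ℂ)) *
      star (hA.eigenvectorUnitary : Matrix n n ℂ) := by
  have h := hA.spectral_theorem
  rw [Unitary.conjStarAlgAut_apply] at h
  exact h

theorem funB_star_mul {A : Matrix n n ℂ} (hA : A.IsHermitian) :
    star (hA.eigenvectorUnitary : Matrix n n ℂ) * (hA.eigenvectorUnitary : Matrix n n ℂ) = 1 :=
  Unitary.coe_star_mul_self hA.eigenvectorUnitary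

theorem funB_mul_star {A : Matrix n n ℂ} (hA : A.IsHermitian) :
    (hA.eigenvectorUnitary : Matrix n n ℂ) * star (hA.eigenvectorUnitary : Matrix n n ℂ) = 1 :=
  Unitary.coe_mul_star_self hA.eigenvectorUnitary

theorem funB_row {V : Matrix n n ℂ} (hV : V * star V = 1) (i : n) :
    ∑ j, Complex.normSq (V i j) = 1 := by
  have h := congrFun (congrFun hV i) i
  rw [mul_apply, one_apply_eq] at h
  have h2 : ((∑ j, Complex.normSq (V i j) : ℝ) : ℂ) = 1 := by
    rw [← h]
    push_cast
    refine Finset.sum_congr rfl fun j _ => ?_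
    rw [star_apply, Complex.star_def, Complex.mul_conj]
  exact_mod_cast h2

theorem funB_col {V : Matrix n n ℂ} (hV : star V * V = 1) (j : n) :
    ∑ i, Complex.normSq (V i j) = 1 := by
  have h := congrFun (congrFun hV j) j
  rw [mul_apply, one_apply_eq] at h
  have h2 : ((∑ i, Complex.normSq (V i j) : ℝ) : ℂ) = 1 := by
    rw [← h]
    push_cast
    refine Finset.sum_congr rfl fun i _ => ?_
    rw [star_apply, Complex.star_def, mul_comm, Complex.mul_conj]
  exact_mod_cast h2

theorem funB_smul_eq {A : Matrix n n ℂ} (hA : A.IsHermitian) (c : ℝ) :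
    (c : ℂ) • (1 : Matrix n n ℂ) = (hA.eigenvectorUnitary : Matrix n n ℂ) *
      Matrix.diagonal (fun _ => (c : ℂ)) * star (hA.eigenvectorUnitary : Matrix n n ℂ) := by
  have h : Matrix.diagonal (fun _ : n => (c : ℂ)) = (c : ℂ) • (1 : Matrix n n ℂ) := by
    rw [smul_one_eq_diagonal]
  rw [h, Matrix.mul_smul, Matrix.mul_one, Matrix.smul_mul, funB_mul_star]

theorem funB_isUnit {A : Matrix n n ℂ} (hA : A.IsHermitian) :
    IsUnit (hA.eigenvectorUnitary : Matrix n n ℂ) := Unitary.isUnit_coe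

theorem rtr_mf {A : Matrix n n ℂ} (hA : A.IsHermitian) (f : ℝ → ℝ) :
    rtr (mf f A) = ∑ i, f (hA.eigenvalues i) := by
  unfold rtr
  rw [funB_mf_eq hA, Matrix.mul_assoc, Matrix.trace_mul_comm, Matrix.mul_assoc,
    funB_star_mul, Matrix.mul_one, trace_diagonal]
  simp

theorem exists_ovl {A B : Matrix n n ℂ} (hA : A.IsHermitian) (hB : B.IsHermitian) :
    ∃ w : n → n → ℝ, (∀ i j, 0 ≤ w i j) ∧ (∀ i, ∑ j, w i j = 1) ∧ (∀ j, ∑ i, w i j = 1) ∧
      ∀ f g : ℝ → ℝ, rtr (mf f A * mf g B)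
        = ∑ i, ∑ j, w i j * (f (hA.eigenvalues i) * g (hB.eigenvalues j)) := by
  set U : Matrix n n ℂ := (hA.eigenvectorUnitary : Matrix n n ℂ) with hU
  set W : Matrix n n ℂ := (hB.eigenvectorUnitary : Matrix n n ℂ) with hW
  set V : Matrix n n ℂ := star U * W with hV
  have hsV : star V = star W * U := by
    rw [hV, star_mul, star_star]
  have h1 : V * star V = 1 := by
    rw [hsV, hV]
    calc star U * W * (star W * U) = star U * (W * star W) * U := by noncomm_ring
      _ = 1 := by rw [hW, funB_mul_star, Matrix.mul_one, hU, funB_star_mul]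
  have h2 : star V * V = 1 := by
    rw [hsV, hV]
    calc star W * U * (star U * W) = star W * (U * star U) * W := by noncomm_ring
      _ = 1 := by rw [hU, funB_mul_star, Matrix.mul_one, hW, funB_star_mul]
  refine ⟨fun i j => Complex.normSq (V i j), fun i j => Complex.normSq_nonneg _,
    fun i => funB_row h1 i, fun j => funB_col h2 j, ?_⟩
  intro f g
  have h3 : mf f A * mf g B = U * (Matrix.diagonal (fun i => (f (hA.eigenvalues i) : ℂ)) * V *
      Matrix.diagonal (fun i => (g (hB.eigenvalues i) : ℂ)) * star W) := by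
    rw [funB_mf_eq hA, funB_mf_eq hB, ← hU, ← hW, hV]
    noncomm_ring
  have h4 : (mf f A * mf g B).trace = (Matrix.diagonal (fun i => (f (hA.eigenvalues i) : ℂ)) * V *
      Matrix.diagonal (fun i => (g (hB.eigenvalues i) : ℂ)) * star V).trace := by
    rw [h3, Matrix.trace_mul_comm, hsV]
    simp only [Matrix.mul_assoc]
  unfold rtr
  rw [h4]
  have h5 : (Matrix.diagonal (fun i => (f (hA.eigenvalues i) : ℂ)) * V *
      Matrix.diagonal (fun i => (g (hB.eigenvalues i) : ℂ)) * star V).trace =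
      ((∑ i, ∑ j, Complex.normSq (V i j) * (f (hA.eigenvalues i) * g (hB.eigenvalues j)) : ℝ) :
        ℂ) := by
    rw [Matrix.trace]
    push_cast
    refine Finset.sum_congr rfl fun i _ => ?_
    rw [diag_apply, mul_apply]
    refine Finset.sum_congr rfl fun j _ => ?_
    rw [mul_diagonal, diagonal_mul, star_apply, Complex.star_def, Complex.normSq_eq_conj_mul_self]
    ring
  rw [h5, Complex.ofReal_re]

/-- A function which is nonnegative on the spectrum gives a positive semidefinite matrix. -/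
theorem mf_posSemidef {A : Matrix n n ℂ} (hA : A.IsHermitian) {f : ℝ → ℝ}
    (h : ∀ i, 0 ≤ f (hA.eigenvalues i)) : (mf f A).PosSemidef := by
  rw [funB_mf_eq hA, (funB_isUnit hA).posSemidef_star_right_conjugate_iff,
    posSemidef_diagonal_iff]
  intro i
  exact Complex.zero_le_real.mpr (h i)

theorem mf_posDef {A : Matrix n n ℂ} (hA : A.IsHermitian) {f : ℝ → ℝ}
    (h : ∀ i, 0 < f (hA.eigenvalues i)) : (mf f A).PosDef := by
  rw [funB_mf_eq hA, (funB_isUnit hA).posDef_star_right_conjugate_iff, posDef_diagonal_iff]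
  intro i
  exact Complex.zero_lt_real.mpr (h i)

/-- Eigenvalues of a matrix which is `≥ c`. -/
theorem le_eigenvalues {A : Matrix n n ℂ} (hA : A.IsHermitian) {c : ℝ}
    (h : (A - (c : ℂ) • (1 : Matrix n n ℂ)).PosSemidef) (i : n) : c ≤ hA.eigenvalues i := by
  have h1 : A - (c : ℂ) • (1 : Matrix n n ℂ) = (hA.eigenvectorUnitary : Matrix n n ℂ) *
      Matrix.diagonal (fun i => ((hA.eigenvalues i - c : ℝ) : ℂ)) *
      star (hA.eigenvectorUnitary : Matrix n n ℂ) := by
    have h2 : Matrix.diagonal (fun i => ((hA.eigenvalues i - c : ℝ) : ℂ)) =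
        Matrix.diagonal (fun i => (hA.eigenvalues i : ℂ)) - Matrix.diagonal (fun _ => (c : ℂ)) := by
      rw [diagonal_sub]
      congr 1
      funext i
      push_cast
      ring
    rw [h2, Matrix.mul_sub, Matrix.sub_mul, ← funB_smul_eq hA c]
    congr 1
    exact funB_A_eq hA
  rw [h1, (funB_isUnit hA).posSemidef_star_right_conjugate_iff, posSemidef_diagonal_iff] at h
  have h3 := Complex.zero_le_real.mp (h i)
  linarith

/-- Eigenvalues of a matrix which is `≤ c`. -/
theorem eigenvalues_le {A : Matrix n n ℂ} (hA : A.IsHermitian) {c : ℝ}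
    (h : ((c : ℂ) • (1 : Matrix n n ℂ) - A).PosSemidef) (i : n) : hA.eigenvalues i ≤ c := by
  have h1 : (c : ℂ) • (1 : Matrix n n ℂ) - A = (hA.eigenvectorUnitary : Matrix n n ℂ) *
      Matrix.diagonal (fun i => ((c - hA.eigenvalues i : ℝ) : ℂ)) *
      star (hA.eigenvectorUnitary : Matrix n n ℂ) := by
    have h2 : Matrix.diagonal (fun i => ((c - hA.eigenvalues i : ℝ) : ℂ)) =
        Matrix.diagonal (fun _ => (c : ℂ)) - Matrix.diagonal (fun i => (hA.eigenvalues i : ℂ)) := by
      rw [diagonal_sub]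
      congr 1
      funext i
      push_cast
      ring
    rw [h2, Matrix.mul_sub, Matrix.sub_mul, ← funB_smul_eq hA c]
    congr 1
    exact funB_A_eq hA
  rw [h1, (funB_isUnit hA).posSemidef_star_right_conjugate_iff, posSemidef_diagonal_iff] at h
  have h3 := Complex.zero_le_real.mp (h i)
  linarith

/-- `|A i j|` is bounded by the largest `|eigenvalue|`. -/
theorem norm_mf_entry_le {A : Matrix n n ℂ} (hA : A.IsHermitian) {f : ℝ → ℝ} {C : ℝ}
    (h : ∀ i, |f (hA.eigenvalues i)| ≤ C) (i j : n) : ‖mf f A i j‖ ≤ C := by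
  have hC : 0 ≤ C := (abs_nonneg _).trans (h i)
  set U : Matrix n n ℂ := (hA.eigenvectorUnitary : Matrix n n ℂ) with hU
  have hrow : ∀ i, ∑ k, ‖U i k‖ ^ 2 = 1 := by
    intro i
    have h1 := funB_row (funB_mul_star hA) i
    rw [← hU] at h1
    simpa only [Complex.normSq_eq_norm_sq] using h1
  have h2 : mf f A i j = ∑ k, U i k * (f (hA.eigenvalues k) : ℂ) * star (U j k) := by
    rw [funB_mf_eq hA, ← hU, mul_apply]
    refine Finset.sum_congr rfl fun k _ => ?_
    rw [mul_diagonal, star_apply]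
  rw [h2]
  refine (norm_sum_le _ _).trans ?_
  have h3 : ∀ k ∈ (Finset.univ : Finset n), ‖U i k * (f (hA.eigenvalues k) : ℂ) * star (U j k)‖ ≤
      C * (‖U i k‖ ^ 2 / 2 + ‖U j k‖ ^ 2 / 2) := by
    intro k _
    rw [norm_mul, norm_mul, norm_star, Complex.norm_real, Real.norm_eq_abs]
    have h4 := h k
    have h5 : ‖U i k‖ * ‖U j k‖ ≤ ‖U i k‖ ^ 2 / 2 + ‖U j k‖ ^ 2 / 2 := by
      nlinarith [sq_nonneg (‖U i k‖ - ‖U j k‖)]
    calc ‖U i k‖ * |f (hA.eigenvalues k)| * ‖U j k‖ =
        |f (hA.eigenvalues k)| * (‖U i k‖ * ‖U j k‖) := by ring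
      _ ≤ C * (‖U i k‖ ^ 2 / 2 + ‖U j k‖ ^ 2 / 2) := by
        apply mul_le_mul h4 h5 (by positivity) hC
  refine (Finset.sum_le_sum h3).trans ?_
  rw [← Finset.mul_sum, Finset.sum_add_distrib, ← Finset.sum_div, ← Finset.sum_div, hrow, hrow]
  linarith

end Vale.Agent.P371.Gen
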