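import Vale.Agent.Lib.P371.Gen.Base

/-! # P371 Gen: traces of products (module FunC)

`rtr_mul_nonneg`: `tr (A B) = tr (A^{1/2} B A^{1/2}) ≥ 0` (or write `A = C* C`,
`Matrix.posSemidef_iff_eq_conjTranspose_mul_self`, then `tr (C* C B) = tr (C B C*)`, and
`(C B C*).PosSemidef`). `norm_entry_le_rtr`: `|A i j|^2 ≤ A i i A j j ≤ (tr A)^2` for `i ≠ j`
(the 2 x 2 minor; or write `A = C* C` and use Cauchy-Schwarz), and `|A i i| = A i i ≤ tr A`.
`le_rtr`: eigenvalues of `A` are `≥ 0` with sum `tr A`, hence each `≤ tr A`; or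
`x* A x ≤ ...` with `A = C* C`. -/

open Matrix Set MeasureTheory
open scoped ComplexOrder

namespace Vale.Agent.P371.Gen

variable {n : Type*} [Fintype n] [DecidableEq n]

open scoped MatrixOrder in
private theorem funC_sq {A : Matrix n n ℂ} (hA : A.PosSemidef) :
    ∃ C : Matrix n n ℂ, A = Cᴴ * C := by
  obtain ⟨C, hC⟩ := CStarAlgebra.nonneg_iff_eq_star_mul_self.mp hA.nonneg
  exact ⟨C, hC⟩

theorem abs_rtr_mul_le (M A : Matrix n n ℂ) {C : ℝ} (h : ∀ i j, ‖A i j‖ ≤ C) :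
    |rtr (M * A)| ≤ (∑ i, ∑ j, ‖M i j‖) * C := by
  have h1 : rtr (M * A) = ∑ i, ∑ j, (M i j * A j i).re := by
    unfold rtr Matrix.trace
    rw [Complex.re_sum]
    refine Finset.sum_congr rfl fun i _ => ?_
    rw [Matrix.diag_apply, Matrix.mul_apply, Complex.re_sum]
  rw [h1, Finset.sum_mul]
  refine (Finset.abs_sum_le_sum_abs _ _).trans (Finset.sum_le_sum fun i _ => ?_)
  rw [Finset.sum_mul]
  refine (Finset.abs_sum_le_sum_abs _ _).trans (Finset.sum_le_sum fun j _ => ?_)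
  refine (Complex.abs_re_le_norm _).trans ?_
  rw [norm_mul]
  exact mul_le_mul_of_nonneg_left (h j i) (norm_nonneg _)

theorem rtr_nonneg {A : Matrix n n ℂ} (hA : A.PosSemidef) : 0 ≤ rtr A :=
  (Complex.nonneg_iff.1 hA.trace_nonneg).1

theorem rtr_mul_nonneg {A B : Matrix n n ℂ} (hA : A.PosSemidef) (hB : B.PosSemidef) :
    0 ≤ rtr (A * B) := by
  obtain ⟨C, rfl⟩ := funC_sq hA
  have h1 : rtr (Cᴴ * C * B) = rtr (C * B * Cᴴ) := by
    unfold rtr
    rw [Matrix.mul_assoc, Matrix.trace_mul_comm]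
  rw [h1]
  exact rtr_nonneg (hB.mul_mul_conjTranspose_same C)

private theorem funC_diag (C : Matrix n n ℂ) (i : n) :
    ((Cᴴ * C) i i).re = ∑ k, ‖C k i‖ ^ 2 := by
  rw [Matrix.mul_apply, Complex.re_sum]
  refine Finset.sum_congr rfl fun k _ => ?_
  rw [Matrix.conjTranspose_apply, Complex.star_def, ← Complex.normSq_eq_conj_mul_self,
    Complex.ofReal_re, Complex.normSq_eq_norm_sq]

private theorem funC_rtr (C : Matrix n n ℂ) : rtr (Cᴴ * C) = ∑ i, ∑ k, ‖C k i‖ ^ 2 := by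
  unfold rtr Matrix.trace
  rw [Complex.re_sum]
  exact Finset.sum_congr rfl fun i _ => funC_diag C i

/-- Entries of a positive semidefinite matrix are bounded by its trace. -/
theorem norm_entry_le_rtr {A : Matrix n n ℂ} (hA : A.PosSemidef) (i j : n) : ‖A i j‖ ≤ rtr A := by
  obtain ⟨C, rfl⟩ := funC_sq hA
  have h0 : ∀ i, ∑ k, ‖C k i‖ ^ 2 ≤ rtr (Cᴴ * C) := by
    intro i
    rw [funC_rtr]
    exact Finset.single_le_sum (f := fun i => ∑ k, ‖C k i‖ ^ 2)
      (fun i _ => Finset.sum_nonneg fun k _ => sq_nonneg _) (Finset.mem_univ i)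
  have hr := rtr_nonneg (Matrix.posSemidef_conjTranspose_mul_self C)
  have h1 : ‖(Cᴴ * C) i j‖ ≤ ∑ k, ‖C k i‖ * ‖C k j‖ := by
    rw [Matrix.mul_apply]
    refine (norm_sum_le _ _).trans (Finset.sum_le_sum fun k _ => ?_)
    rw [norm_mul, Matrix.conjTranspose_apply, norm_star]
  have h2 := Finset.sum_mul_sq_le_sq_mul_sq (Finset.univ : Finset n)
    (fun k => ‖C k i‖) (fun k => ‖C k j‖)
  have h3 : (∑ k, ‖C k i‖ * ‖C k j‖) ^ 2 ≤ rtr (Cᴴ * C) ^ 2 := by
    refine h2.trans ?_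
    rw [sq (rtr (Cᴴ * C))]
    exact mul_le_mul (h0 i) (h0 j) (Finset.sum_nonneg fun k _ => sq_nonneg _) hr
  exact h1.trans (abs_le_of_sq_le_sq' h3 hr).2

/-- `A ≤ (tr A) 1`. -/
theorem le_rtr {A : Matrix n n ℂ} (hA : A.PosSemidef) :
    (((rtr A : ℝ) : ℂ) • (1 : Matrix n n ℂ) - A).PosSemidef := by
  obtain ⟨C, rfl⟩ := funC_sq hA
  have hH : (((rtr (Cᴴ * C) : ℝ) : ℂ) • (1 : Matrix n n ℂ) - Cᴴ * C).IsHermitian := by
    refine Matrix.IsHermitian.sub ?_ hA.isHermitian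
    unfold Matrix.IsHermitian
    rw [Matrix.conjTranspose_smul, Matrix.conjTranspose_one, Complex.star_def,
      Complex.conj_ofReal]
  refine Matrix.PosSemidef.of_dotProduct_mulVec_nonneg hH fun x => ?_
  have h1 : star x ⬝ᵥ ((Cᴴ * C) *ᵥ x) = ((∑ k, ‖(C *ᵥ x) k‖ ^ 2 : ℝ) : ℂ) := by
    rw [← Matrix.mulVec_mulVec, Matrix.dotProduct_mulVec, ← Matrix.star_mulVec]
    unfold dotProduct
    rw [Complex.ofReal_sum]
    refine Finset.sum_congr rfl fun k _ => ?_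
    rw [Pi.star_apply, Complex.star_def, ← Complex.normSq_eq_conj_mul_self,
      Complex.normSq_eq_norm_sq]
  have h2 : star x ⬝ᵥ x = ((∑ k, ‖x k‖ ^ 2 : ℝ) : ℂ) := by
    unfold dotProduct
    rw [Complex.ofReal_sum]
    refine Finset.sum_congr rfl fun k _ => ?_
    rw [Pi.star_apply, Complex.star_def, ← Complex.normSq_eq_conj_mul_self,
      Complex.normSq_eq_norm_sq]
  rw [Matrix.sub_mulVec, dotProduct_sub, Matrix.smul_mulVec, Matrix.one_mulVec, dotProduct_smul,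
    h1, h2, smul_eq_mul, ← Complex.ofReal_mul, ← Complex.ofReal_sub, Complex.zero_le_real,
    sub_nonneg, funC_rtr, Finset.sum_comm, Finset.sum_mul]
  refine Finset.sum_le_sum fun k _ => ?_
  have h3 : ‖(C *ᵥ x) k‖ ≤ ∑ j, ‖C k j‖ * ‖x j‖ := by
    unfold Matrix.mulVec dotProduct
    refine (norm_sum_le _ _).trans (Finset.sum_le_sum fun j _ => ?_)
    rw [norm_mul]
  have h4 := Finset.sum_mul_sq_le_sq_mul_sq (Finset.univ : Finset n)
    (fun j => ‖C k j‖) (fun j => ‖x j‖)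
  exact (pow_le_pow_left₀ (norm_nonneg _) h3 2).trans h4

end Vale.Agent.P371.Gen
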