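import Vale.Agent.Lib.P371.Gen.Base

/-! # P371 Gen: functional calculus, algebra (module FunA)

All are elementary. `mf f A = cfc f A`, and for Hermitian `A` Mathlib has
`Matrix.IsHermitian.cfc_eq : cfc f A = hA.cfc f = U * diagonal (f ∘ eigenvalues) * U*`.
Every function is continuous on the (finite) spectrum. If `A` is not Hermitian, `cfc f A = 0`. -/

open Matrix Set MeasureTheory
open scoped ComplexOrder

namespace Vale.Agent.P371.Gen

variable {n : Type*} [Fintype n] [DecidableEq n]

/-- Every function is continuous on the finite real spectrum of a matrix. -/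
theorem mf_contOn (f : ℝ → ℝ) (A : Matrix n n ℂ) : ContinuousOn f (spectrum ℝ A) :=
  (Matrix.finite_real_spectrum (A := A)).continuousOn f

theorem mf_isHermitian (f : ℝ → ℝ) (A : Matrix n n ℂ) : (mf f A).IsHermitian := by
  have h : IsSelfAdjoint (cfc f A) := cfc_predicate f A
  exact h

theorem mf_congr {f g : ℝ → ℝ} {A : Matrix n n ℂ} (hA : A.IsHermitian)
    (h : ∀ i, f (hA.eigenvalues i) = g (hA.eigenvalues i)) : mf f A = mf g A := by
  unfold mf
  refine cfc_congr ?_
  intro x hx
  rw [hA.spectrum_real_eq_range_eigenvalues] at hx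
  obtain ⟨i, rfl⟩ := hx
  exact h i

theorem mf_id {A : Matrix n n ℂ} (hA : A.IsHermitian) : mf (fun t => t) A = A := by
  have h : IsSelfAdjoint A := hA
  exact cfc_id' ℝ A

theorem mf_const {A : Matrix n n ℂ} (hA : A.IsHermitian) (c : ℝ) :
    mf (fun _ => c) A = (c : ℂ) • (1 : Matrix n n ℂ) := by
  have h : IsSelfAdjoint A := hA
  unfold mf
  rw [cfc_const c A]
  rw [Algebra.algebraMap_eq_smul_one]
  ext i j
  simp [Matrix.smul_apply]

theorem mf_add {A : Matrix n n ℂ} (hA : A.IsHermitian) (f g : ℝ → ℝ) :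
    mf (fun t => f t + g t) A = mf f A + mf g A := by
  have h : IsSelfAdjoint A := hA
  exact cfc_add A f g (mf_contOn f A) (mf_contOn g A)

theorem mf_sub {A : Matrix n n ℂ} (hA : A.IsHermitian) (f g : ℝ → ℝ) :
    mf (fun t => f t - g t) A = mf f A - mf g A := by
  have h : IsSelfAdjoint A := hA
  exact cfc_sub f g A (mf_contOn f A) (mf_contOn g A)

theorem mf_const_mul {A : Matrix n n ℂ} (hA : A.IsHermitian) (c : ℝ) (f : ℝ → ℝ) :
    mf (fun t => c * f t) A = (c : ℂ) • mf f A := by
  have h : IsSelfAdjoint A := hA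
  have h1 : cfc (fun t => c * f t) A = c • cfc f A := cfc_const_mul c f A (mf_contOn f A)
  unfold mf
  rw [h1]
  ext i j
  simp [Matrix.smul_apply]

theorem mf_mul {A : Matrix n n ℂ} (hA : A.IsHermitian) (f g : ℝ → ℝ) :
    mf (fun t => f t * g t) A = mf f A * mf g A := by
  have h : IsSelfAdjoint A := hA
  exact cfc_mul f g A (mf_contOn f A) (mf_contOn g A)

theorem mf_comp {A : Matrix n n ℂ} (hA : A.IsHermitian) (f g : ℝ → ℝ) :
    mf f (mf g A) = mf (fun t => f (g t)) A := by
  have h : IsSelfAdjoint A := hA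
  have hfin : (g '' spectrum ℝ A).Finite := (Matrix.finite_real_spectrum (A := A)).image g
  exact (cfc_comp' f g A (hfin.continuousOn f) (mf_contOn g A)).symm

end Vale.Agent.P371.Gen
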