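import Vale.Agent.Lib.P371.Gen.Resolv
import Vale.Agent.Lib.P371.Gen.Cont

/-! # P371 Gen: derivative of the matrix logarithm (module LogD)

`log A = ∫_0^∞ ((1+t)⁻¹ - (A+t)⁻¹) dt` entrywise (eigenbasis: `∫_0^∞ (1/(1+t) - 1/(a+t)) dt
= log a`). For fixed `t`, `(d/dl) (P(l)+t)⁻¹ = -(P+t)⁻¹ P' (P+t)⁻¹`. Near a point `l₀` one has
`P(l) ≥ c > 0` and `P'` bounded, so `‖((P+t)⁻¹ P' (P+t)⁻¹) i j‖ ≤ C/(c+t)^2`, and
`hasDerivAt_integral_of_dominated_loc_of_deriv_le` applies.

Alternative without differentiation under the integral: the exact identity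
`log A - log B = ∫_0^∞ (B+t)⁻¹ (A - B) (A+t)⁻¹ dt` and continuity. -/

open Matrix Set MeasureTheory
open scoped ComplexOrder

namespace Vale.Agent.P371.Gen

variable {n : Type*} [Fintype n] [DecidableEq n]

theorem logd_scalar {a : ℝ} (ha : 0 < a) :
    IntegrableOn (fun t => 1 / (1 + t) - 1 / (a + t)) (Ioi 0) ∧
      ∫ t in Ioi (0 : ℝ), (1 / (1 + t) - 1 / (a + t)) = Real.log a := by
  have hd : ∀ x ∈ Ici (0:ℝ), HasDerivAt (fun t => Real.log (1 + t) - Real.log (a + t))
      (1 / (1 + x) - 1 / (a + x)) x := by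
    intro x hx
    have hx' : (0:ℝ) ≤ x := hx
    have h1 : HasDerivAt (fun t => Real.log (1 + t)) (1 / (1 + x)) x :=
      ((hasDerivAt_id x).const_add 1).log (by simp; linarith)
    have h2 : HasDerivAt (fun t => Real.log (a + t)) (1 / (a + x)) x :=
      ((hasDerivAt_id x).const_add a).log (by simp; linarith)
    exact h1.sub h2
  have hlim : Filter.Tendsto (fun t : ℝ => Real.log (1 + t) - Real.log (a + t)) Filter.atTop
      (nhds 0) := by
    have h1 : Filter.Tendsto (fun t : ℝ => (1 - a) / (a + t)) Filter.atTop (nhds 0) :=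
      Filter.Tendsto.div_atTop tendsto_const_nhds
        (Filter.tendsto_atTop_add_const_left _ _ Filter.tendsto_id)
    have h2 : Filter.Tendsto (fun t : ℝ => 1 + (1 - a) / (a + t)) Filter.atTop (nhds 1) := by
      simpa using h1.const_add 1
    have h3 : Filter.Tendsto (fun t : ℝ => Real.log (1 + (1 - a) / (a + t))) Filter.atTop
        (nhds 0) := by
      have := (Real.continuousAt_log one_ne_zero).tendsto.comp h2
      rw [Real.log_one] at this
      exact this
    refine h3.congr' ?_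
    filter_upwards [Filter.eventually_ge_atTop (0:ℝ)] with t ht
    have h4 : 1 + (1 - a) / (a + t) = (1 + t) / (a + t) := by
      have : a + t ≠ 0 := by linarith
      field_simp
      ring
    rw [h4, Real.log_div (by linarith) (by linarith)]
  have hint : IntegrableOn (fun t => 1 / (1 + t) - 1 / (a + t)) (Ioi 0) := by
    rcases le_total 1 a with h | h
    · refine integrableOn_Ioi_deriv_of_nonneg' hd (fun x hx => ?_) hlim
      have hx' : (0:ℝ) < x := hx
      rw [sub_nonneg]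
      exact one_div_le_one_div_of_le (by linarith) (by linarith)
    · refine integrableOn_Ioi_deriv_of_nonpos' hd (fun x hx => ?_) hlim
      have hx' : (0:ℝ) < x := hx
      rw [sub_nonpos]
      exact one_div_le_one_div_of_le (by linarith) (by linarith)
  refine ⟨hint, ?_⟩
  rw [integral_Ioi_of_hasDerivAt_of_tendsto' hd hint hlim]
  simp

theorem logd_sq {c : ℝ} (hc : 0 < c) : IntegrableOn (fun t => 1 / (c + t) ^ 2) (Ioi 0) := by
  have hd : ∀ x ∈ Ici (0:ℝ), HasDerivAt (fun t => - (c + t)⁻¹) (1 / (c + x) ^ 2) x := by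
    intro x hx
    have hx' : (0:ℝ) ≤ x := hx
    have h1 := (((hasDerivAt_id x).const_add c).inv (by simp; linarith)).neg
    simp only [id] at h1
    have h2 : -(-1 / (c + x) ^ 2) = 1 / (c + x) ^ 2 := by ring
    rw [h2] at h1
    exact h1
  have hlim : Filter.Tendsto (fun t : ℝ => - (c + t)⁻¹) Filter.atTop (nhds 0) := by
    have h1 : Filter.Tendsto (fun t : ℝ => (c + t)⁻¹) Filter.atTop (nhds 0) :=
      Filter.Tendsto.inv_tendsto_atTop
        (Filter.tendsto_atTop_add_const_left _ _ Filter.tendsto_id)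
    simpa using h1.neg
  refine integrableOn_Ioi_deriv_of_nonneg' hd (fun x hx => ?_) hlim
  positivity

theorem logd_coef {A : Matrix n n ℂ} (hA : A.IsHermitian) :
    ∃ c : n → n → n → ℂ, ∀ (f : ℝ → ℝ) (i j : n),
      mf f A i j = ∑ k, ((f (hA.eigenvalues k) : ℝ) : ℂ) * c k i j := by
  refine ⟨fun k i j => (hA.eigenvectorUnitary : Matrix n n ℂ) i k *
    (star (hA.eigenvectorUnitary : Matrix n n ℂ)) k j, fun f i j => ?_⟩
  unfold mf
  rw [hA.cfc_eq]
  unfold Matrix.IsHermitian.cfc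
  rw [Unitary.conjStarAlgAut_apply, Matrix.mul_apply]
  refine Finset.sum_congr rfl fun k _ => ?_
  rw [Matrix.mul_diagonal]
  simp only [Function.comp_apply]
  have : (RCLike.ofReal (f (hA.eigenvalues k)) : ℂ) = ((f (hA.eigenvalues k) : ℝ) : ℂ) := rfl
  rw [this]
  ring

theorem logd_int_rep {P : Matrix n n ℂ} (hP : P.PosDef) (i j : n) :
    IntegrableOn (fun t : ℝ => ((1 / (1 + t) : ℝ) : ℂ) * (1 : Matrix n n ℂ) i j - Rs P t i j)
      (Ioi 0) ∧
    ∫ t in Ioi (0 : ℝ), (((1 / (1 + t) : ℝ) : ℂ) * (1 : Matrix n n ℂ) i j - Rs P t i j) =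
      mf Real.log P i j := by
  have hA := hP.isHermitian
  obtain ⟨c, hc⟩ := logd_coef hA
  have h1 : ∀ t ∈ Ioi (0:ℝ), ((1 / (1 + t) : ℝ) : ℂ) * (1 : Matrix n n ℂ) i j - Rs P t i j =
      ∑ k, ((1 / (1 + t) - 1 / (hA.eigenvalues k + t) : ℝ) : ℂ) * c k i j := by
    intro t ht
    have ht' : (0:ℝ) < t := ht
    have e1 : (1 : Matrix n n ℂ) = mf (fun _ => 1) P := by
      rw [mf_const hA]; simp
    rw [Rs_eq_mf hP ht'.le, e1, hc, hc, Finset.mul_sum, ← Finset.sum_sub_distrib]
    refine Finset.sum_congr rfl fun k _ => ?_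
    push_cast
    ring
  have hint : ∀ k ∈ Finset.univ, IntegrableOn
      (fun t : ℝ => ((1 / (1 + t) - 1 / (hA.eigenvalues k + t) : ℝ) : ℂ) * c k i j) (Ioi 0) := by
    intro k _
    exact ((logd_scalar (hP.eigenvalues_pos k)).1.ofReal (𝕜 := ℂ)).mul_const _
  constructor
  · refine IntegrableOn.congr_fun (f := fun t : ℝ =>
      ∑ k, ((1 / (1 + t) - 1 / (hA.eigenvalues k + t) : ℝ) : ℂ) * c k i j) ?_
      (fun t ht => (h1 t ht).symm) measurableSet_Ioi
    exact integrable_finsetSum _ hint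
  · rw [setIntegral_congr_fun measurableSet_Ioi h1, integral_finsetSum _ hint, hc]
    refine Finset.sum_congr rfl fun k _ => ?_
    rw [integral_mul_const]
    congr 1
    rw [← (logd_scalar (hP.eigenvalues_pos k)).2]
    exact integral_ofReal

theorem logd_norm_Rs {P : Matrix n n ℂ} (hP : P.PosDef) {c : ℝ} (hc : 0 < c)
    (h : (P - (c : ℂ) • (1 : Matrix n n ℂ)).PosSemidef) {t : ℝ} (ht : 0 ≤ t) (i j : n) :
    ‖Rs P t i j‖ ≤ 1 / (c + t) := by
  rw [Rs_eq_mf hP ht]
  refine norm_mf_entry_le hP.isHermitian (fun k => ?_) i j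
  have h1 := le_eigenvalues hP.isHermitian h k
  rw [abs_of_nonneg (div_nonneg zero_le_one (by linarith))]
  exact one_div_le_one_div_of_le (by linarith) (by linarith)

theorem logd_isUnit {P : Matrix n n ℂ} (hP : P.PosDef) {t : ℝ} (ht : 0 ≤ t) :
    IsUnit (P + (t : ℂ) • (1 : Matrix n n ℂ)) := by
  refine (hP.add_posSemidef ?_).isUnit
  exact Matrix.PosSemidef.smul Matrix.PosSemidef.one (by exact_mod_cast ht)

theorem logd_sub {P Q : Matrix n n ℂ} (hP : P.PosDef) (hQ : Q.PosDef) {t : ℝ} (ht : 0 ≤ t) :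
    Rs P t - Rs Q t = Rs P t * (Q - P) * Rs Q t := by
  unfold Rs
  have h1 := logd_isUnit hP ht
  have h2 := logd_isUnit hQ ht
  rw [Matrix.inv_sub_inv (iff_of_true h1 h2), add_sub_add_right_eq_sub]

theorem logd_contAt {P : ℝ → Matrix n n ℂ} {l t : ℝ} (hc : ContinuousAt P l) (hP : (P l).PosDef)
    (ht : 0 ≤ t) : ContinuousAt (fun x => Rs (P x) t) l := by
  have h1 : ContinuousAt (fun x => P x + (t : ℂ) • (1 : Matrix n n ℂ)) l :=
    hc.add continuousAt_const
  have h2 : ContinuousAt (fun A : Matrix n n ℂ => A⁻¹) (P l + (t : ℂ) • (1 : Matrix n n ℂ)) := by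
    have e : (fun A : Matrix n n ℂ => A⁻¹) = fun A => (A.det)⁻¹ • A.adjugate := by
      funext A
      rw [Matrix.inv_def, Ring.inverse_eq_inv']
    rw [e]
    have hdet : (P l + (t : ℂ) • (1 : Matrix n n ℂ)).det ≠ 0 :=
      ((Matrix.isUnit_iff_isUnit_det _).mp (logd_isUnit hP ht)).ne_zero
    exact ContinuousAt.smul (ContinuousAt.inv₀ (Continuous.matrix_det continuous_id).continuousAt
      hdet) (Continuous.matrix_adjugate continuous_id).continuousAt
  exact ContinuousAt.comp (f := fun x => P x + (t : ℂ) • (1 : Matrix n n ℂ)) h2 h1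

theorem logd_norm_RHR {P Q H : Matrix n n ℂ} (hP : P.PosDef) (hQ : Q.PosDef) {c : ℝ} (hc : 0 < c)
    (h : (P - (c : ℂ) • (1 : Matrix n n ℂ)).PosSemidef)
    (h' : (Q - (c : ℂ) • (1 : Matrix n n ℂ)).PosSemidef) {t : ℝ} (ht : 0 ≤ t) {M : ℝ}
    (hM : ∑ k, ∑ m, ‖H k m‖ ≤ M) (i j : n) :
    ‖(Rs P t * H * Rs Q t) i j‖ ≤ M * (1 / (c + t) ^ 2) := by
  have hpos : 0 < c + t := by linarith
  have h1 : ‖(Rs P t * H * Rs Q t) i j‖ ≤ ∑ m, ∑ k, ‖H k m‖ * (1 / (c + t) ^ 2) := by
    rw [Matrix.mul_apply]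
    refine (norm_sum_le _ _).trans (Finset.sum_le_sum fun m _ => ?_)
    rw [norm_mul, Matrix.mul_apply]
    have h2 : ‖∑ k, Rs P t i k * H k m‖ ≤ ∑ k, 1 / (c + t) * ‖H k m‖ := by
      refine (norm_sum_le _ _).trans (Finset.sum_le_sum fun k _ => ?_)
      rw [norm_mul]
      exact mul_le_mul_of_nonneg_right (logd_norm_Rs hP hc h ht i k) (norm_nonneg _)
    calc ‖∑ k, Rs P t i k * H k m‖ * ‖Rs Q t m j‖
        ≤ (∑ k, 1 / (c + t) * ‖H k m‖) * (1 / (c + t)) :=
          mul_le_mul h2 (logd_norm_Rs hQ hc h' ht m j) (norm_nonneg _)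
            (Finset.sum_nonneg fun k _ => mul_nonneg (by positivity) (norm_nonneg _))
      _ = ∑ k, ‖H k m‖ * (1 / (c + t) ^ 2) := by
          rw [Finset.sum_mul]
          refine Finset.sum_congr rfl fun k _ => ?_
          field_simp
  refine h1.trans ?_
  rw [Finset.sum_comm]
  have h3 : ∑ k, ∑ m, ‖H k m‖ * (1 / (c + t) ^ 2) = (∑ k, ∑ m, ‖H k m‖) * (1 / (c + t) ^ 2) := by
    rw [Finset.sum_mul]
    refine Finset.sum_congr rfl fun k _ => ?_
    rw [Finset.sum_mul]
  rw [h3]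
  exact mul_le_mul_of_nonneg_right hM (by positivity)

theorem logd_cont_Rs {P : Matrix n n ℂ} (hP : P.PosDef) (i j : n) :
    ContinuousOn (fun t => Rs P t i j) (Ioi 0) := by
  have hA := hP.isHermitian
  obtain ⟨c, hc⟩ := logd_coef hA
  refine ContinuousOn.congr (f := fun t : ℝ =>
    ∑ k, ((1 / (hA.eigenvalues k + t) : ℝ) : ℂ) * c k i j) ?_ (fun t ht => ?_)
  · refine continuousOn_finsetSum _ fun k _ => ContinuousOn.mul ?_ continuousOn_const
    refine Complex.continuous_ofReal.comp_continuousOn ?_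
    refine ContinuousOn.div continuousOn_const (by fun_prop) fun t ht => ?_
    have ht' : (0:ℝ) < t := ht
    have := hP.eigenvalues_pos k
    linarith
  · have ht' : (0:ℝ) < t := ht
    show Rs P t i j = _
    rw [Rs_eq_mf hP ht'.le, hc]

theorem logd_cont_RHR {P Q : Matrix n n ℂ} (H : Matrix n n ℂ) (hP : P.PosDef) (hQ : Q.PosDef)
    (i j : n) : ContinuousOn (fun t => (Rs P t * H * Rs Q t) i j) (Ioi 0) := by
  simp only [Matrix.mul_apply]
  refine continuousOn_finsetSum _ fun k _ => ContinuousOn.mul ?_ (logd_cont_Rs hQ k j)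
  refine continuousOn_finsetSum _ fun m _ => ContinuousOn.mul (logd_cont_Rs hP i m) ?_
  exact continuousOn_const

/-- a positive definite matrix is bounded below -/
theorem logd_lower {P : Matrix n n ℂ} (hP : P.PosDef) :
    ∃ c : ℝ, 0 < c ∧ (P - (c : ℂ) • (1 : Matrix n n ℂ)).PosSemidef := by
  have hA := hP.isHermitian
  have hpos := fun k => hP.eigenvalues_pos k
  have hS : 0 ≤ ∑ k, 1 / hA.eigenvalues k :=
    Finset.sum_nonneg fun k _ => by have := hpos k; positivity
  refine ⟨1 / (1 + ∑ k, 1 / hA.eigenvalues k), by positivity, ?_⟩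
  set c := 1 / (1 + ∑ k, 1 / hA.eigenvalues k) with hc
  have h1 : P - (c : ℂ) • (1 : Matrix n n ℂ) = mf (fun t => t - c) P := by
    rw [mf_sub hA, mf_id hA, mf_const hA]
  rw [h1]
  refine mf_posSemidef hA fun k => ?_
  have h2 : 1 / hA.eigenvalues k ≤ ∑ k, 1 / hA.eigenvalues k :=
    Finset.single_le_sum (f := fun k => 1 / hA.eigenvalues k)
      (fun m _ => by have := hpos m; positivity) (Finset.mem_univ k)
  have h3 : c ≤ hA.eigenvalues k := by
    rw [hc, div_le_iff₀ (by positivity)]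
    have h4 : hA.eigenvalues k * (1 / hA.eigenvalues k) = 1 := by
      have := hpos k
      field_simp
    have h5 := mul_le_mul_of_nonneg_left h2 (hpos k).le
    have h6 := hpos k
    nlinarith
  show 0 ≤ hA.eigenvalues k - c
  linarith

/-- small perturbations -/
theorem logd_pert {D : Matrix n n ℂ} (hD : D.IsHermitian) {c : ℝ} (hc : 0 ≤ c)
    (h : ∀ i j, ‖D i j‖ ≤ c / (Fintype.card n + 1)) :
    (D + (c : ℂ) • (1 : Matrix n n ℂ)).PosSemidef := by
  have h1 : D + (c : ℂ) • (1 : Matrix n n ℂ) = mf (fun t => t + c) D := by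
    rw [mf_add hD, mf_id hD, mf_const hD]
  rw [h1]
  refine mf_posSemidef hD fun k => ?_
  have hN : (0:ℝ) ≤ Fintype.card n := Nat.cast_nonneg _
  have h2 : rtr (D * D) = ∑ k, hD.eigenvalues k ^ 2 := by
    have e : D * D = mf (fun t => t * t) D := by
      rw [mf_mul hD, mf_id hD]
    rw [e, rtr_mf hD]
    refine Finset.sum_congr rfl fun k _ => ?_
    ring
  have h3 := abs_rtr_mul_le D D h
  have h4 : (∑ i, ∑ j, ‖D i j‖) ≤ Fintype.card n * (Fintype.card n * (c / (Fintype.card n + 1))) := by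
    calc (∑ i, ∑ j, ‖D i j‖) ≤ ∑ _i : n, ∑ _j : n, c / (Fintype.card n + 1) :=
          Finset.sum_le_sum fun i _ => Finset.sum_le_sum fun j _ => h i j
      _ = Fintype.card n * (Fintype.card n * (c / (Fintype.card n + 1))) := by
          simp [Finset.sum_const, Finset.card_univ, nsmul_eq_mul]
  have h5 : (Fintype.card n : ℝ) * (c / (Fintype.card n + 1)) ≤ c := by
    rw [mul_div_assoc', div_le_iff₀ (by positivity)]
    nlinarith
  have h6 : 0 ≤ (Fintype.card n : ℝ) * (c / (Fintype.card n + 1)) := by positivity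
  have h7 : rtr (D * D) ≤ c ^ 2 := by
    calc rtr (D * D) ≤ |rtr (D * D)| := le_abs_self _
      _ ≤ (∑ i, ∑ j, ‖D i j‖) * (c / (Fintype.card n + 1)) := h3
      _ ≤ Fintype.card n * (Fintype.card n * (c / (Fintype.card n + 1))) *
          (c / (Fintype.card n + 1)) := mul_le_mul_of_nonneg_right h4 (by positivity)
      _ = ((Fintype.card n : ℝ) * (c / (Fintype.card n + 1))) ^ 2 := by ring
      _ ≤ c ^ 2 := pow_le_pow_left₀ h6 h5 2
  have h8 : hD.eigenvalues k ^ 2 ≤ c ^ 2 := by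
    refine le_trans ?_ h7
    rw [h2]
    exact Finset.single_le_sum (f := fun k => hD.eigenvalues k ^ 2) (fun m _ => sq_nonneg _)
      (Finset.mem_univ k)
  have h9 := abs_le_of_sq_le_sq' h8 hc
  show 0 ≤ hD.eigenvalues k + c
  linarith [h9.1]

/-- Derivative of `M ↦ log` along a differentiable path of positive definite matrices. Here `U` is
an open interval on which everything is defined. -/
theorem hasDerivAt_mf_log {P P' : ℝ → Matrix n n ℂ} {U : Set ℝ} (hU : IsOpen U)
    (hP : ∀ l ∈ U, ∀ i j, HasDerivAt (fun t => P t i j) (P' l i j) l)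
    (hP'c : ∀ i j, ContinuousOn (fun t => P' t i j) U)
    (hpd : ∀ l ∈ U, (P l).PosDef) {l : ℝ} (hl : l ∈ U) (i j : n) :
    HasDerivAt (fun t => mf Real.log (P t) i j)
      (∫ t in Ioi (0 : ℝ), (Rs (P l) t * P' l * Rs (P l) t) i j) l := by
  have hPl := hpd l hl
  have hcP : ContinuousAt P l :=
    continuousAt_pi.mpr fun i => continuousAt_pi.mpr fun j => (hP l hl i j).continuousAt
  obtain ⟨c0, hc0, hc0P⟩ := logd_lower hPl
  set c : ℝ := c0 / 2 with hc
  have hcpos : 0 < c := by positivity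
  have hcard : (0:ℝ) < c / (Fintype.card n + 1) := by positivity
  -- the neighbourhood
  have ev1 : ∀ᶠ x in nhdsWithin l {l}ᶜ, x ∈ U :=
    Filter.Eventually.filter_mono nhdsWithin_le_nhds (hU.mem_nhds hl)
  have ev2 : ∀ᶠ x in nhdsWithin l {l}ᶜ, ∀ i j, ‖(P x - P l) i j‖ ≤ c / (Fintype.card n + 1) := by
    refine Filter.Eventually.filter_mono nhdsWithin_le_nhds ?_
    refine Filter.eventually_all.mpr fun i => Filter.eventually_all.mpr fun j => ?_
    have h1 : Filter.Tendsto (fun x => P x i j - P l i j) (nhds l) (nhds 0) := by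
      have := (hP l hl i j).continuousAt.tendsto.sub_const (P l i j)
      simpa using this
    have h2 := h1.norm
    rw [norm_zero] at h2
    filter_upwards [h2.eventually (gt_mem_nhds hcard)] with x hx
    exact hx.le
  have ev3 : ∀ᶠ x in nhdsWithin l {l}ᶜ, (P x - (c : ℂ) • (1 : Matrix n n ℂ)).PosSemidef := by
    filter_upwards [ev1, ev2] with x h1 h2
    have h3 := logd_pert ((hpd x h1).isHermitian.sub hPl.isHermitian) hcpos.le h2
    have h4 : P x - (c : ℂ) • (1 : Matrix n n ℂ) =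
        (P l - (c0 : ℂ) • (1 : Matrix n n ℂ)) + ((P x - P l) + (c : ℂ) • (1 : Matrix n n ℂ)) := by
      have h5 : (c0 : ℂ) = (c : ℂ) + (c : ℂ) := by
        rw [hc]; push_cast; ring
      rw [h5, add_smul]
      abel
    rw [h4]
    exact hc0P.add h3
  have hcPl : (P l - (c : ℂ) • (1 : Matrix n n ℂ)).PosSemidef := by
    have h4 : P l - (c : ℂ) • (1 : Matrix n n ℂ) =
        (P l - (c0 : ℂ) • (1 : Matrix n n ℂ)) + (c : ℂ) • (1 : Matrix n n ℂ) := by
      have h5 : (c0 : ℂ) = (c : ℂ) + (c : ℂ) := by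
        rw [hc]; push_cast; ring
      rw [h5, add_smul]
      abel
    rw [h4]
    exact hc0P.add (Matrix.PosSemidef.smul Matrix.PosSemidef.one (by exact_mod_cast hcpos.le))
  -- the slopes
  set H : ℝ → Matrix n n ℂ := fun x => Matrix.of fun k m => slope (fun t => P t k m) l x with hH
  have hHlim : ∀ k m, Filter.Tendsto (fun x => H x k m) (nhdsWithin l {l}ᶜ) (nhds (P' l k m)) :=
    fun k m => hasDerivAt_iff_tendsto_slope.mp (hP l hl k m)
  set M : ℝ := (∑ k, ∑ m, ‖P' l k m‖) + 1 with hM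
  have ev4 : ∀ᶠ x in nhdsWithin l {l}ᶜ, ∑ k, ∑ m, ‖H x k m‖ ≤ M := by
    have h1 : Filter.Tendsto (fun x => ∑ k, ∑ m, ‖H x k m‖) (nhdsWithin l {l}ᶜ)
        (nhds (∑ k, ∑ m, ‖P' l k m‖)) :=
      tendsto_finsetSum _ fun k _ => tendsto_finsetSum _ fun m _ => (hHlim k m).norm
    filter_upwards [h1.eventually (gt_mem_nhds (show (∑ k, ∑ m, ‖P' l k m‖) < M by
      rw [hM]; linarith))] with x hx
    exact hx.le
  rw [hasDerivAt_iff_tendsto_slope]
  have key : ∀ᶠ x in nhdsWithin l {l}ᶜ,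
      ∫ t in Ioi (0:ℝ), (Rs (P l) t * H x * Rs (P x) t) i j =
        slope (fun t => mf Real.log (P t) i j) l x := by
    filter_upwards [ev1] with x hx
    have hPx := hpd x hx
    have r1 := logd_int_rep hPl i j
    have r2 := logd_int_rep hPx i j
    rw [slope_def_module, ← r1.2, ← r2.2, ← integral_sub r2.1 r1.1, ← integral_smul]
    refine setIntegral_congr_fun measurableSet_Ioi fun t ht => ?_
    have ht' : (0:ℝ) < t := ht
    have e1 := congrFun (congrFun (logd_sub hPl hPx ht'.le) i) j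
    have e2 : H x = ((x - l)⁻¹ : ℝ) • (P x - P l) := by
      ext k m
      show slope (fun t => P t k m) l x = _
      rw [slope_def_module]
      rfl
    show (Rs (P l) t * H x * Rs (P x) t) i j = ((x - l)⁻¹ : ℝ) •
      ((((1 / (1 + t) : ℝ) : ℂ) * (1 : Matrix n n ℂ) i j - Rs (P x) t i j) -
        (((1 / (1 + t) : ℝ) : ℂ) * (1 : Matrix n n ℂ) i j - Rs (P l) t i j))
    rw [e2, Matrix.mul_smul, Matrix.smul_mul, Matrix.smul_apply, ← e1, Matrix.sub_apply]
    congr 1
    ring
  refine Filter.Tendsto.congr' key ?_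
  refine tendsto_integral_filter_of_dominated_convergence (fun t => M * (1 / (c + t) ^ 2)) ?_ ?_
    ((logd_sq hcpos).const_mul M) ?_
  · filter_upwards [ev1] with x hx
    exact (logd_cont_RHR (H x) hPl (hpd x hx) i j).aestronglyMeasurable measurableSet_Ioi
  · filter_upwards [ev1, ev3, ev4] with x h1 h2 h3
    refine (ae_restrict_iff' measurableSet_Ioi).mpr (Filter.Eventually.of_forall fun t ht => ?_)
    have ht' : (0:ℝ) < t := ht
    exact logd_norm_RHR hPl (hpd x h1) hcpos hcPl h2 ht'.le h3 i j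
  · refine (ae_restrict_iff' measurableSet_Ioi).mpr (Filter.Eventually.of_forall fun t ht => ?_)
    have ht' : (0:ℝ) < t := ht
    have h1 : Filter.Tendsto (fun x => Rs (P x) t) (nhdsWithin l {l}ᶜ) (nhds (Rs (P l) t)) :=
      (logd_contAt hcP hPl ht'.le).tendsto.mono_left nhdsWithin_le_nhds
    have h2 : ∀ m, Filter.Tendsto (fun x => Rs (P x) t m j) (nhdsWithin l {l}ᶜ)
        (nhds (Rs (P l) t m j)) := fun m =>
      ((continuous_apply_apply m j).tendsto _).comp h1
    simp only [Matrix.mul_apply]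
    refine tendsto_finsetSum _ fun m _ => Filter.Tendsto.mul ?_ (h2 m)
    exact tendsto_finsetSum _ fun k _ => (hHlim k m).const_mul _

theorem integrable_resolv {P H : Matrix n n ℂ} (hP : P.PosDef) (i j : n) :
    IntegrableOn (fun t => (Rs P t * H * Rs P t) i j) (Ioi 0) := by
  obtain ⟨c, hc, hcP⟩ := logd_lower hP
  refine Integrable.mono' (((logd_sq hc).const_mul (∑ k, ∑ m, ‖H k m‖)))
    ((logd_cont_RHR H hP hP i j).aestronglyMeasurable measurableSet_Ioi) ?_
  refine (ae_restrict_iff' measurableSet_Ioi).mpr (Filter.Eventually.of_forall fun t ht => ?_)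
  have ht' : (0:ℝ) < t := ht
  exact logd_norm_RHR hP hP hc hcP hcP ht'.le le_rfl i j

end Vale.Agent.P371.Gen
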