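import Vale.Agent.Lib.P371.Gen.Resolv

/-! # P371 Gen: two resolvent integrals (module ResolvInt)

Let `K > 0`, `Y` Hermitian, `P = K + Y > 0`, `Q = K - Y > 0`, `H = K⁻¹`, `t ≥ 0`, `R = (P+t)⁻¹`.

(1) `K^2 - Y^2 = (P Q + Q P)/2`. Since `R P = P R = 1 - t R`,
`tr ((K^2-Y^2) R H R) = (1/2) tr (Q (R H R P + P R H R)) = tr (Q ((R H + H R)/2 - t R H R))`, and
with `Q = 2K - P`, `H K = K H = 1`: this is `2 tr R - 2 t tr (K R H R) - tr (H (P R)^2)`.

(2) `tr (K R H R) ≥ tr (R^2)`: with `Z = K^{1/2} R K^{-1/2}`, `tr (R^2) = tr (Z^2) ≤ tr (Z* Z)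
= tr (K^{-1/2} R K R K^{-1/2}) = tr (H R K R)` (Cauchy-Schwarz `|tr Z^2| ≤ tr Z*Z`).

(3) Hence `tr ((K^2-Y^2) R H R) ≤ 2 tr (R - t R^2) - tr (H (PR)^2) = 2 tr (P R^2) - tr (H (P R)^2)`.

`int_PRR`, `int_HPR`: in the eigenbasis of `P`: `∫_0^∞ p/(p+t)^2 dt = 1`,
`∫_0^∞ (p/(p+t))^2 dt = p`. -/

open Matrix Set MeasureTheory
open scoped ComplexOrder

namespace Vale.Agent.P371.Gen

variable {n : Type*} [Fintype n] [DecidableEq n]

theorem resolvint_lin {P : Matrix n n ℂ} (hP : P.IsHermitian) (H : Matrix n n ℂ) :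
    ∃ c : n → ℝ, ∀ f : ℝ → ℝ, rtr (H * mf f P) = ∑ i, c i * f (hP.eigenvalues i) := by
  set U : Matrix n n ℂ := (hP.eigenvectorUnitary : Matrix n n ℂ) with hU
  refine ⟨fun i => ((star U * H * U) i i).re, fun f => ?_⟩
  unfold mf rtr
  rw [hP.cfc_eq, Matrix.IsHermitian.cfc, Unitary.conjStarAlgAut_apply]
  have h1 : H * (U * Matrix.diagonal (RCLike.ofReal ∘ f ∘ hP.eigenvalues) * star U) =
      (H * U * Matrix.diagonal (RCLike.ofReal ∘ f ∘ hP.eigenvalues)) * star U := by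
    simp only [Matrix.mul_assoc]
  have h2 : (H * (U * Matrix.diagonal (RCLike.ofReal ∘ f ∘ hP.eigenvalues) * star U)).trace =
      ((star U * H * U) * Matrix.diagonal (RCLike.ofReal ∘ f ∘ hP.eigenvalues)).trace := by
    rw [h1, Matrix.trace_mul_comm]
    simp only [Matrix.mul_assoc]
  have h3 : ((star U * H * U) * Matrix.diagonal (RCLike.ofReal ∘ f ∘ hP.eigenvalues)).trace =
      ∑ i, (star U * H * U) i i * (f (hP.eigenvalues i) : ℂ) := by
    rw [Matrix.trace]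
    refine Finset.sum_congr rfl fun i _ => ?_
    rw [Matrix.diag_apply, Matrix.mul_diagonal]
    rfl
  calc _ = ((H * (U * Matrix.diagonal (RCLike.ofReal ∘ f ∘ hP.eigenvalues) * star U)).trace).re := rfl
    _ = _ := by
      rw [h2, h3, Complex.re_sum]
      refine Finset.sum_congr rfl fun i _ => ?_
      rw [Complex.re_mul_ofReal]

theorem resolvint_tendsto (p : ℝ) :
    Filter.Tendsto (fun t : ℝ => -(1 / (p + t))) Filter.atTop (nhds 0) := by
  have h1 : Filter.Tendsto (fun t : ℝ => p + t) Filter.atTop Filter.atTop :=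
    Filter.tendsto_atTop_add_const_left _ _ Filter.tendsto_id
  have h2 := (h1.inv_tendsto_atTop).neg
  simp only [neg_zero] at h2
  refine h2.congr fun t => ?_
  simp

theorem resolvint_deriv {p : ℝ} (hp : 0 < p) (t : ℝ) (ht : 0 ≤ t) :
    HasDerivAt (fun t : ℝ => -(1 / (p + t))) ((1 / (p + t)) ^ 2) t := by
  have h0 : p + t ≠ 0 := by positivity
  have h1 : HasDerivAt (fun t : ℝ => p + t) 1 t := by
    simpa using (hasDerivAt_id t).const_add p
  have h2 := (h1.fun_inv h0).neg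
  have h3 : (fun t : ℝ => -(1 / (p + t))) = fun t : ℝ => -(p + t)⁻¹ := by
    funext t
    rw [one_div]
  rw [h3]
  have h4 : HasDerivAt (fun t : ℝ => -(p + t)⁻¹) (-(-1 / (p + t) ^ 2)) t := h2
  exact h4.congr_deriv (by rw [neg_div, neg_neg, _root_.one_div_pow])

theorem resolvint_scalar {p : ℝ} (hp : 0 < p) :
    IntegrableOn (fun t : ℝ => (1 / (p + t)) ^ 2) (Ioi 0) ∧
      ∫ t in Ioi (0 : ℝ), (1 / (p + t)) ^ 2 = 1 / p := by
  refine ⟨integrableOn_Ioi_deriv_of_nonneg' (fun t ht => resolvint_deriv hp t ht)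
    (fun t _ => sq_nonneg _) (resolvint_tendsto p), ?_⟩
  rw [integral_Ioi_of_hasDerivAt_of_nonneg' (fun t ht => resolvint_deriv hp t ht)
    (fun t _ => sq_nonneg _) (resolvint_tendsto p)]
  simp

/-- The general integral. -/
theorem resolvint_gen {P : Matrix n n ℂ} (hP : P.PosDef) (H : Matrix n n ℂ) (g : ℝ → ℝ)
    (F : ℝ → ℝ) (hF : ∀ t : ℝ, 0 ≤ t → F t = rtr (H * mf (fun p => g p * (1 / (p + t)) ^ 2) P)) :
    IntegrableOn F (Ioi 0) ∧
      ∫ t in Ioi (0 : ℝ), F t = rtr (H * mf (fun p => g p * (1 / p)) P) := by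
  obtain ⟨c, hc⟩ := resolvint_lin hP.isHermitian H
  have hpos : ∀ i, 0 < hP.isHermitian.eigenvalues i := fun i => hP.eigenvalues_pos i
  have hF' : ∀ t ∈ Ioi (0 : ℝ), F t = ∑ i, c i * (g (hP.isHermitian.eigenvalues i) *
      (1 / (hP.isHermitian.eigenvalues i + t)) ^ 2) := fun t ht => by
    rw [hF t (le_of_lt ht), hc]
  have hint : ∀ i, IntegrableOn (fun t : ℝ => c i * (g (hP.isHermitian.eigenvalues i) *
      (1 / (hP.isHermitian.eigenvalues i + t)) ^ 2)) (Ioi 0) := fun i =>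
    ((resolvint_scalar (hpos i)).1.const_mul _).const_mul _
  refine ⟨?_, ?_⟩
  · have h1 : IntegrableOn (fun t : ℝ => ∑ i, c i * (g (hP.isHermitian.eigenvalues i) *
      (1 / (hP.isHermitian.eigenvalues i + t)) ^ 2)) (Ioi 0) :=
      integrable_finsetSum _ fun i _ => hint i
    exact h1.congr_fun (fun t ht => (hF' t ht).symm) measurableSet_Ioi
  · rw [setIntegral_congr_fun measurableSet_Ioi hF', integral_finsetSum _ fun i _ => hint i, hc]
    refine Finset.sum_congr rfl fun i _ => ?_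
    rw [integral_const_mul, integral_const_mul, (resolvint_scalar (hpos i)).2]

theorem resolvint_Rs_sq {P : Matrix n n ℂ} (hP : P.PosDef) {t : ℝ} (ht : 0 ≤ t) :
    P * (Rs P t * Rs P t) = mf (fun p => p * (1 / (p + t)) ^ 2) P := by
  have h := hP.isHermitian
  rw [Rs_eq_mf hP ht, ← mf_mul h]
  nth_rw 1 [← mf_id h]
  rw [← mf_mul h]
  congr 1
  funext p
  ring

theorem int_PRR {P : Matrix n n ℂ} (hP : P.PosDef) :
    IntegrableOn (fun t => rtr (P * (Rs P t * Rs P t))) (Ioi 0) ∧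
      ∫ t in Ioi (0 : ℝ), rtr (P * (Rs P t * Rs P t)) = Fintype.card n := by
  have h := resolvint_gen hP 1 (fun p => p) (fun t => rtr (P * (Rs P t * Rs P t)))
    (fun t ht => by rw [one_mul, resolvint_Rs_sq hP ht])
  refine ⟨h.1, h.2.trans ?_⟩
  have h1 : mf (fun p : ℝ => p * (1 / p)) P = mf (fun _ => 1) P := by
    refine mf_congr hP.isHermitian fun i => ?_
    have : hP.isHermitian.eigenvalues i ≠ 0 := (hP.eigenvalues_pos i).ne'
    field_simp
  rw [one_mul, h1, mf_const hP.isHermitian]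
  unfold rtr
  simp

theorem int_HPR {P : Matrix n n ℂ} (hP : P.PosDef) (H : Matrix n n ℂ) :
    IntegrableOn (fun t => rtr (H * ((P * Rs P t) * (P * Rs P t)))) (Ioi 0) ∧
      ∫ t in Ioi (0 : ℝ), rtr (H * ((P * Rs P t) * (P * Rs P t))) = rtr (H * P) := by
  have hh := hP.isHermitian
  have h := resolvint_gen hP H (fun p => p ^ 2)
    (fun t => rtr (H * ((P * Rs P t) * (P * Rs P t)))) (fun t ht => by
      have h1 : P * Rs P t = mf (fun p => p * (1 / (p + t))) P := by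
        rw [Rs_eq_mf hP ht]
        nth_rw 1 [← mf_id hh]
        rw [← mf_mul hh]
      rw [h1, ← mf_mul hh]
      congr 3
      funext p
      ring)
  refine ⟨h.1, h.2.trans ?_⟩
  have h1 : mf (fun p : ℝ => p ^ 2 * (1 / p)) P = P := by
    nth_rw 2 [← mf_id hh]
    refine mf_congr hh fun i => ?_
    have : hh.eigenvalues i ≠ 0 := (hP.eigenvalues_pos i).ne'
    field_simp
  rw [h1]

end Vale.Agent.P371.Gen
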