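import Vale.Agent.Lib.P371.Gen.KlFacts2
import Vale.Agent.Lib.P371.Gen.LogD
import Vale.Agent.Lib.P371.Gen.ResolvInt

/-! # P371 Gen: the differential inequality for g (module GDeriv)

`g(l) = tr ((X + l) B_l)`, `B_l = log P + log Q - log l`, `P = K_l + Y`, `Q = K_l - Y`,
`K_l' = K_l⁻¹/2` (`hasDerivAt_Kl`), `X + l = K_l^2 - Y^2` (`Kl_mul_self`). By `hasDerivAt_mf_log`
`g' = tr B_l + (1/2) ∫_0^∞ [tr ((K^2-Y^2) R_P K⁻¹ R_P) + tr ((K^2-Y^2) R_Q K⁻¹ R_Q)] dt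
  - tr (X + l) / l`.
By `resolv_ineq` (for `Y` and for `-Y`), `int_PRR`, `int_HPR` the integral is at most
`2 N - tr (K⁻¹ P) + 2 N - tr (K⁻¹ Q) = 4 N - 2 N = 2 N`. So
`g' ≤ tr B_l + N - tr X / l - N = tr B_l - tr X / l`. -/

open Matrix Set MeasureTheory
open scoped ComplexOrder

namespace Vale.Agent.P371.Gen

set_option linter.unusedSectionVars false

variable {n : Type*} [Fintype n] [DecidableEq n] {E Y : Matrix n n ℂ}

private theorem gderiv_rtr_mul (M A : Matrix n n ℂ) :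
    rtr (M * A) = ∑ i, ∑ j, (M i j * A j i).re := by
  simp only [rtr, Matrix.trace, Matrix.diag_apply, Matrix.mul_apply, Complex.re_sum]

private theorem gderiv_rtr_add (A B : Matrix n n ℂ) : rtr (A + B) = rtr A + rtr B := by
  simp [rtr, Matrix.trace_add]

private theorem gderiv_rtr_sub (A B : Matrix n n ℂ) : rtr (A - B) = rtr A - rtr B := by
  simp [rtr, Matrix.trace_sub]

private theorem gderiv_rtr_smul (c : ℝ) (A : Matrix n n ℂ) :
    rtr ((c : ℂ) • A) = c * rtr A := by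
  simp [rtr, Matrix.trace_smul]

private theorem gderiv_rtr_one : rtr (1 : Matrix n n ℂ) = Fintype.card n := by
  simp [rtr, Matrix.trace_one]

private theorem gderiv_int {F : ℝ → Matrix n n ℂ}
    (hF : ∀ i j, IntegrableOn (fun t => F t i j) (Ioi 0)) (M : Matrix n n ℂ) :
    IntegrableOn (fun t => rtr (M * F t)) (Ioi 0) ∧
      rtr (M * Matrix.of (fun i j => ∫ t in Ioi (0 : ℝ), F t i j)) =
        ∫ t in Ioi (0 : ℝ), rtr (M * F t) := by
  have h1 : ∀ i j, Integrable (fun t => (M i j * F t j i).re) (volume.restrict (Ioi 0)) :=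
    fun i j => ((hF j i).const_mul (M i j)).re
  constructor
  · simp only [gderiv_rtr_mul]
    exact integrable_finsetSum _ fun i _ => integrable_finsetSum _ fun j _ => h1 i j
  · simp only [gderiv_rtr_mul]
    rw [integral_finsetSum _ fun i _ => integrable_finsetSum _ fun j _ => h1 i j]
    refine Finset.sum_congr rfl fun i _ => ?_
    rw [integral_finsetSum _ fun j _ => h1 i j]
    refine Finset.sum_congr rfl fun j _ => ?_
    have h2 := integral_re ((hF j i).const_mul (M i j))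
    rw [integral_const_mul] at h2
    exact h2.symm

private theorem gderiv_half {K Y M : Matrix n n ℂ} (hK : K.PosDef) (hY : Y.IsHermitian)
    (hP : (K + Y).PosDef) (hM : M = K * K - Y * Y) :
    rtr (M * Matrix.of (fun i j => ∫ t in Ioi (0 : ℝ),
      (Rs (K + Y) t * ((((2 : ℝ)⁻¹ : ℝ) : ℂ) • K⁻¹) * Rs (K + Y) t) i j)) ≤
      (Fintype.card n : ℝ) - 1 / 2 * rtr (K⁻¹ * (K + Y)) := by
  obtain ⟨hint, heq⟩ := gderiv_int (F := fun t => Rs (K + Y) t *
    ((((2 : ℝ)⁻¹ : ℝ) : ℂ) • K⁻¹) * Rs (K + Y) t) (fun i j => integrable_resolv hP i j) M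
  rw [heq]
  obtain ⟨hi1, he1⟩ := int_PRR hP
  obtain ⟨hi2, he2⟩ := int_HPR hP K⁻¹
  have hmono : ∫ t in Ioi (0 : ℝ), rtr (M * (Rs (K + Y) t *
      ((((2 : ℝ)⁻¹ : ℝ) : ℂ) • K⁻¹) * Rs (K + Y) t)) ≤
      ∫ t in Ioi (0 : ℝ), (rtr ((K + Y) * (Rs (K + Y) t * Rs (K + Y) t)) -
        1 / 2 * rtr (K⁻¹ * (((K + Y) * Rs (K + Y) t) * ((K + Y) * Rs (K + Y) t)))) := by
    refine setIntegral_mono_on hint (hi1.sub (hi2.const_mul (1 / 2))) measurableSet_Ioi ?_
    intro t ht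
    have h1 := resolv_ineq hK hY hP (le_of_lt ht)
    have h2 : M * (Rs (K + Y) t * ((((2 : ℝ)⁻¹ : ℝ) : ℂ) • K⁻¹) * Rs (K + Y) t) =
        (((2 : ℝ)⁻¹ : ℝ) : ℂ) •
          ((K * K - Y * Y) * (Rs (K + Y) t * K⁻¹ * Rs (K + Y) t)) := by
      rw [hM, Matrix.mul_smul, Matrix.smul_mul, Matrix.mul_smul]
    rw [h2, gderiv_rtr_smul]
    linarith
  refine hmono.trans (le_of_eq ?_)
  rw [integral_sub hi1 (hi2.const_mul (1 / 2)), integral_const_mul, he1, he2]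

theorem gg_deriv (hE : E.PosSemidef) (hY : Y.IsHermitian) (h1 : (msqrt E - Y).PosSemidef)
    (h2 : (msqrt E + Y).PosSemidef) {l : ℝ} (hl : 0 < l) :
    ∃ g' : ℝ, HasDerivAt (gg E Y) g' l ∧ g' ≤ rtr (BB l E Y) - rtr (E - Y * Y) / l := by
  have hK := Kl_posDef hE hl
  have hP := Kl_add_posDef hE h2 hl
  have hQ := Kl_sub_posDef hE h1 hl
  have hKK := Kl_mul_self hE hl.le
  have hcont : ∀ i j, ContinuousOn (fun t => ((((2 : ℝ)⁻¹ : ℝ) : ℂ) • (Kl t E)⁻¹) i j) (Ioi 0) := by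
    intro i j
    simp only [Matrix.smul_apply, smul_eq_mul]
    exact continuousOn_const.mul (continuousOn_Kl_inv hE i j)
  have hdP : ∀ i j, HasDerivAt (fun t => mf Real.log (Kl t E + Y) i j)
      (∫ t in Ioi (0 : ℝ), (Rs (Kl l E + Y) t * ((((2 : ℝ)⁻¹ : ℝ) : ℂ) • (Kl l E)⁻¹) *
        Rs (Kl l E + Y) t) i j) l := by
    intro i j
    refine hasDerivAt_mf_log (P := fun t => Kl t E + Y)
      (P' := fun t => (((2 : ℝ)⁻¹ : ℝ) : ℂ) • (Kl t E)⁻¹) isOpen_Ioi ?_ hcont ?_ hl i j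
    · intro s hs a b
      simp only [Matrix.add_apply, Matrix.smul_apply, smul_eq_mul]
      exact (hasDerivAt_Kl hE hs a b).add_const _
    · intro s hs
      exact Kl_add_posDef hE h2 hs
  have hdQ : ∀ i j, HasDerivAt (fun t => mf Real.log (Kl t E - Y) i j)
      (∫ t in Ioi (0 : ℝ), (Rs (Kl l E + -Y) t * ((((2 : ℝ)⁻¹ : ℝ) : ℂ) • (Kl l E)⁻¹) *
        Rs (Kl l E + -Y) t) i j) l := by
    intro i j
    rw [← sub_eq_add_neg]
    refine hasDerivAt_mf_log (P := fun t => Kl t E - Y)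
      (P' := fun t => (((2 : ℝ)⁻¹ : ℝ) : ℂ) • (Kl t E)⁻¹) isOpen_Ioi ?_ hcont ?_ hl i j
    · intro s hs a b
      simp only [Matrix.sub_apply, Matrix.smul_apply, smul_eq_mul]
      exact (hasDerivAt_Kl hE hs a b).sub_const _
    · intro s hs
      exact Kl_sub_posDef hE h1 hs
  set DP : Matrix n n ℂ := Matrix.of (fun i j => ∫ t in Ioi (0 : ℝ),
    (Rs (Kl l E + Y) t * ((((2 : ℝ)⁻¹ : ℝ) : ℂ) • (Kl l E)⁻¹) * Rs (Kl l E + Y) t) i j) with hDP
  set DQ : Matrix n n ℂ := Matrix.of (fun i j => ∫ t in Ioi (0 : ℝ),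
    (Rs (Kl l E + -Y) t * ((((2 : ℝ)⁻¹ : ℝ) : ℂ) • (Kl l E)⁻¹) * Rs (Kl l E + -Y) t) i j) with hDQ
  have hlog : HasDerivAt (fun t : ℝ => ((Real.log t : ℝ) : ℂ)) ((l⁻¹ : ℝ) : ℂ) l :=
    (Real.hasDerivAt_log hl.ne').ofReal_comp
  have hB : ∀ i j, HasDerivAt (fun t => BB t E Y i j)
      ((DP + DQ - ((l⁻¹ : ℝ) : ℂ) • (1 : Matrix n n ℂ)) i j) l := by
    intro i j
    have e1 : (fun t => BB t E Y i j) = fun t => mf Real.log (Kl t E + Y) i j +
        mf Real.log (Kl t E - Y) i j - ((Real.log t : ℝ) : ℂ) * (1 : Matrix n n ℂ) i j := by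
      funext t
      simp only [BB, LL, Matrix.sub_apply, Matrix.add_apply, Matrix.smul_apply, smul_eq_mul]
    rw [e1]
    have e2 : (DP + DQ - ((l⁻¹ : ℝ) : ℂ) • (1 : Matrix n n ℂ)) i j =
        DP i j + DQ i j - ((l⁻¹ : ℝ) : ℂ) * (1 : Matrix n n ℂ) i j := by
      simp only [Matrix.sub_apply, Matrix.add_apply, Matrix.smul_apply, smul_eq_mul]
    rw [e2]
    exact ((hdP i j).add (hdQ i j)).sub (hlog.mul_const _)
  have hA : ∀ i j, HasDerivAt (fun t : ℝ => (E - Y * Y + (t : ℂ) • (1 : Matrix n n ℂ)) i j)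
      ((1 : Matrix n n ℂ) i j) l := by
    intro i j
    simp only [Matrix.add_apply, Matrix.smul_apply, smul_eq_mul]
    have e3 : HasDerivAt (fun t : ℝ => (t : ℂ)) 1 l := by
      simpa using (hasDerivAt_id l).ofReal_comp
    simpa using (e3.mul_const ((1 : Matrix n n ℂ) i j)).const_add ((E - Y * Y) i j)
  have hg : HasDerivAt (gg E Y) (rtr ((1 : Matrix n n ℂ) * BB l E Y) +
      rtr ((E - Y * Y + (l : ℂ) • (1 : Matrix n n ℂ)) *
        (DP + DQ - ((l⁻¹ : ℝ) : ℂ) • (1 : Matrix n n ℂ)))) l := by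
    have e4 : gg E Y = fun t : ℝ => ∑ i, ∑ j,
        ((E - Y * Y + (t : ℂ) • (1 : Matrix n n ℂ)) i j * BB t E Y j i).re := by
      funext t
      rw [gg, gderiv_rtr_mul]
    rw [e4, gderiv_rtr_mul, gderiv_rtr_mul, ← Finset.sum_add_distrib]
    refine HasDerivAt.fun_sum fun i _ => ?_
    rw [← Finset.sum_add_distrib]
    refine HasDerivAt.fun_sum fun j _ => ?_
    have e5 := (hA i j).mul (hB j i)
    have e6 := Complex.reCLM.hasFDerivAt.comp_hasDerivAt l e5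
    rw [← Complex.add_re]
    exact e6
  refine ⟨_, hg, ?_⟩
  have hM : E - Y * Y + (l : ℂ) • (1 : Matrix n n ℂ) = Kl l E * Kl l E - Y * Y := by
    rw [hKK]
    abel
  have hM' : E - Y * Y + (l : ℂ) • (1 : Matrix n n ℂ) = Kl l E * Kl l E - -Y * -Y := by
    rw [hM, neg_mul_neg]
  have hQ' : (Kl l E + -Y).PosDef := by
    rw [← sub_eq_add_neg]
    exact hQ
  have hb1 := gderiv_half hK hY hP hM
  have hb2 := gderiv_half hK hY.neg hQ' hM'
  rw [← hDP] at hb1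
  rw [← hDQ] at hb2
  have hinv : (Kl l E)⁻¹ * Kl l E = 1 := by
    apply Matrix.nonsing_inv_mul
    exact (Matrix.isUnit_iff_isUnit_det _).1 hK.isUnit
  have hsum : rtr ((Kl l E)⁻¹ * (Kl l E + Y)) + rtr ((Kl l E)⁻¹ * (Kl l E + -Y)) =
      2 * Fintype.card n := by
    rw [← gderiv_rtr_add, ← Matrix.mul_add]
    have e7 : Kl l E + Y + (Kl l E + -Y) = Kl l E + Kl l E := by abel
    rw [e7, Matrix.mul_add, hinv, gderiv_rtr_add, gderiv_rtr_one]
    ring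
  rw [Matrix.mul_sub, gderiv_rtr_sub, Matrix.mul_add, gderiv_rtr_add, Matrix.mul_smul,
    gderiv_rtr_smul, Matrix.mul_one, Matrix.one_mul, gderiv_rtr_add, gderiv_rtr_smul,
    gderiv_rtr_one]
  have hN : l⁻¹ * (rtr (E - Y * Y) + l * (Fintype.card n : ℝ)) =
      rtr (E - Y * Y) / l + Fintype.card n := by
    field_simp
  rw [hN]
  linarith

end Vale.Agent.P371.Gen
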