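import Vale.Agent.Lib.P371.Gen.GMono

/-! # P371 Gen: the integrated inequality (module GInt)

`rtr_BB_le`: `gtv` with `ρ = l • 1`: `l tr L_l ≤ tr (P Q) - l N + l log l N`, and
`tr (P Q) = tr (K_l^2 - Y^2) = tr X + l N`.
`gg_ge`: `g' ≤ tr B - tr X / l ≤ 0`, so `g` is antitone on `(0,∞)` with limit `tr X`.
`int_lower`: let `H(l) = l^θ (1/θ) (tr X - g(l))`, `f(l)` the integrand. Then
`f + H' = (1/θ) l^θ (tr B_l - tr X / l - g') ≥ 0`. So `R ↦ ∫_ε^R f + H(R)` is monotone, and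
`H(R) ≤ 0` by `gg_ge`. -/

open Matrix Set MeasureTheory
open scoped ComplexOrder

namespace Vale.Agent.P371.Gen

variable {n : Type*} [Fintype n] [DecidableEq n] {E Y : Matrix n n ℂ}

theorem int_lower {θ : ℝ} (hθ : 0 < θ) (hE : E.PosSemidef) (hY : Y.IsHermitian)
    (h1 : (msqrt E - Y).PosSemidef) (h2 : (msqrt E + Y).PosSemidef) {ε R : ℝ} (hε : 0 < ε)
    (hR : ε ≤ R) :
    ε ^ θ * (1 / θ) * (rtr (E - Y * Y) - gg E Y ε) ≤
      ∫ l in ε..R, l ^ (θ - 1) * (gg E Y l - (1 + 1 / θ) * rtr (E - Y * Y)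
        + (1 / θ) * l * rtr (BB l E Y)) := by
  have hderiv : ∀ x, 0 < x → HasDerivAt (gg E Y) (deriv (gg E Y) x) x ∧
      deriv (gg E Y) x ≤ rtr (BB x E Y) - rtr (E - Y * Y) / x := by
    intro x hx
    obtain ⟨g', hg', hle⟩ := gg_deriv hE hY h1 h2 hx
    rw [hg'.deriv]
    exact ⟨hg', hle⟩
  have hpos : ∀ x ∈ Icc ε R, 0 < x := fun x hx => hε.trans_le hx.1
  have hgc : ContinuousOn (gg E Y) (Icc ε R) := fun x hx =>
    (hderiv x (hpos x hx)).1.continuousAt.continuousWithinAt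
  have hBc : ContinuousOn (fun l => rtr (BB l E Y)) (Icc ε R) := by
    have h3 : ContinuousOn (fun l => BB l E Y) (Icc ε R) :=
      (continuousOn_BB hE hY h1 h2).mono fun x hx => hpos x hx
    have h4 : Continuous (fun A : Matrix n n ℂ => rtr A) := by
      unfold rtr
      exact Complex.continuous_re.comp (continuous_id.matrix_trace)
    exact h4.comp_continuousOn h3
  have hfc : ContinuousOn (fun l => l ^ (θ - 1) * (gg E Y l - (1 + 1 / θ) * rtr (E - Y * Y)
        + (1 / θ) * l * rtr (BB l E Y))) (Icc ε R) := by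
    refine ContinuousOn.mul ?_ ((hgc.sub continuousOn_const).add
      ((continuousOn_const.mul continuousOn_id).mul hBc))
    intro x hx
    exact (Real.continuousAt_rpow_const x (θ - 1) (Or.inl (hpos x hx).ne')).continuousWithinAt
  have hH : ∀ x, 0 < x → HasDerivAt
      (fun l => -(l ^ θ * (1 / θ) * (rtr (E - Y * Y) - gg E Y l)))
      (-(x ^ (θ - 1) * (rtr (E - Y * Y) - gg E Y x) - x ^ θ * (1 / θ) * deriv (gg E Y) x)) x := by
    intro x hx
    have h3 := Real.hasDerivAt_rpow_const (x := x) (p := θ) (Or.inl hx.ne')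
    have h4 := ((h3.mul_const (1 / θ)).mul ((hderiv x hx).1.const_sub (rtr (E - Y * Y)))).neg
    refine h4.congr_deriv ?_
    field_simp
    ring
  have key := intervalIntegral.sub_le_integral_of_hasDeriv_right_of_le
    (g := fun l => -(l ^ θ * (1 / θ) * (rtr (E - Y * Y) - gg E Y l)))
    (g' := fun x => -(x ^ (θ - 1) * (rtr (E - Y * Y) - gg E Y x) -
      x ^ θ * (1 / θ) * deriv (gg E Y) x))
    (φ := fun l => l ^ (θ - 1) * (gg E Y l - (1 + 1 / θ) * rtr (E - Y * Y)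
        + (1 / θ) * l * rtr (BB l E Y))) hR
    (fun x hx => (hH x (hpos x hx)).continuousAt.continuousWithinAt)
    (fun x hx => (hH x (hpos x ⟨hx.1.le, hx.2.le⟩)).hasDerivWithinAt)
    (hfc.integrableOn_Icc) ?_
  · have hg := gg_ge hE hY h1 h2 (hε.trans_le hR)
    have hRθ : 0 ≤ R ^ θ * (1 / θ) := by
      have : 0 < R := hε.trans_le hR
      positivity
    have h5 : R ^ θ * (1 / θ) * (rtr (E - Y * Y) - gg E Y R) ≤ 0 :=
      mul_nonpos_of_nonneg_of_nonpos hRθ (by linarith)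
    linarith
  · intro x hx
    have hx0 : 0 < x := hpos x ⟨hx.1.le, hx.2.le⟩
    have hle := (hderiv x hx0).2
    have hxθ : x ^ θ = x * x ^ (θ - 1) := by
      rw [Real.rpow_sub_one hx0.ne']
      field_simp
    have hp : 0 < x ^ (θ - 1) := Real.rpow_pos_of_pos hx0 _
    have h6 : x * deriv (gg E Y) x ≤ x * rtr (BB x E Y) - rtr (E - Y * Y) := by
      have := mul_le_mul_of_nonneg_left hle hx0.le
      rw [mul_sub, mul_div_cancel₀ _ hx0.ne'] at this
      exact this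
    have h7 : (1 / θ) * (x * deriv (gg E Y) x) ≤
        (1 / θ) * (x * rtr (BB x E Y) - rtr (E - Y * Y)) :=
      mul_le_mul_of_nonneg_left h6 (by positivity)
    show -(x ^ (θ - 1) * (rtr (E - Y * Y) - gg E Y x) - x ^ θ * (1 / θ) * deriv (gg E Y) x) ≤
      x ^ (θ - 1) * (gg E Y x - (1 + 1 / θ) * rtr (E - Y * Y) + (1 / θ) * x * rtr (BB x E Y))
    rw [hxθ]
    have h8 := mul_le_mul_of_nonneg_left h7 hp.le
    nlinarith [h8]

end Vale.Agent.P371.Gen
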