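import Vale.Agent.Lib.P371.Gen.KlFacts2

/-! # P371 Gen: the limit of g at infinity (module GLim)

Let `ε = l^{-1/2}`, `D = mf (fun e => √(1 + e/l) - 1) E`, so `K_l = √l (1 + D)`,
`K_l ± Y = √l (1 + A_±)`, `A_± = D ± ε Y`, and `log (K_l ± Y) = (log l)/2 + log (1 + A_±)`.
For `|a| ≤ 1/2`: `|log (1+a) - a + a^2/2| ≤ C |a|^3`. Hence entrywise
`B_l = A_+ + A_- - (A_+^2 + A_-^2)/2 + O(ε^3) = 2 D - D^2 - ε^2 Y^2 + O(ε^3)`.
As `l → ∞`: `l * 2 D → E`, `l D^2 → 0`, so `l B_l → E - Y^2`, `B_l → 0` and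
`g(l) = tr (X B_l) + tr (l B_l) → tr X`. -/

open Matrix Set MeasureTheory Filter Topology
open scoped ComplexOrder

namespace Vale.Agent.P371.Gen

variable {n : Type*} [Fintype n] [DecidableEq n] {E Y : Matrix n n ℂ}

/-- second order expansion of the logarithm -/
theorem GLim_log_aux {a : ℝ} (ha : |a| ≤ 1 / 2) :
    |Real.log (1 + a) - (a - 1 / 2 * (a * a))| ≤ 2 * |a| ^ 3 := by
  have h := Real.abs_log_sub_add_sum_range_le (x := -a) (by rw [abs_neg]; linarith) 2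
  rw [abs_neg] at h
  have h1 : ∑ i ∈ Finset.range 2, (-a) ^ (i + 1) / ((i : ℝ) + 1) + Real.log (1 - -a) =
      Real.log (1 + a) - (a - 1 / 2 * (a * a)) := by
    rw [Finset.sum_range_succ, Finset.sum_range_one, sub_neg_eq_add]
    push_cast
    ring
  rw [h1] at h
  refine h.trans ?_
  have h2 : 0 < 1 - |a| := by linarith
  rw [div_le_iff₀ h2]
  have h3 : 0 ≤ |a| ^ 3 := by positivity
  norm_num
  nlinarith

/-- expansion of the logarithm of `√l (1 + A)` -/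
theorem GLim_log {A : Matrix n n ℂ} (hA : A.IsHermitian) {δ l : ℝ} (hl : 0 < l)
    (hδ : δ ≤ 1 / 2) (h : ∀ i, |hA.eigenvalues i| ≤ δ) :
    ∃ R : Matrix n n ℂ, (∀ i j, ‖R i j‖ ≤ 2 * δ ^ 3) ∧
      mf Real.log (((Real.sqrt l : ℝ) : ℂ) • ((1 : Matrix n n ℂ) + A)) =
        ((Real.log l / 2 : ℝ) : ℂ) • (1 : Matrix n n ℂ) + (A - ((1 / 2 : ℝ) : ℂ) • (A * A)) + R := by
  refine ⟨mf (fun t => Real.log (1 + t) - (t - 1 / 2 * (t * t))) A, fun i j => ?_, ?_⟩
  · refine norm_mf_entry_le hA (fun k => ?_) i j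
    refine (GLim_log_aux ((h k).trans hδ)).trans ?_
    have := pow_le_pow_left₀ (abs_nonneg _) (h k) 3
    linarith
  · have h1 : ((Real.sqrt l : ℝ) : ℂ) • ((1 : Matrix n n ℂ) + A) =
        mf (fun t => Real.sqrt l * (1 + t)) A := by
      rw [mf_const_mul hA, mf_add hA, mf_const hA, mf_id hA, Complex.ofReal_one, one_smul]
    rw [h1, mf_comp hA]
    have h2 : mf (fun t => Real.log (Real.sqrt l * (1 + t))) A =
        mf (fun t => Real.log l / 2 + (t - 1 / 2 * (t * t)) +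
          (Real.log (1 + t) - (t - 1 / 2 * (t * t)))) A := by
      refine mf_congr hA fun k => ?_
      have h3 := abs_le.mp ((h k).trans hδ)
      rw [Real.log_mul (Real.sqrt_pos.mpr hl).ne' (by linarith), Real.log_sqrt hl.le]
      ring
    rw [h2, mf_add hA, mf_add hA, mf_const hA, mf_sub hA, mf_id hA, mf_const_mul hA,
      mf_mul hA, mf_id hA]

theorem GLim_sqrt1 {e l : ℝ} (hl : 0 < l) (he : 0 ≤ e) :
    0 ≤ Real.sqrt (1 + e / l) - 1 ∧ Real.sqrt (1 + e / l) - 1 ≤ e / (2 * l) := by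
  have h1 : 0 ≤ e / l := by positivity
  constructor
  · have : 1 ≤ Real.sqrt (1 + e / l) := by
      rw [Real.one_le_sqrt]
      linarith
    linarith
  · have h2 : Real.sqrt (1 + e / l) ≤ 1 + e / (2 * l) := by
      rw [Real.sqrt_le_left (by positivity)]
      have h3 : e / (2 * l) = (e / l) / 2 := by field_simp
      rw [h3]
      nlinarith
    linarith

theorem GLim_sqrt2 {e l : ℝ} (hl : 0 < l) (he : 0 ≤ e) :
    |2 * l * (Real.sqrt (1 + e / l) - 1) - e| ≤ e ^ 2 / l := by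
  obtain ⟨h1, h2⟩ := GLim_sqrt1 hl he
  have h0 : 0 ≤ 1 + e / l := by positivity
  have hs := Real.sq_sqrt h0
  set s := Real.sqrt (1 + e / l) - 1 with hsdef
  have h3 : Real.sqrt (1 + e / l) = s + 1 := by rw [hsdef]; ring
  rw [h3] at hs
  have h4 : e = l * (s ^ 2 + 2 * s) := by
    have : e / l = s ^ 2 + 2 * s := by linarith
    rw [← this]
    field_simp
  have h5 : 2 * l * s - e = - (l * s ^ 2) := by
    nlinarith
  rw [h5, abs_neg, abs_of_nonneg (by positivity)]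
  have h6 : s ^ 2 ≤ (e / (2 * l)) ^ 2 := pow_le_pow_left₀ h1 h2 2
  calc l * s ^ 2 ≤ l * (e / (2 * l)) ^ 2 := mul_le_mul_of_nonneg_left h6 hl.le
    _ = e ^ 2 / l / 4 := by field_simp; norm_num
    _ ≤ e ^ 2 / l := by
      have : 0 ≤ e ^ 2 / l := by positivity
      linarith

/-- the matrix `D` -/
noncomputable def GLimD (l : ℝ) (E : Matrix n n ℂ) : Matrix n n ℂ :=
  mf (fun e => Real.sqrt (1 + e / l) - 1) E

theorem GLim_Kl (hE : E.IsHermitian) {l : ℝ} (hl : 0 < l) :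
    Kl l E = ((Real.sqrt l : ℝ) : ℂ) • ((1 : Matrix n n ℂ) + GLimD l E) := by
  unfold Kl GLimD
  have h1 : (fun e : ℝ => Real.sqrt (e + l)) =
      (fun e : ℝ => Real.sqrt l * (1 + (Real.sqrt (1 + e / l) - 1))) := by
    funext e
    rw [show 1 + (Real.sqrt (1 + e / l) - 1) = Real.sqrt (1 + e / l) by ring,
      ← Real.sqrt_mul hl.le]
    congr 1
    field_simp
    ring
  rw [h1, mf_const_mul hE, mf_add hE, mf_const hE, Complex.ofReal_one, one_smul]

theorem GLim_pm {Z : Matrix n n ℂ} (hZ : Z.IsHermitian) :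
    ∃ c : ℝ, 0 ≤ c ∧ ((c : ℂ) • (1 : Matrix n n ℂ) - Z).PosSemidef ∧
      ((c : ℂ) • (1 : Matrix n n ℂ) + Z).PosSemidef := by
  refine ⟨∑ i, |hZ.eigenvalues i|, Finset.sum_nonneg fun i _ => abs_nonneg _, ?_, ?_⟩
  · have h : (((∑ i, |hZ.eigenvalues i| : ℝ) : ℂ) • (1 : Matrix n n ℂ) - Z) =
        mf (fun t => (∑ i, |hZ.eigenvalues i|) - t) Z := by
      rw [mf_sub hZ, mf_const hZ, mf_id hZ]
    rw [h]
    refine mf_posSemidef hZ fun i => ?_
    have h1 : |hZ.eigenvalues i| ≤ ∑ i, |hZ.eigenvalues i| :=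
      Finset.single_le_sum (f := fun i => |hZ.eigenvalues i|) (fun i _ => abs_nonneg _)
        (Finset.mem_univ i)
    linarith [le_abs_self (hZ.eigenvalues i)]
  · have h : (((∑ i, |hZ.eigenvalues i| : ℝ) : ℂ) • (1 : Matrix n n ℂ) + Z) =
        mf (fun t => (∑ i, |hZ.eigenvalues i|) + t) Z := by
      rw [mf_add hZ, mf_const hZ, mf_id hZ]
    rw [h]
    refine mf_posSemidef hZ fun i => ?_
    have h1 : |hZ.eigenvalues i| ≤ ∑ i, |hZ.eigenvalues i| :=
      Finset.single_le_sum (f := fun i => |hZ.eigenvalues i|) (fun i _ => abs_nonneg _)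
        (Finset.mem_univ i)
    linarith [neg_abs_le (hZ.eigenvalues i)]

theorem GLim_D_herm (l : ℝ) (E : Matrix n n ℂ) : (GLimD l E).IsHermitian :=
  mf_isHermitian _ _

theorem GLim_A_herm (l ε : ℝ) (E : Matrix n n ℂ) {Z : Matrix n n ℂ} (hZ : Z.IsHermitian) :
    (GLimD l E + (ε : ℂ) • Z).IsHermitian := by
  refine (GLim_D_herm l E).add ?_
  unfold Matrix.IsHermitian
  rw [Matrix.conjTranspose_smul, hZ.eq]
  congr 1
  exact Complex.conj_ofReal ε

/-- eigenvalues of `D + ε Z` -/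
theorem GLim_eig (hE : E.PosSemidef) {M : ℝ} (hM : ∀ i, hE.isHermitian.eigenvalues i ≤ M)
    {l : ℝ} (hl : 0 < l) {Z : Matrix n n ℂ} (hZ : Z.IsHermitian) {c ε : ℝ} (hε : 0 ≤ ε)
    (h1 : ((c : ℂ) • (1 : Matrix n n ℂ) - Z).PosSemidef)
    (h2 : ((c : ℂ) • (1 : Matrix n n ℂ) + Z).PosSemidef) (i : n) :
    |(GLim_A_herm l ε E hZ).eigenvalues i| ≤ M / (2 * l) + ε * c := by
  have hH := hE.isHermitian
  have he0 : ∀ i, 0 ≤ hH.eigenvalues i := fun i => hE.eigenvalues_nonneg i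
  have hMl : ∀ i, hH.eigenvalues i / (2 * l) ≤ M / (2 * l) := fun i =>
    div_le_div_of_nonneg_right (hM i) (by positivity)
  have hD1 : (((M / (2 * l) : ℝ) : ℂ) • (1 : Matrix n n ℂ) - GLimD l E).PosSemidef := by
    have h : ((M / (2 * l) : ℝ) : ℂ) • (1 : Matrix n n ℂ) - GLimD l E =
        mf (fun e => M / (2 * l) - (Real.sqrt (1 + e / l) - 1)) E := by
      rw [mf_sub hH, mf_const hH]
      rfl
    rw [h]
    refine mf_posSemidef hH fun i => ?_
    have := (GLim_sqrt1 hl (he0 i)).2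
    linarith [hMl i]
  have hD2 : (((M / (2 * l) : ℝ) : ℂ) • (1 : Matrix n n ℂ) + GLimD l E).PosSemidef := by
    have h : ((M / (2 * l) : ℝ) : ℂ) • (1 : Matrix n n ℂ) + GLimD l E =
        mf (fun e => M / (2 * l) + (Real.sqrt (1 + e / l) - 1)) E := by
      rw [mf_add hH, mf_const hH]
      rfl
    rw [h]
    refine mf_posSemidef hH fun i => ?_
    have h3 := (GLim_sqrt1 hl (he0 i)).1
    have h4 : 0 ≤ hH.eigenvalues i / (2 * l) := div_nonneg (he0 i) (by positivity)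
    linarith [hMl i]
  have hεC : (0 : ℂ) ≤ (ε : ℂ) := Complex.zero_le_real.mpr hε
  rw [abs_le]
  constructor
  · refine le_eigenvalues (GLim_A_herm l ε E hZ) (c := -(M / (2 * l) + ε * c)) ?_ i
    have h3 := hD2.add (h2.smul hεC)
    have h4 : ((M / (2 * l) : ℝ) : ℂ) • (1 : Matrix n n ℂ) + GLimD l E +
        (ε : ℂ) • ((c : ℂ) • (1 : Matrix n n ℂ) + Z) =
        GLimD l E + (ε : ℂ) • Z - ((-(M / (2 * l) + ε * c) : ℝ) : ℂ) • (1 : Matrix n n ℂ) := by
      push_cast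
      module
    rw [h4] at h3
    exact h3
  · refine eigenvalues_le (GLim_A_herm l ε E hZ) ?_ i
    have h3 := hD1.add (h1.smul hεC)
    have h4 : ((M / (2 * l) : ℝ) : ℂ) • (1 : Matrix n n ℂ) - GLimD l E +
        (ε : ℂ) • ((c : ℂ) • (1 : Matrix n n ℂ) - Z) =
        (((M / (2 * l) + ε * c) : ℝ) : ℂ) • (1 : Matrix n n ℂ) - (GLimD l E + (ε : ℂ) • Z) := by
      push_cast
      module
    rw [h4] at h3
    exact h3

/-- the main estimate -/
theorem GLim_bound (hE : E.PosSemidef) (hY : Y.IsHermitian) :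
    ∃ C l₀ : ℝ, 1 ≤ l₀ ∧ ∀ l : ℝ, l₀ ≤ l → ∀ i j,
      ‖((l : ℂ) • BB l E Y - (E - Y * Y)) i j‖ ≤ C / Real.sqrt l := by
  obtain ⟨c, hc0, hc1, hc2⟩ := GLim_pm hY
  have hH := hE.isHermitian
  have he0 : ∀ i, 0 ≤ hH.eigenvalues i := fun i => hE.eigenvalues_nonneg i
  set M := ∑ i, hH.eigenvalues i with hM
  have hM0 : 0 ≤ M := Finset.sum_nonneg fun i _ => he0 i
  have hMe : ∀ i, hH.eigenvalues i ≤ M := fun i =>
    Finset.single_le_sum (f := fun i => hH.eigenvalues i) (fun i _ => he0 i) (Finset.mem_univ i)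
  refine ⟨2 * M ^ 2 + 4 * (M + c) ^ 3, 1 + (2 * (M + c)) ^ 2, by nlinarith [sq_nonneg (2 * (M + c))],
    fun l hl i j => ?_⟩
  have hl1 : 1 ≤ l := by nlinarith [sq_nonneg (2 * (M + c))]
  have hl0 : 0 < l := by linarith
  have hsq : 0 < Real.sqrt l := Real.sqrt_pos.mpr hl0
  have hss : Real.sqrt l * Real.sqrt l = l := Real.mul_self_sqrt hl0.le
  have hs1 : 1 ≤ Real.sqrt l := by rwa [Real.one_le_sqrt]
  have hsM : 2 * (M + c) ≤ Real.sqrt l := by
    apply Real.le_sqrt_of_sq_le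
    linarith
  have hsl : Real.sqrt l ≤ l := by nlinarith
  set ε : ℝ := 1 / Real.sqrt l with hε
  have hε0 : 0 < ε := by positivity
  set δ : ℝ := M / (2 * l) + ε * c with hδ
  have hδ0 : 0 ≤ δ := by positivity
  have hδ1 : δ ≤ (M + c) / Real.sqrt l := by
    have h1 : M / (2 * l) ≤ M / Real.sqrt l :=
      div_le_div_of_nonneg_left hM0 hsq (by linarith)
    rw [hδ, hε, add_div]
    have h2 : 1 / Real.sqrt l * c = c / Real.sqrt l := by ring
    linarith
  have hδ2 : δ ≤ 1 / 2 := by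
    refine hδ1.trans ?_
    rw [div_le_iff₀ hsq]
    linarith
  have hYn : (-Y).IsHermitian := hY.neg
  have hc1' : ((c : ℂ) • (1 : Matrix n n ℂ) - -Y).PosSemidef := by
    rw [sub_neg_eq_add]; exact hc2
  have hc2' : ((c : ℂ) • (1 : Matrix n n ℂ) + -Y).PosSemidef := by
    rw [← sub_eq_add_neg]; exact hc1
  obtain ⟨R1, hR1, hR1'⟩ := GLim_log (GLim_A_herm l ε E hY) hl0 hδ2
    (fun k => GLim_eig hE hMe hl0 hY hε0.le hc1 hc2 k)
  obtain ⟨R2, hR2, hR2'⟩ := GLim_log (GLim_A_herm l ε E hYn) hl0 hδ2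
    (fun k => GLim_eig hE hMe hl0 hYn hε0.le hc1' hc2' k)
  set D := GLimD l E with hD
  have hεs : ((Real.sqrt l : ℝ) : ℂ) * (ε : ℂ) = 1 := by
    rw [← Complex.ofReal_mul, hε, mul_one_div_cancel hsq.ne', Complex.ofReal_one]
  have hK1 : Kl l E + Y = ((Real.sqrt l : ℝ) : ℂ) • ((1 : Matrix n n ℂ) + (D + (ε : ℂ) • Y)) := by
    rw [GLim_Kl hH hl0, ← add_assoc, smul_add _ _ ((ε : ℂ) • Y), smul_smul, hεs, one_smul]
  have hK2 : Kl l E - Y = ((Real.sqrt l : ℝ) : ℂ) • ((1 : Matrix n n ℂ) + (D + (ε : ℂ) • (-Y))) := by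
    rw [GLim_Kl hH hl0, ← add_assoc, smul_add _ _ ((ε : ℂ) • (-Y)), smul_smul, hεs, one_smul,
      sub_eq_add_neg]
  have hε2 : (l : ℂ) * ((ε : ℂ) * (ε : ℂ)) = 1 := by
    rw [← Complex.ofReal_mul, ← Complex.ofReal_mul]
    rw [show l * (ε * ε) = 1 from ?_, Complex.ofReal_one]
    rw [hε]
    field_simp
    rw [sq, hss]
  have hBB : BB l E Y = (2 : ℂ) • D - D * D - ((ε : ℂ) * (ε : ℂ)) • (Y * Y) + (R1 + R2) := by
    unfold BB LL
    rw [hK1, hK2, hR1', hR2']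
    have e1 : (D + (ε : ℂ) • Y) * (D + (ε : ℂ) • Y) = D * D + (ε : ℂ) • (D * Y) +
        (ε : ℂ) • (Y * D) + ((ε : ℂ) * (ε : ℂ)) • (Y * Y) := by
      rw [mul_add, add_mul, add_mul, Matrix.mul_smul, Matrix.smul_mul, Matrix.smul_mul,
        Matrix.mul_smul, smul_smul]
      abel
    have e2 : (D + (ε : ℂ) • (-Y)) * (D + (ε : ℂ) • (-Y)) = D * D - (ε : ℂ) • (D * Y) -
        (ε : ℂ) • (Y * D) + ((ε : ℂ) * (ε : ℂ)) • (Y * Y) := by
      rw [mul_add, add_mul, add_mul, Matrix.mul_smul, Matrix.smul_mul, Matrix.smul_mul,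
        Matrix.mul_smul, smul_smul, Matrix.neg_mul, Matrix.mul_neg, Matrix.mul_neg,
        Matrix.neg_mul, neg_neg]
      simp only [smul_neg]
      abel
    rw [e1, e2]
    push_cast
    module
  have hmain : (l : ℂ) • BB l E Y - (E - Y * Y) =
      mf (fun e => 2 * l * (Real.sqrt (1 + e / l) - 1) - e) E -
      mf (fun e => l * ((Real.sqrt (1 + e / l) - 1) * (Real.sqrt (1 + e / l) - 1))) E +
      (l : ℂ) • (R1 + R2) := by
    rw [mf_sub hH, mf_const_mul hH, mf_id hH, mf_const_mul hH, mf_mul hH, hBB]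
    change _ = ((2 * l : ℝ) : ℂ) • D - E - (l : ℂ) • (D * D) + (l : ℂ) • (R1 + R2)
    rw [smul_add, smul_sub, smul_sub, smul_smul, smul_smul (l : ℂ) ((ε : ℂ) * (ε : ℂ)), hε2,
      one_smul]
    push_cast
    module
  rw [hmain]
  have b1 : ‖mf (fun e => 2 * l * (Real.sqrt (1 + e / l) - 1) - e) E i j‖ ≤ M ^ 2 / l := by
    refine norm_mf_entry_le hH (fun k => (GLim_sqrt2 hl0 (he0 k)).trans ?_) i j
    exact div_le_div_of_nonneg_right (pow_le_pow_left₀ (he0 k) (hMe k) 2) hl0.le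
  have b2 : ‖mf (fun e => l * ((Real.sqrt (1 + e / l) - 1) * (Real.sqrt (1 + e / l) - 1))) E i j‖
      ≤ M ^ 2 / l := by
    refine norm_mf_entry_le hH (fun k => ?_) i j
    obtain ⟨h1, h2⟩ := GLim_sqrt1 hl0 (he0 k)
    rw [abs_of_nonneg (by positivity)]
    have h3 : Real.sqrt (1 + hH.eigenvalues k / l) - 1 ≤ M / l := by
      refine h2.trans ?_
      have h4 : hH.eigenvalues k / (2 * l) ≤ hH.eigenvalues k / l :=
        div_le_div_of_nonneg_left (he0 k) hl0 (by linarith)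
      exact h4.trans (div_le_div_of_nonneg_right (hMe k) hl0.le)
    calc l * ((Real.sqrt (1 + hH.eigenvalues k / l) - 1) *
          (Real.sqrt (1 + hH.eigenvalues k / l) - 1)) ≤ l * ((M / l) * (M / l)) :=
          mul_le_mul_of_nonneg_left (mul_le_mul h3 h3 h1 (by positivity)) hl0.le
      _ = M ^ 2 / l := by field_simp
  have b3 : ‖((l : ℂ) • (R1 + R2)) i j‖ ≤ 4 * (M + c) ^ 3 / Real.sqrt l := by
    rw [Matrix.smul_apply, Matrix.add_apply, smul_eq_mul, norm_mul, Complex.norm_real,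
      Real.norm_of_nonneg hl0.le]
    have h1 : ‖R1 i j + R2 i j‖ ≤ 4 * δ ^ 3 := by
      refine (norm_add_le _ _).trans ?_
      have := hR1 i j
      have := hR2 i j
      linarith
    have h2 : δ ^ 3 ≤ ((M + c) / Real.sqrt l) ^ 3 := pow_le_pow_left₀ hδ0 hδ1 3
    calc l * ‖R1 i j + R2 i j‖ ≤ l * (4 * ((M + c) / Real.sqrt l) ^ 3) :=
          mul_le_mul_of_nonneg_left (by linarith) hl0.le
      _ = (Real.sqrt l * Real.sqrt l) * (4 * ((M + c) / Real.sqrt l) ^ 3) := by rw [hss]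
      _ = 4 * (M + c) ^ 3 / Real.sqrt l := by field_simp
  have b4 : M ^ 2 / l ≤ M ^ 2 / Real.sqrt l :=
    div_le_div_of_nonneg_left (by positivity) hsq hsl
  rw [Matrix.add_apply, Matrix.sub_apply]
  refine (norm_add_le _ _).trans ?_
  have b5 := norm_sub_le (mf (fun e => 2 * l * (Real.sqrt (1 + e / l) - 1) - e) E i j)
    (mf (fun e => l * ((Real.sqrt (1 + e / l) - 1) * (Real.sqrt (1 + e / l) - 1))) E i j)
  have b6 : (2 * M ^ 2 + 4 * (M + c) ^ 3) / Real.sqrt l =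
      M ^ 2 / Real.sqrt l + M ^ 2 / Real.sqrt l + 4 * (M + c) ^ 3 / Real.sqrt l := by ring
  rw [b6]
  linarith

theorem GLim_tendsto (hE : E.PosSemidef) (hY : Y.IsHermitian) (i j : n) :
    Tendsto (fun l : ℝ => ((l : ℂ) • BB l E Y) i j) atTop (𝓝 ((E - Y * Y) i j)) := by
  obtain ⟨C, l₀, hl₀, hC⟩ := GLim_bound hE hY
  rw [tendsto_iff_norm_sub_tendsto_zero]
  have h1 : Tendsto (fun l : ℝ => C / Real.sqrt l) atTop (𝓝 0) :=
    Real.tendsto_sqrt_atTop.const_div_atTop C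
  refine squeeze_zero' (Filter.Eventually.of_forall fun l => norm_nonneg _) ?_ h1
  filter_upwards [Filter.eventually_ge_atTop l₀] with l hl
  have := hC l hl i j
  rwa [Matrix.sub_apply] at this

theorem GLim_tendsto0 (hE : E.PosSemidef) (hY : Y.IsHermitian) (i j : n) :
    Tendsto (fun l : ℝ => (BB l E Y) i j) atTop (𝓝 0) := by
  have h1 := GLim_tendsto hE hY i j
  have h2 : Tendsto (fun l : ℝ => ((l : ℂ))⁻¹) atTop (𝓝 0) := by
    have h3 := tendsto_inv_atTop_zero (𝕜 := ℝ)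
    have h4 := (Complex.continuous_ofReal.tendsto 0).comp h3
    rw [Complex.ofReal_zero] at h4
    refine h4.congr fun l => ?_
    simp
  have h5 := h2.mul h1
  rw [zero_mul] at h5
  refine h5.congr' ?_
  filter_upwards [Filter.eventually_gt_atTop 0] with l hl
  rw [Matrix.smul_apply, smul_eq_mul, ← mul_assoc, inv_mul_cancel₀ (by exact_mod_cast hl.ne'),
    one_mul]

theorem gg_tendsto (hE : E.PosSemidef) (hY : Y.IsHermitian) :
    Tendsto (gg E Y) atTop (𝓝 (rtr (E - Y * Y))) := by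
  have h1 : ∀ l : ℝ, gg E Y l = (∑ i, ∑ j, (E - Y * Y) i j * (BB l E Y) j i).re +
      (∑ i, ((l : ℂ) • BB l E Y) i i).re := by
    intro l
    unfold gg rtr
    rw [add_mul, Matrix.trace_add, Complex.add_re, Matrix.smul_mul, one_mul]
    congr 1
  have h2 : Tendsto (fun l : ℝ => (∑ i, ∑ j, (E - Y * Y) i j * (BB l E Y) j i)) atTop
      (𝓝 (∑ i : n, ∑ j : n, (E - Y * Y) i j * 0)) :=
    tendsto_finsetSum _ fun i _ => tendsto_finsetSum _ fun j _ =>
      (GLim_tendsto0 hE hY j i).const_mul _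
  have h3 : Tendsto (fun l : ℝ => (∑ i, ((l : ℂ) • BB l E Y) i i)) atTop
      (𝓝 (∑ i : n, (E - Y * Y) i i)) :=
    tendsto_finsetSum _ fun i _ => GLim_tendsto hE hY i i
  have h4 := ((Complex.continuous_re.tendsto _).comp h2).add ((Complex.continuous_re.tendsto _).comp h3)
  simp only [mul_zero, Finset.sum_const_zero, Complex.zero_re, zero_add] at h4
  refine (h4.congr fun l => ?_)
  rw [h1 l]
  rfl

end Vale.Agent.P371.Gen
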