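import Vale.Agent.Lib.P371.Gen.Fun

/-! # P371 Gen: Golden-Thompson in variational form (module GTV)

Claim: `tr (ρ (log P + log Q)) ≤ tr (P Q) - tr ρ + tr (ρ log ρ)` for positive definite `ρ, P, Q`.

Proof. Let `e_i, p_i` be the eigenbasis and the eigenvalues of `P` and `f_j, ρ_j` those of `ρ`.
For `t > 0` put `Z = Z_t = Q (1 + t Q)^{-1}` (Hermitian) and `Z_ij = ⟨e_i, Z f_j⟩`. Then
`2 tr (Z ρ) - tr (Z P Z) - t tr (Z Z ρ) = ∑_ij [2 Re (conj Z_ij ⟨e_i, f_j⟩) ρ_j
  - |Z_ij|^2 (p_i + t ρ_j)] ≤ ∑_ij |⟨e_i, f_j⟩|^2 ρ_j^2 / (p_i + t ρ_j)`      (*)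
(complete the square termwise). Now subtract `tr ρ / (1 + t)` and integrate over `t ∈ (0,∞)`.
Right side: `∫ (ρ_j^2/(p_i + tρ_j) - ρ_j/(1+t)) dt = ρ_j (log ρ_j - log p_i)`, so the integral is
`tr (ρ log ρ) - tr (ρ log P)` (`exists_ovl`: the weights are `|⟨e_i, f_j⟩|^2`).
Left side, in the eigenbasis of `Q`: `∫ (q/(1+tq))^2 dt = q` gives `tr (Q P)`, and
`∫ (2q/(1+tq) - t q^2/(1+tq)^2 - 1/(1+t)) dt = ∫ (q/(1+tq) - 1/(1+t)) dt + ∫ q/(1+tq)^2 dt
 = log q + 1`, so the integral is `tr (ρ log Q) + tr ρ - tr (P Q)`.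
To avoid improper integrals one may integrate over `(0,T)` (all antiderivatives are explicit:
`log (p + tρ)`, `log (1 + tq)`, `-1/(1+tq)`) and let `T → ∞`; every term is a finite sum of
scalar functions of `t`. (To handle `tr (Z_t ρ)` etc. use `exists_ovl` for the pair `(Q, ρ)`,
resp. `(Q, P)`: `Z_t = mf (fun q => q / (1 + t q)) Q`.) -/

open Matrix Set MeasureTheory
open scoped ComplexOrder

namespace Vale.Agent.P371.Gen

variable {n : Type*} [Fintype n] [DecidableEq n]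

namespace GTV

/-- real diagonal matrix -/
noncomputable def dg (a : n → ℝ) : Matrix n n ℂ := diagonal fun i => ((a i : ℝ) : ℂ)

theorem mf_eq {A : Matrix n n ℂ} (hA : A.IsHermitian) (f : ℝ → ℝ) :
    mf f A = (hA.eigenvectorUnitary : Matrix n n ℂ) * dg (fun i => f (hA.eigenvalues i)) *
      (hA.eigenvectorUnitary : Matrix n n ℂ)ᴴ := by
  unfold mf
  rw [hA.cfc_eq, Matrix.IsHermitian.cfc, Unitary.conjStarAlgAut_apply]
  rfl

theorem rtr_dg (a b : n → ℝ) (X Y : Matrix n n ℂ) :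
    rtr (dg a * X * dg b * Yᴴ) = ∑ i, ∑ j, a i * b j * (X i j * star (Y i j)).re := by
  unfold rtr dg
  rw [Matrix.trace, Complex.re_sum]
  refine Finset.sum_congr rfl fun i _ => ?_
  rw [diag_apply, Matrix.mul_apply, Complex.re_sum]
  refine Finset.sum_congr rfl fun j _ => ?_
  rw [Matrix.mul_diagonal, Matrix.diagonal_mul, conjTranspose_apply]
  have e : ((a i : ℝ) : ℂ) * X i j * ((b j : ℝ) : ℂ) * star (Y i j) =
      ((a i * b j : ℝ) : ℂ) * (X i j * star (Y i j)) := by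
    push_cast
    ring
  rw [e, Complex.re_ofReal_mul]

omit [DecidableEq n] in
theorem rtr_comm (A B : Matrix n n ℂ) : rtr (A * B) = rtr (B * A) := by
  unfold rtr
  rw [Matrix.trace_mul_comm]

/-- completion of the square -/
theorem square {p r : ℝ} (hp : 0 < p) (z o : ℂ) :
    2 * r * (z * star o).re - p * (z * star z).re ≤ r ^ 2 / p * (o * star o).re := by
  have h1 : (z * star o).re = z.re * o.re + z.im * o.im := by
    simp [Complex.mul_re]
  have h2 : ∀ w : ℂ, (w * star w).re = w.re ^ 2 + w.im ^ 2 := by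
    intro w
    simp [Complex.mul_re]
    ring
  rw [h1, h2, h2, ← sub_nonneg]
  have e : r ^ 2 / p * (o.re ^ 2 + o.im ^ 2) - (2 * r * (z.re * o.re + z.im * o.im) -
      p * (z.re ^ 2 + z.im ^ 2)) =
      p * ((z.re - r * o.re / p) ^ 2 + (z.im - r * o.im / p) ^ 2) := by
    field_simp
    ring
  rw [e]
  positivity

theorem main {ρ P : Matrix n n ℂ} (hρ : ρ.PosDef) (hP : P.PosDef) :
    ∃ w : n → n → ℝ, (∀ f g : ℝ → ℝ, rtr (mf f P * mf g ρ)
        = ∑ i, ∑ j, w i j * (f (hP.1.eigenvalues i) * g (hρ.1.eigenvalues j))) ∧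
      ∀ t : ℝ, 0 ≤ t → ∀ Z : Matrix n n ℂ, Z.IsHermitian →
        2 * rtr (Z * ρ) - rtr (Z * Z * P) - t * rtr (Z * Z * ρ) ≤
          ∑ i, ∑ j, w i j * (hρ.1.eigenvalues j ^ 2 /
            (hP.1.eigenvalues i + t * hρ.1.eigenvalues j)) := by
  obtain ⟨U, hU⟩ : ∃ U : Matrix n n ℂ, (hP.1.eigenvectorUnitary : Matrix n n ℂ) = U := ⟨_, rfl⟩
  obtain ⟨V, hV⟩ : ∃ V : Matrix n n ℂ, (hρ.1.eigenvectorUnitary : Matrix n n ℂ) = V := ⟨_, rfl⟩
  have hUU : U * Uᴴ = 1 := by
    rw [← hU]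
    exact Unitary.coe_mul_star_self _
  have hUU' : Uᴴ * U = 1 := by
    rw [← hU]
    exact Unitary.coe_star_mul_self _
  have hVV : V * Vᴴ = 1 := by
    rw [← hV]
    exact Unitary.coe_mul_star_self _
  have hVV' : Vᴴ * V = 1 := by
    rw [← hV]
    exact Unitary.coe_star_mul_self _
  have hdg : (dg fun _ : n => (1 : ℝ)) = 1 := by
    unfold dg
    simp
  have eP : ∀ f : ℝ → ℝ, mf f P = U * dg (fun i => f (hP.1.eigenvalues i)) * Uᴴ := by
    intro f
    rw [mf_eq hP.1, hU]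
  have eρ : ∀ f : ℝ → ℝ, mf f ρ = V * dg (fun i => f (hρ.1.eigenvalues i)) * Vᴴ := by
    intro f
    rw [mf_eq hρ.1, hV]
  have eP1 : P = U * dg (fun i => hP.1.eigenvalues i) * Uᴴ := by
    rw [← eP (fun t => t), mf_id hP.1]
  have eρ1 : ρ = V * dg (fun i => hρ.1.eigenvalues i) * Vᴴ := by
    rw [← eρ (fun t => t), mf_id hρ.1]
  refine ⟨fun i j => ((Uᴴ * V) i j * star ((Uᴴ * V) i j)).re, ?_, ?_⟩
  · intro f g
    have h1 : rtr (mf f P * mf g ρ) = rtr (dg (fun i => f (hP.1.eigenvalues i)) * (Uᴴ * V) *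
        dg (fun i => g (hρ.1.eigenvalues i)) * (Uᴴ * V)ᴴ) := by
      rw [eP, eρ, Matrix.mul_assoc U, Matrix.mul_assoc U, rtr_comm]
      rw [conjTranspose_mul, conjTranspose_conjTranspose]
      simp only [Matrix.mul_assoc]
    rw [h1, rtr_dg]
    refine Finset.sum_congr rfl fun i _ => Finset.sum_congr rfl fun j _ => ?_
    ring
  · intro t ht Z hZ
    have h1 : rtr (Z * ρ) = rtr (dg (fun _ => 1) * (Uᴴ * Z * V) *
        dg (fun i => hρ.1.eigenvalues i) * (Uᴴ * V)ᴴ) := by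
      rw [hdg, Matrix.one_mul, conjTranspose_mul, conjTranspose_conjTranspose]
      have h2 : rtr (Uᴴ * Z * V * dg (fun i => hρ.1.eigenvalues i) * (Vᴴ * U)) =
          rtr (Uᴴ * (Z * V * dg (fun i => hρ.1.eigenvalues i) * Vᴴ * U)) := by
        simp only [Matrix.mul_assoc]
      rw [h2, rtr_comm Uᴴ, Matrix.mul_assoc _ U, hUU, Matrix.mul_one]
      conv_lhs => rw [eρ1]
      simp only [Matrix.mul_assoc]
    have hZ' : (Uᴴ * Z * V)ᴴ = Vᴴ * Z * U := by
      rw [conjTranspose_mul, conjTranspose_mul, conjTranspose_conjTranspose, hZ.eq,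
        Matrix.mul_assoc]
    have h3 : rtr (Z * Z * P) = rtr (dg (fun i => hP.1.eigenvalues i) * (Uᴴ * Z * V) *
        dg (fun _ => 1) * (Uᴴ * Z * V)ᴴ) := by
      rw [hdg, Matrix.mul_one, hZ']
      have h4 : rtr (dg (fun i => hP.1.eigenvalues i) * (Uᴴ * Z * V) * (Vᴴ * Z * U)) =
          rtr (dg (fun i => hP.1.eigenvalues i) * Uᴴ * Z * (V * Vᴴ) * Z * U) := by
        simp only [Matrix.mul_assoc]
      rw [h4, hVV, Matrix.mul_one]
      conv_lhs => rw [eP1]
      rw [rtr_comm]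
      conv_rhs => rw [rtr_comm]
      simp only [Matrix.mul_assoc]
    have h5 : rtr (Z * Z * ρ) = rtr (dg (fun _ => 1) * (Uᴴ * Z * V) *
        dg (fun i => hρ.1.eigenvalues i) * (Uᴴ * Z * V)ᴴ) := by
      rw [hdg, Matrix.one_mul, hZ']
      have h6 : rtr (Uᴴ * Z * V * dg (fun i => hρ.1.eigenvalues i) * (Vᴴ * Z * U)) =
          rtr (Uᴴ * (Z * V * dg (fun i => hρ.1.eigenvalues i) * Vᴴ * Z * U)) := by
        simp only [Matrix.mul_assoc]
      rw [h6, rtr_comm Uᴴ, Matrix.mul_assoc _ U, hUU, Matrix.mul_one, Matrix.mul_assoc Z Z,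
        rtr_comm Z (Z * ρ)]
      conv_lhs => rw [eρ1]
      simp only [Matrix.mul_assoc]
    rw [h1, h3, h5, rtr_dg, rtr_dg, rtr_dg, Finset.mul_sum, Finset.mul_sum,
      ← Finset.sum_sub_distrib, ← Finset.sum_sub_distrib]
    refine Finset.sum_le_sum fun i _ => ?_
    rw [Finset.mul_sum, Finset.mul_sum, ← Finset.sum_sub_distrib, ← Finset.sum_sub_distrib]
    refine Finset.sum_le_sum fun j _ => ?_
    have hp : 0 < hP.1.eigenvalues i := hP.eigenvalues_pos i
    have hr : 0 < hρ.1.eigenvalues j := hρ.eigenvalues_pos j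
    have h7 := square (p := hP.1.eigenvalues i + t * hρ.1.eigenvalues j)
      (r := hρ.1.eigenvalues j) (by positivity) ((Uᴴ * Z * V) i j) ((Uᴴ * V) i j)
    refine le_trans (le_of_eq ?_) (h7.trans (le_of_eq ?_))
    · ring
    · ring

end GTV

section scal

variable {n : Type*} [Fintype n]

namespace GTV

open Filter Topology

theorem tendsto_log_sub {p r : ℝ} (hr : 0 < r) :
    Tendsto (fun T : ℝ => Real.log (p + T * r) - Real.log T) atTop (𝓝 (Real.log r)) := by
  have h1 : Tendsto (fun T : ℝ => p / T + r) atTop (𝓝 (0 + r)) :=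
    (tendsto_const_nhds.div_atTop tendsto_id).add tendsto_const_nhds
  rw [zero_add] at h1
  have h2 : Tendsto (fun T : ℝ => Real.log (p / T + r)) atTop (𝓝 (Real.log r)) :=
    h1.log hr.ne'
  refine h2.congr' ?_
  have h3 : ∀ᶠ T : ℝ in atTop, 0 < p / T + r := h1.eventually (lt_mem_nhds hr)
  filter_upwards [h3, eventually_gt_atTop (0 : ℝ)] with T h4 h5
  have e : p + T * r = (p / T + r) * T := by
    field_simp
  rw [e, Real.log_mul h4.ne' h5.ne']
  ring

theorem tendsto_inv_zero {q c : ℝ} (hq : 0 < q) :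
    Tendsto (fun T : ℝ => c / (1 + T * q)) atTop (𝓝 0) := by
  refine tendsto_const_nhds.div_atTop ?_
  exact tendsto_atTop_add_const_left _ _ (tendsto_id.atTop_mul_const hq)

theorem hasDerivAt_lin (p r T : ℝ) : HasDerivAt (fun x : ℝ => p + x * r) r T := by
  have h1 := ((hasDerivAt_id T).mul_const r).const_add p
  rw [one_mul] at h1
  exact h1

theorem hasDerivAt_a {p r T : ℝ} (h : 0 < p + T * r) :
    HasDerivAt (fun x : ℝ => r * (Real.log (p + x * r) - Real.log p)) (r ^ 2 / (p + T * r)) T := by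
  have h1 := (((hasDerivAt_lin p r T).log h.ne').sub_const (Real.log p)).const_mul r
  have e : r * (r / (p + T * r)) = r ^ 2 / (p + T * r) := by ring
  rw [e] at h1
  exact h1

theorem hasDerivAt_b {q T : ℝ} (h : 0 < 1 + T * q) :
    HasDerivAt (fun x : ℝ => Real.log (1 + x * q) + 1 - 1 / (1 + x * q))
      (2 * (q / (1 + T * q)) - T * (q / (1 + T * q)) ^ 2) T := by
  have h1 := ((((hasDerivAt_lin 1 q T).log h.ne').add_const 1)).sub
    ((hasDerivAt_lin 1 q T).inv h.ne')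
  have e : q / (1 + T * q) - -q / (1 + T * q) ^ 2 =
      2 * (q / (1 + T * q)) - T * (q / (1 + T * q)) ^ 2 := by
    field_simp
    ring
  rw [e] at h1
  refine h1.congr_of_eventuallyEq ?_
  refine Eventually.of_forall fun x => ?_
  simp [one_div]

theorem hasDerivAt_c {q T : ℝ} (h : 0 < 1 + T * q) :
    HasDerivAt (fun x : ℝ => q - q / (1 + x * q)) ((q / (1 + T * q)) ^ 2) T := by
  have h1 := (((hasDerivAt_lin 1 q T).inv h.ne').const_mul q).const_sub q
  have e : -(q * (-q / (1 + T * q) ^ 2)) = (q / (1 + T * q)) ^ 2 := by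
    field_simp
  rw [e] at h1
  refine h1.congr_of_eventuallyEq ?_
  refine Eventually.of_forall fun x => ?_
  simp [div_eq_mul_inv]

theorem scalar {w w1 w2 : n → n → ℝ} {p q r : n → ℝ} (hp : ∀ i, 0 < p i) (hq : ∀ i, 0 < q i)
    (hr : ∀ i, 0 < r i) (hs : ∑ i, ∑ j, w i j * r j = ∑ i, ∑ j, w1 i j * r j)
    (h : ∀ t : ℝ, 0 ≤ t → ∑ i, ∑ j, w1 i j * ((2 * (q i / (1 + t * q i)) -
        t * (q i / (1 + t * q i)) ^ 2) * r j) - ∑ i, ∑ j, w2 i j * ((q i / (1 + t * q i)) ^ 2 * p j)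
        ≤ ∑ i, ∑ j, w i j * (r j ^ 2 / (p i + t * r j))) :
    ∑ i, ∑ j, w1 i j * ((Real.log (q i) + 1) * r j) - ∑ i, ∑ j, w2 i j * (q i * p j) ≤
      ∑ i, ∑ j, w i j * (r j * (Real.log (r j) - Real.log (p i))) := by
  obtain ⟨G, hG⟩ : ∃ G : ℝ → ℝ, G = fun T =>
      ∑ i, ∑ j, w i j * (r j * (Real.log (p i + T * r j) - Real.log (p i)))
      - (∑ i, ∑ j, w1 i j * ((Real.log (1 + T * q i) + 1 - 1 / (1 + T * q i)) * r j)
        - ∑ i, ∑ j, w2 i j * ((q i - q i / (1 + T * q i)) * p j)) := ⟨_, rfl⟩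
  have hd : ∀ T : ℝ, 0 ≤ T → HasDerivAt G (∑ i, ∑ j, w i j * (r j ^ 2 / (p i + T * r j))
      - (∑ i, ∑ j, w1 i j * ((2 * (q i / (1 + T * q i)) - T * (q i / (1 + T * q i)) ^ 2) * r j)
        - ∑ i, ∑ j, w2 i j * ((q i / (1 + T * q i)) ^ 2 * p j))) T := by
    intro T hT
    rw [hG]
    have hpr : ∀ i j, 0 < p i + T * r j := fun i j => by
      have := hp i
      have := hr j
      positivity
    have hq1 : ∀ i, 0 < 1 + T * q i := fun i => by
      have := hq i
      positivity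
    refine HasDerivAt.sub ?_ (HasDerivAt.sub ?_ ?_)
    · exact HasDerivAt.fun_sum fun i _ => HasDerivAt.fun_sum fun j _ =>
        (hasDerivAt_a (hpr i j)).const_mul _
    · exact HasDerivAt.fun_sum fun i _ => HasDerivAt.fun_sum fun j _ =>
        ((hasDerivAt_b (hq1 i)).mul_const _).const_mul _
    · exact HasDerivAt.fun_sum fun i _ => HasDerivAt.fun_sum fun j _ =>
        ((hasDerivAt_c (hq1 i)).mul_const _).const_mul _
  have hmono : MonotoneOn G (Ici 0) := by
    refine monotoneOn_of_deriv_nonneg (convex_Ici 0) ?_ ?_ ?_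
    · intro T hT
      exact (hd T hT).continuousAt.continuousWithinAt
    · intro T hT
      rw [interior_Ici] at hT
      exact (hd T (le_of_lt hT)).differentiableAt.differentiableWithinAt
    · intro T hT
      rw [interior_Ici] at hT
      rw [(hd T (le_of_lt hT)).deriv]
      have := h T (le_of_lt hT)
      linarith
  have h0 : G 0 = 0 := by
    rw [hG]
    simp
  have hnn : ∀ T : ℝ, 0 ≤ T → 0 ≤ G T := by
    intro T hT
    rw [← h0]
    exact hmono (mem_Ici.2 le_rfl) (mem_Ici.2 hT) hT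
  have hlim : Tendsto (fun T : ℝ =>
      ∑ i, ∑ j, w i j * (r j * (Real.log (p i + T * r j) - Real.log T - Real.log (p i)))
      - (∑ i, ∑ j, w1 i j * ((Real.log (1 + T * q i) - Real.log T + 1 - 1 / (1 + T * q i)) * r j)
        - ∑ i, ∑ j, w2 i j * ((q i - q i / (1 + T * q i)) * p j))) atTop
      (𝓝 (∑ i, ∑ j, w i j * (r j * (Real.log (r j) - Real.log (p i)))
      - (∑ i, ∑ j, w1 i j * ((Real.log (q i) + 1 - 0) * r j)
        - ∑ i, ∑ j, w2 i j * ((q i - 0) * p j)))) := by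
    refine Tendsto.sub ?_ (Tendsto.sub ?_ ?_)
    · refine tendsto_finsetSum _ fun i _ => tendsto_finsetSum _ fun j _ => ?_
      exact (((tendsto_log_sub (hr j)).sub_const _).const_mul _).const_mul _
    · refine tendsto_finsetSum _ fun i _ => tendsto_finsetSum _ fun j _ => ?_
      exact ((((tendsto_log_sub (hq i)).add_const _).sub
        (tendsto_inv_zero (hq i))).mul_const _).const_mul _
    · refine tendsto_finsetSum _ fun i _ => tendsto_finsetSum _ fun j _ => ?_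
      exact (((tendsto_inv_zero (hq i)).const_sub _).mul_const _).const_mul _
  have hge := ge_of_tendsto hlim (b := 0) ?_
  · simp only [sub_zero] at hge
    linarith
  · filter_upwards [eventually_ge_atTop (0 : ℝ)] with T hT
    refine (hnn T hT).trans (le_of_eq ?_)
    rw [hG]
    have e1 : ∑ i, ∑ j, w i j * (r j * (Real.log (p i + T * r j) - Real.log T - Real.log (p i))) =
        ∑ i, ∑ j, w i j * (r j * (Real.log (p i + T * r j) - Real.log (p i)))
          - Real.log T * ∑ i, ∑ j, w i j * r j := by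
      rw [Finset.mul_sum, ← Finset.sum_sub_distrib]
      refine Finset.sum_congr rfl fun i _ => ?_
      rw [Finset.mul_sum, ← Finset.sum_sub_distrib]
      refine Finset.sum_congr rfl fun j _ => ?_
      ring
    have e2 : ∑ i, ∑ j, w1 i j * ((Real.log (1 + T * q i) - Real.log T + 1 - 1 / (1 + T * q i)) *
        r j) = ∑ i, ∑ j, w1 i j * ((Real.log (1 + T * q i) + 1 - 1 / (1 + T * q i)) * r j)
          - Real.log T * ∑ i, ∑ j, w1 i j * r j := by
      rw [Finset.mul_sum, ← Finset.sum_sub_distrib]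
      refine Finset.sum_congr rfl fun i _ => ?_
      rw [Finset.mul_sum, ← Finset.sum_sub_distrib]
      refine Finset.sum_congr rfl fun j _ => ?_
      ring
    rw [e1, e2, hs]
    ring

end GTV

end scal

theorem gtv {ρ P Q : Matrix n n ℂ} (hρ : ρ.PosDef) (hP : P.PosDef) (hQ : Q.PosDef) :
    rtr (ρ * (mf Real.log P + mf Real.log Q)) ≤
      rtr (P * Q) - rtr ρ + rtr (ρ * mf Real.log ρ) := by
  obtain ⟨w, hw, hkey⟩ := GTV.main hρ hP
  obtain ⟨w1, -, -, -, hw1⟩ := exists_ovl hQ.1 hρ.1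
  obtain ⟨w2, -, -, -, hw2⟩ := exists_ovl hQ.1 hP.1
  have c1 : ∀ {A : Matrix n n ℂ}, A.IsHermitian → mf (fun _ => 1) A = 1 := by
    intro A hA
    rw [mf_const hA]
    simp
  have t1 : rtr ρ = ∑ i, ∑ j, w i j * hρ.1.eigenvalues j := by
    have h1 := hw (fun _ => 1) (fun t => t)
    rw [c1 hP.1, mf_id hρ.1, Matrix.one_mul] at h1
    simpa using h1
  have t2 : rtr ρ = ∑ i, ∑ j, w1 i j * hρ.1.eigenvalues j := by
    have h1 := hw1 (fun _ => 1) (fun t => t)
    rw [c1 hQ.1, mf_id hρ.1, Matrix.one_mul] at h1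
    simpa using h1
  have t3 : rtr (ρ * mf Real.log ρ) =
      ∑ i, ∑ j, w i j * (hρ.1.eigenvalues j * Real.log (hρ.1.eigenvalues j)) := by
    have h1 := hw (fun _ => 1) (fun t => t * Real.log t)
    rw [c1 hP.1, mf_mul hρ.1 (fun t => t) Real.log, mf_id hρ.1, Matrix.one_mul] at h1
    simpa using h1
  have t4 : rtr (ρ * mf Real.log P) =
      ∑ i, ∑ j, w i j * (Real.log (hP.1.eigenvalues i) * hρ.1.eigenvalues j) := by
    have h1 := hw Real.log (fun t => t)
    rw [mf_id hρ.1] at h1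
    rw [GTV.rtr_comm, h1]
  have t5 : rtr (ρ * mf Real.log Q) =
      ∑ i, ∑ j, w1 i j * (Real.log (hQ.1.eigenvalues i) * hρ.1.eigenvalues j) := by
    have h1 := hw1 Real.log (fun t => t)
    rw [mf_id hρ.1] at h1
    rw [GTV.rtr_comm, h1]
  have t6 : rtr (P * Q) = ∑ i, ∑ j, w2 i j * (hQ.1.eigenvalues i * hP.1.eigenvalues j) := by
    have h1 := hw2 (fun t => t) (fun t => t)
    rw [mf_id hQ.1, mf_id hP.1] at h1
    rw [GTV.rtr_comm, h1]
  have h := GTV.scalar (w := w) (w1 := w1) (w2 := w2) (p := hP.1.eigenvalues)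
    (q := hQ.1.eigenvalues) (r := hρ.1.eigenvalues) hP.eigenvalues_pos hQ.eigenvalues_pos
    hρ.eigenvalues_pos (t1.symm.trans t2) ?_
  · have e1 : ∑ i, ∑ j, w1 i j * ((Real.log (hQ.1.eigenvalues i) + 1) * hρ.1.eigenvalues j) =
        rtr (ρ * mf Real.log Q) + rtr ρ := by
      rw [t5, t2, ← Finset.sum_add_distrib]
      refine Finset.sum_congr rfl fun i _ => ?_
      rw [← Finset.sum_add_distrib]
      refine Finset.sum_congr rfl fun j _ => ?_
      ring
    have e2 : ∑ i, ∑ j, w i j * (hρ.1.eigenvalues j * (Real.log (hρ.1.eigenvalues j) -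
        Real.log (hP.1.eigenvalues i))) = rtr (ρ * mf Real.log ρ) - rtr (ρ * mf Real.log P) := by
      rw [t3, t4, ← Finset.sum_sub_distrib]
      refine Finset.sum_congr rfl fun i _ => ?_
      rw [← Finset.sum_sub_distrib]
      refine Finset.sum_congr rfl fun j _ => ?_
      ring
    rw [e1, e2, ← t6] at h
    have e3 : rtr (ρ * (mf Real.log P + mf Real.log Q)) =
        rtr (ρ * mf Real.log P) + rtr (ρ * mf Real.log Q) := by
      unfold rtr
      rw [Matrix.mul_add, Matrix.trace_add, Complex.add_re]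
    rw [e3]
    linarith
  · intro t ht
    have k := hkey t ht (mf (fun u => u / (1 + t * u)) Q) (mf_isHermitian _ _)
    have s1 := hw1 (fun u => u / (1 + t * u)) (fun u => u)
    rw [mf_id hρ.1] at s1
    have s2 := hw1 (fun u => u / (1 + t * u) * (u / (1 + t * u))) (fun u => u)
    rw [mf_id hρ.1, mf_mul hQ.1 (fun u => u / (1 + t * u)) (fun u => u / (1 + t * u))] at s2
    have s3 := hw2 (fun u => u / (1 + t * u) * (u / (1 + t * u))) (fun u => u)
    rw [mf_id hP.1, mf_mul hQ.1 (fun u => u / (1 + t * u)) (fun u => u / (1 + t * u))] at s3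
    rw [s1, s2, s3] at k
    refine le_trans (le_of_eq ?_) k
    have e1 : 2 * ∑ i, ∑ j, w1 i j * (hQ.1.eigenvalues i / (1 + t * hQ.1.eigenvalues i) *
        hρ.1.eigenvalues j) - t * ∑ i, ∑ j, w1 i j * (hQ.1.eigenvalues i /
        (1 + t * hQ.1.eigenvalues i) * (hQ.1.eigenvalues i / (1 + t * hQ.1.eigenvalues i)) *
        hρ.1.eigenvalues j) = ∑ i, ∑ j, w1 i j * ((2 * (hQ.1.eigenvalues i /
        (1 + t * hQ.1.eigenvalues i)) - t * (hQ.1.eigenvalues i /
        (1 + t * hQ.1.eigenvalues i)) ^ 2) * hρ.1.eigenvalues j) := by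
      rw [Finset.mul_sum, Finset.mul_sum, ← Finset.sum_sub_distrib]
      refine Finset.sum_congr rfl fun i _ => ?_
      rw [Finset.mul_sum, Finset.mul_sum, ← Finset.sum_sub_distrib]
      refine Finset.sum_congr rfl fun j _ => ?_
      ring
    have e2 : ∑ i, ∑ j, w2 i j * ((hQ.1.eigenvalues i / (1 + t * hQ.1.eigenvalues i)) ^ 2 *
        hP.1.eigenvalues j) = ∑ i, ∑ j, w2 i j * (hQ.1.eigenvalues i /
        (1 + t * hQ.1.eigenvalues i) * (hQ.1.eigenvalues i / (1 + t * hQ.1.eigenvalues i)) *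
        hP.1.eigenvalues j) := by
      refine Finset.sum_congr rfl fun i _ => Finset.sum_congr rfl fun j _ => ?_
      ring
    rw [← e1, e2]
    ring

end Vale.Agent.P371.Gen
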