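import Vale.Agent.Lib.P371.Gen.GDeriv
import Vale.Agent.Lib.P371.Gen.GLim
import Vale.Agent.Lib.P371.Gen.GTV

/-! # P371 Gen: monotonicity of g (module GMono)

`rtr_BB_le`: `gtv` with `ρ = l • 1`: `l tr L_l ≤ tr (P Q) - l N + l log l N`, and
`tr (P Q) = tr (K_l^2 - Y^2) = tr X + l N`.
`gg_ge`: `g' ≤ tr B - tr X / l ≤ 0`, so `g` is antitone on `(0,∞)` with limit `tr X`.
`int_lower`: let `H(l) = l^θ (1/θ) (tr X - g(l))`, `f(l)` the integrand. Then
`f + H' = (1/θ) l^θ (tr B_l - tr X / l - g') ≥ 0`. So `R ↦ ∫_ε^R f + H(R)` is monotone, and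
`H(R) ≤ 0` by `gg_ge`. -/

open Matrix Set MeasureTheory
open scoped ComplexOrder

namespace Vale.Agent.P371.Gen

set_option linter.unusedSectionVars false

variable {n : Type*} [Fintype n] [DecidableEq n] {E Y : Matrix n n ℂ}

private theorem gmono_rtr_add (A B : Matrix n n ℂ) : rtr (A + B) = rtr A + rtr B := by
  simp [rtr, Matrix.trace_add]

private theorem gmono_rtr_sub (A B : Matrix n n ℂ) : rtr (A - B) = rtr A - rtr B := by
  simp [rtr, Matrix.trace_sub]

private theorem gmono_rtr_smul (c : ℝ) (A : Matrix n n ℂ) :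
    rtr ((c : ℂ) • A) = c * rtr A := by
  simp [rtr, Matrix.trace_smul]

private theorem gmono_rtr_one : rtr (1 : Matrix n n ℂ) = Fintype.card n := by
  simp [rtr, Matrix.trace_one]

private theorem gmono_rtr_comm (A B : Matrix n n ℂ) : rtr (A * B) = rtr (B * A) := by
  simp only [rtr, Matrix.trace_mul_comm A B]

private theorem gmono_log_smul_one (l : ℝ) :
    mf Real.log ((l : ℂ) • (1 : Matrix n n ℂ)) =
      ((Real.log l : ℝ) : ℂ) • (1 : Matrix n n ℂ) := by
  have h1 : (1 : Matrix n n ℂ).IsHermitian := Matrix.isHermitian_one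
  rw [← mf_const h1 l, mf_comp h1, mf_const h1]

theorem rtr_BB_le (hE : E.PosSemidef) (hY : Y.IsHermitian) (h1 : (msqrt E - Y).PosSemidef)
    (h2 : (msqrt E + Y).PosSemidef) {l : ℝ} (hl : 0 < l) :
    rtr (BB l E Y) ≤ rtr (E - Y * Y) / l := by
  have hP := Kl_add_posDef hE h2 hl
  have hQ := Kl_sub_posDef hE h1 hl
  have hρ : ((l : ℂ) • (1 : Matrix n n ℂ)).PosDef := by
    refine Matrix.PosDef.smul Matrix.PosDef.one ?_
    exact_mod_cast hl
  have h3 := gtv hρ hP hQ
  rw [gmono_log_smul_one, Matrix.smul_mul, Matrix.one_mul, Matrix.smul_mul, Matrix.one_mul,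
    gmono_rtr_smul, gmono_rtr_smul, gmono_rtr_smul, gmono_rtr_smul, gmono_rtr_one] at h3
  have h4 : rtr ((Kl l E + Y) * (Kl l E - Y)) = rtr (E - Y * Y) + l * Fintype.card n := by
    have e1 : (Kl l E + Y) * (Kl l E - Y) =
        Kl l E * Kl l E - Y * Y + (Y * Kl l E - Kl l E * Y) := by
      noncomm_ring
    rw [e1, Kl_mul_self hE hl.le, gmono_rtr_add, gmono_rtr_sub, gmono_rtr_sub, gmono_rtr_sub,
      gmono_rtr_add, gmono_rtr_smul, gmono_rtr_one, gmono_rtr_comm Y (Kl l E)]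
    ring
  rw [h4] at h3
  have h5 : rtr (BB l E Y) = rtr (mf Real.log (Kl l E + Y) + mf Real.log (Kl l E - Y)) -
      Real.log l * Fintype.card n := by
    unfold BB LL
    rw [gmono_rtr_sub, gmono_rtr_smul, gmono_rtr_one]
  rw [h5, le_div_iff₀ hl]
  linarith

theorem gg_ge (hE : E.PosSemidef) (hY : Y.IsHermitian) (h1 : (msqrt E - Y).PosSemidef)
    (h2 : (msqrt E + Y).PosSemidef) {l : ℝ} (hl : 0 < l) :
    rtr (E - Y * Y) ≤ gg E Y l := by
  have hder : ∀ t : ℝ, 0 < t → ∃ g' : ℝ, HasDerivAt (gg E Y) g' t ∧ g' ≤ 0 := by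
    intro t ht
    obtain ⟨g', hg, hle⟩ := gg_deriv hE hY h1 h2 ht
    have h3 := rtr_BB_le hE hY h1 h2 ht
    exact ⟨g', hg, by linarith⟩
  have hanti : AntitoneOn (gg E Y) (Ioi 0) := by
    refine antitoneOn_of_deriv_nonpos (convex_Ioi 0) ?_ ?_ ?_
    · intro t ht
      obtain ⟨g', hg, _⟩ := hder t ht
      exact hg.continuousAt.continuousWithinAt
    · intro t ht
      rw [interior_Ioi] at ht
      obtain ⟨g', hg, _⟩ := hder t ht
      exact hg.differentiableAt.differentiableWithinAt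
    · intro t ht
      rw [interior_Ioi] at ht
      obtain ⟨g', hg, hle⟩ := hder t ht
      rw [hg.deriv]
      exact hle
  refine le_of_tendsto (gg_tendsto hE hY) ?_
  filter_upwards [Filter.eventually_ge_atTop l] with m hm
  exact hanti hl (lt_of_lt_of_le hl hm) hm

private theorem gmono_psd {P : Matrix n n ℂ} {c c' : ℝ} (hcc : c' ≤ c)
    (h : (P - (c : ℂ) • (1 : Matrix n n ℂ)).PosSemidef) :
    (P - (c' : ℂ) • (1 : Matrix n n ℂ)).PosSemidef := by
  have h1 : (((c - c' : ℝ) : ℂ) • (1 : Matrix n n ℂ)).PosSemidef := by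
    refine Matrix.PosSemidef.smul Matrix.PosSemidef.one ?_
    have h2 : 0 ≤ c - c' := by linarith
    exact_mod_cast h2
  have h2 := h.add h1
  have h3 : P - (c : ℂ) • (1 : Matrix n n ℂ) + ((c - c' : ℝ) : ℂ) • (1 : Matrix n n ℂ) =
      P - (c' : ℂ) • (1 : Matrix n n ℂ) := by
    push_cast
    module
  rwa [h3] at h2

/-- `l ↦ B_l` is continuous on `(0,∞)` (entrywise). -/
theorem continuousOn_BB (hE : E.PosSemidef) (hY : Y.IsHermitian) (h1 : (msqrt E - Y).PosSemidef)
    (h2 : (msqrt E + Y).PosSemidef) : ContinuousOn (fun l => BB l E Y) (Ioi 0) := by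
  intro l0 hl0
  have hl0' : 0 < l0 := hl0
  have hT : 0 ≤ rtr E := rtr_nonneg hE
  set c : ℝ := (l0 / 2) / (2 * Real.sqrt (rtr E + 2 * l0)) with hc
  have hc0 : 0 < c := by
    have h3 : 0 < Real.sqrt (rtr E + 2 * l0) := Real.sqrt_pos.2 (by linarith)
    positivity
  have hcl : ∀ l ∈ Ioo (l0 / 2) (2 * l0), c ≤ l / (2 * Real.sqrt (rtr E + l)) := by
    intro l hl
    have h3 : 0 < Real.sqrt (rtr E + l) := Real.sqrt_pos.2 (by linarith [hl.1])
    have h4 : Real.sqrt (rtr E + l) ≤ Real.sqrt (rtr E + 2 * l0) :=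
      Real.sqrt_le_sqrt (by linarith [hl.2])
    rw [hc]
    exact div_le_div₀ (by linarith [hl.1]) hl.1.le (by positivity) (by linarith)
  have hlpos : ∀ l ∈ Ioo (l0 / 2) (2 * l0), 0 < l := fun l hl => by linarith [hl.1]
  have hKc := continuous_Kl (n := n) hE
  have hA : ContinuousOn (fun l => mf Real.log (Kl l E + Y)) (Ioo (l0 / 2) (2 * l0)) := by
    refine continuousOn_mf_log (P := fun l => Kl l E + Y) ?_ hc0 ?_
    · exact (hKc.add continuous_const).continuousOn
    · intro l hl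
      exact gmono_psd (hcl l hl) (Kl_add_ge hE h2 (hlpos l hl))
  have hB : ContinuousOn (fun l => mf Real.log (Kl l E - Y)) (Ioo (l0 / 2) (2 * l0)) := by
    refine continuousOn_mf_log (P := fun l => Kl l E - Y) ?_ hc0 ?_
    · exact (hKc.sub continuous_const).continuousOn
    · intro l hl
      exact gmono_psd (hcl l hl) (Kl_sub_ge hE h1 (hlpos l hl))
  have hlog : ContinuousOn (fun l : ℝ => ((Real.log l : ℝ) : ℂ) • (1 : Matrix n n ℂ))
      (Ioo (l0 / 2) (2 * l0)) := by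
    have hl1 : ContinuousOn (fun l : ℝ => ((Real.log l : ℝ) : ℂ)) (Ioo (l0 / 2) (2 * l0)) :=
      Complex.continuous_ofReal.comp_continuousOn
        (Real.continuousOn_log.mono (fun l hl => (hlpos l hl).ne'))
    exact hl1.smul (continuousOn_const (c := (1 : Matrix n n ℂ)))
  have hall : ContinuousOn (fun l => BB l E Y) (Ioo (l0 / 2) (2 * l0)) := (hA.add hB).sub hlog
  have hmem : Ioo (l0 / 2) (2 * l0) ∈ nhds l0 := Ioo_mem_nhds (by linarith) (by linarith)
  exact (hall.continuousAt hmem).continuousWithinAt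

end Vale.Agent.P371.Gen
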