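import Vale.Agent.Lib.P371.Gen.RicComp
import Vale.Agent.Lib.P371.Kinetic

/-! # P371 Gen: lower bound from the Riccati solution (module JBound)

`jbound`: `K = √E`, `v ∈ H^1(ℝ; ℂ^N)`. Since `⟨v, A v⟩' = 2 Re ⟨v', A v⟩ + ⟨v, A' v⟩`,
on `(-∞, a]`: `‖v'‖^2 + ⟨v, E v⟩ = ‖v' - K v‖^2 + ⟨v, K v⟩'` integrates to `≥ ⟨v(a), K v(a)⟩`
(`v → 0` at infinity); on `[b, ∞)` likewise with `v' + K v`: `≥ ⟨v(b), K v(b)⟩`; on `[a, b]`:
`‖v'‖^2 + ⟨v, E v⟩ - ⟨v, W v⟩ = ‖v' + Y v‖^2 - ⟨v, Y v⟩'` (as `Y' = Y^2 - E + W`) integrates to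
`≥ -⟨v(b), Y(b) v(b)⟩ + ⟨v(a), Y(a) v(a)⟩ = -⟨v(b), K v(b)⟩ - ⟨v(a), K v(a)⟩`. Add up.
(Tools: `HasW` / `HasWM` calculus in `Lib/P371/WDeriv.lean`, `WMat.lean`; `IsH1` in `H1.lean`.)

`jbound_mat`: sum `jbound` over the `m` functions `v_a = ` column `a` of `T (Umat f x)ᴴ`:
`∑_a v_a v_aᴴ = T (gram f x) T`, and `∫ gram f = 1`. -/

open Matrix Set MeasureTheory
open scoped ComplexOrder

namespace Vale.Agent.P371.Gen

open Filter Topology

/-- bounded matrix functions times `L²` matrix functions -/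
private theorem jb_memLp {l n k : Type*} [Fintype n] {M : ℝ → Matrix l n ℂ}
    {U : ℝ → Matrix n k ℂ} {C : ℝ} (hM : ∀ i j, AEStronglyMeasurable (fun x => M x i j) volume)
    (hC : ∀ x i j, ‖M x i j‖ ≤ C) (hU : ∀ a i, MemLp (fun x => U x a i) 2 volume) (i : l) (j : k) :
    MemLp (fun x => (M x * U x) i j) 2 volume := by
  simp only [Matrix.mul_apply]
  refine memLp_finsetSum _ fun a _ => ?_
  refine MemLp.of_le_mul (c := C) (hU a j) ((hM i a).mul (hU a j).1) ?_
  refine Eventually.of_forall fun x => ?_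
  rw [norm_mul]
  exact mul_le_mul_of_nonneg_right (hC x i a) (norm_nonneg _)

/-- the integral of the weak derivative of an integrable function vanishes -/
private theorem jb_int_zero {q q' : ℝ → ℂ} (hq : HasW q q') (h1 : Integrable q)
    (h2 : Integrable q') : ∫ x, q' x = 0 := by
  have t1 := hq.tendsto_atTop h1 h2
  have t2 := (hq.tendsto_atBot h1 h2).comp tendsto_neg_atTop_atBot
  have t3 : Tendsto (fun R : ℝ => q R - q (-R)) atTop (𝓝 (0 - 0)) := t1.sub t2
  have t4 : Tendsto (fun R : ℝ => ∫ x in (-R)..R, q' x) atTop (𝓝 (∫ x, q' x)) :=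
    intervalIntegral_tendsto_integral h2 tendsto_neg_atTop_atBot tendsto_id
  have t5 : (fun R : ℝ => ∫ x in (-R)..R, q' x) = fun R => q R - q (-R) := by
    funext R
    rw [hq.ftc]
  rw [t5] at t4
  have := tendsto_nhds_unique t4 t3
  simpa using this

private theorem jb_int4 {f1 f2 f3 f4 : ℝ → ℝ} (h1 : Integrable f1) (h2 : Integrable f2)
    (h3 : Integrable f3) (h4 : Integrable f4) :
    ∫ x, (f1 x + f2 x - f3 x + f4 x) =
      (∫ x, f1 x) + (∫ x, f2 x) - (∫ x, f3 x) + ∫ x, f4 x := by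
  have e1 : ∫ x, (f1 x + f2 x) = (∫ x, f1 x) + ∫ x, f2 x := integral_add h1 h2
  have e2 : ∫ x, (f1 x + f2 x - f3 x) = (∫ x, (f1 x + f2 x)) - ∫ x, f3 x :=
    integral_sub (h1.add h2) h3
  have e3 : ∫ x, (f1 x + f2 x - f3 x + f4 x) = (∫ x, (f1 x + f2 x - f3 x)) + ∫ x, f4 x :=
    integral_add ((h1.add h2).sub h3) h4
  rw [e3, e2, e1]

private theorem jb_inner {N : ℕ} (A : Matrix (Fin N) (Fin N) ℂ)
    (v : ℝ → EuclideanSpace ℂ (Fin N)) (x : ℝ) :
    (inner ℂ (v x) (app A (v x)) : ℂ) =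
      ((Umat (fun _ : Fin 1 => v) x)ᴴ * (A * Umat (fun _ : Fin 1 => v) x)).trace := by
  rw [PiLp.inner_apply, Matrix.trace, Fin.sum_univ_one, Matrix.diag_apply, Matrix.mul_apply]
  apply Finset.sum_congr rfl
  intro i _
  rw [RCLike.inner_apply, Matrix.mul_apply, mul_comm]
  rfl

/-- the extension of the Riccati solution to the line -/
private noncomputable def jbZ {N : ℕ} (a b : ℝ) (Y : ℝ → Matrix (Fin N) (Fin N) ℂ) (x : ℝ) :
    Matrix (Fin N) (Fin N) ℂ := Y (max a (min b x))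

open Classical in
private noncomputable def jbW {N : ℕ} (a b : ℝ) (W : ℝ → Matrix (Fin N) (Fin N) ℂ) (x : ℝ) :
    Matrix (Fin N) (Fin N) ℂ := if x ∈ Icc a b then W x else 0

private theorem jb_clamp {a b : ℝ} (hab : a < b) (x : ℝ) : max a (min b x) ∈ Icc a b :=
  ⟨le_max_left _ _, max_le hab.le (min_le_left _ _)⟩

private theorem jb_clamp_of_mem {a b x : ℝ} (hx : x ∈ Icc a b) : max a (min b x) = x := by
  rw [min_eq_right hx.2, max_eq_right hx.1]

private theorem jb_clamp_of_lt {a b x : ℝ} (hab : a < b) (hx : x < a) :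
    max a (min b x) = a := by
  rw [min_eq_right (hx.trans hab).le, max_eq_left hx.le]

private theorem jb_clamp_of_gt {a b x : ℝ} (hab : a < b) (hx : b < x) :
    max a (min b x) = b := by
  rw [min_eq_left hx.le, max_eq_right hab.le]

section
variable {N : ℕ} {a b : ℝ} {W Y : ℝ → Matrix (Fin N) (Fin N) ℂ} {E : Matrix (Fin N) (Fin N) ℂ}

private theorem jbZ_continuous (hab : a < b) (hR : IsRic a b W E Y) (i j : Fin N) :
    Continuous fun x => jbZ a b Y x i j := by
  have h1 : ContinuousOn (fun t => Y t i j) (Icc a b) :=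
    fun x hx => (hR.deriv x hx i j).continuousWithinAt
  have h3 : Continuous fun x : ℝ => max a (min b x) := by fun_prop
  have h4 : Continuous fun x : ℝ => (⟨max a (min b x), jb_clamp hab x⟩ : Icc a b) :=
    h3.subtype_mk _
  exact (continuousOn_iff_continuous_domRestrict.mp h1).comp h4

private theorem jbZ_bounded (hab : a < b) (hR : IsRic a b W E Y) :
    ∃ C : ℝ, ∀ x i j, ‖jbZ a b Y x i j‖ ≤ C := by
  have h1 : ∀ i j, ∃ C : ℝ, ∀ t ∈ Icc a b, ‖Y t i j‖ ≤ C := by
    intro i j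
    have h2 : ContinuousOn (fun t => Y t i j) (Icc a b) :=
      fun x hx => (hR.deriv x hx i j).continuousWithinAt
    exact isCompact_Icc.exists_bound_of_continuousOn h2
  choose C hC using h1
  refine ⟨∑ i, ∑ j, |C i j|, fun x i j => ?_⟩
  have h3 : ‖jbZ a b Y x i j‖ ≤ |C i j| := (hC i j _ (jb_clamp hab x)).trans (le_abs_self _)
  refine h3.trans ((Finset.single_le_sum (f := fun j => |C i j|)
    (fun j _ => abs_nonneg _) (Finset.mem_univ j)).trans ?_)
  exact Finset.single_le_sum (f := fun i => ∑ j, |C i j|)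
    (fun i _ => Finset.sum_nonneg fun j _ => abs_nonneg _) (Finset.mem_univ i)

private theorem jbW_entry (i j : Fin N) :
    (fun x => jbW a b W x i j) = (Icc a b).indicator fun x => W x i j := by
  funext x
  unfold jbW
  by_cases hx : x ∈ Icc a b
  · rw [if_pos hx, Set.indicator_of_mem hx]
  · rw [if_neg hx, Set.indicator_of_notMem hx]
    rfl

private theorem jbW_cont_entry (hWc : ContinuousOn W (Icc a b)) (i j : Fin N) :
    ContinuousOn (fun x => W x i j) (Icc a b) :=
  (continuous_apply_apply i j).comp_continuousOn hWc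

private theorem jbW_integrable (hWc : ContinuousOn W (Icc a b)) (i j : Fin N) :
    Integrable (fun x => jbW a b W x i j) := by
  rw [jbW_entry]
  exact ((jbW_cont_entry hWc i j).integrableOn_Icc).integrable_indicator measurableSet_Icc

private theorem jbW_bounded (hWc : ContinuousOn W (Icc a b)) :
    ∃ C : ℝ, ∀ x i j, ‖jbW a b W x i j‖ ≤ C := by
  have h1 : ∀ i j, ∃ C : ℝ, ∀ t ∈ Icc a b, ‖W t i j‖ ≤ C := fun i j =>
    isCompact_Icc.exists_bound_of_continuousOn (jbW_cont_entry hWc i j)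
  choose C hC using h1
  refine ⟨∑ i, ∑ j, |C i j|, fun x i j => ?_⟩
  have h3 : ‖jbW a b W x i j‖ ≤ |C i j| := by
    unfold jbW
    by_cases hx : x ∈ Icc a b
    · rw [if_pos hx]
      exact (hC i j x hx).trans (le_abs_self _)
    · rw [if_neg hx]
      simp
  refine h3.trans ((Finset.single_le_sum (f := fun j => |C i j|)
    (fun j _ => abs_nonneg _) (Finset.mem_univ j)).trans ?_)
  exact Finset.single_le_sum (f := fun i => ∑ j, |C i j|)
    (fun i _ => Finset.sum_nonneg fun j _ => abs_nonneg _) (Finset.mem_univ i)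

/-- the derivative of the extension -/
private noncomputable def jbZ' (a b : ℝ) (W Y : ℝ → Matrix (Fin N) (Fin N) ℂ)
    (E : Matrix (Fin N) (Fin N) ℂ) (x : ℝ) : Matrix (Fin N) (Fin N) ℂ :=
  jbZ a b Y x * jbZ a b Y x - E + jbW a b W x

private theorem jbZ'_locint (hab : a < b) (hWc : ContinuousOn W (Icc a b))
    (hR : IsRic a b W E Y) (i j : Fin N) (c d : ℝ) :
    IntervalIntegrable (fun x => jbZ' a b W Y E x i j) volume c d := by
  have h1 : Continuous fun x => (jbZ a b Y x * jbZ a b Y x - E) i j := by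
    simp only [Matrix.sub_apply, Matrix.mul_apply]
    refine Continuous.sub (continuous_finsetSum _ fun k _ => ?_) continuous_const
    exact (jbZ_continuous hab hR i k).mul (jbZ_continuous hab hR k j)
  exact (h1.intervalIntegrable c d).add (jbW_integrable hWc i j).intervalIntegrable

private theorem jbZ_hasWM (hab : a < b) (hWc : ContinuousOn W (Icc a b)) (hE : E.PosSemidef)
    (hR : IsRic a b W E Y) (hend : Y b = msqrt E) :
    HasWM (jbZ a b Y) (jbZ' a b W Y E) := by
  have hEE : msqrt E * msqrt E = E := msqrt_mul_self hE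
  intro i j
  refine ⟨jbZ'_locint hab hWc hR i j, fun c d => ?_⟩
  symm
  refine MeasureTheory.integral_eq_of_hasDerivAt_off_countable (s := {a, b}) _ _
    ((Set.finite_singleton b).insert a).countable
    (jbZ_continuous hab hR i j).continuousOn ?_ (jbZ'_locint hab hWc hR i j c d)
  rintro x ⟨-, hx⟩
  simp only [Set.mem_insert_iff, Set.mem_singleton_iff, not_or] at hx
  rcases lt_or_gt_of_ne hx.1 with h | h
  · -- x < a
    have e0 : jbZ' a b W Y E x = 0 := by
      unfold jbZ' jbZ jbW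
      rw [jb_clamp_of_lt hab h, hR.init, if_neg (fun hm => absurd hm.1 (not_le.mpr h))]
      rw [neg_mul_neg, hEE, sub_self, add_zero]
    have e1 : (fun x => jbZ a b Y x i j) =ᶠ[𝓝 x] fun _ => Y a i j := by
      filter_upwards [gt_mem_nhds h] with y hy
      unfold jbZ
      rw [jb_clamp_of_lt hab hy]
    have e2 := (hasDerivAt_const x (Y a i j)).congr_of_eventuallyEq e1
    rw [e0]
    exact e2
  · rcases lt_or_gt_of_ne hx.2 with h' | h'
    · -- a < x < b
      have hxm : x ∈ Icc a b := ⟨h.le, h'.le⟩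
      have e0 : jbZ' a b W Y E x = Y x * Y x - E + W x := by
        unfold jbZ' jbZ jbW
        rw [jb_clamp_of_mem hxm, if_pos hxm]
      have e1 : (fun x => jbZ a b Y x i j) =ᶠ[𝓝 x] fun x => Y x i j := by
        filter_upwards [Icc_mem_nhds h h'] with y hy
        unfold jbZ
        rw [jb_clamp_of_mem hy]
      have e2 := (hR.deriv x hxm i j).hasDerivAt (Icc_mem_nhds h h')
      rw [e0]
      exact e2.congr_of_eventuallyEq e1
    · -- x > b
      have e0 : jbZ' a b W Y E x = 0 := by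
        unfold jbZ' jbZ jbW
        rw [jb_clamp_of_gt hab h', hend, if_neg (fun hm => absurd hm.2 (not_le.mpr h'))]
        rw [hEE, sub_self, add_zero]
      have e1 : (fun x => jbZ a b Y x i j) =ᶠ[𝓝 x] fun _ => Y b i j := by
        filter_upwards [lt_mem_nhds h'] with y hy
        unfold jbZ
        rw [jb_clamp_of_gt hab hy]
      have e2 := (hasDerivAt_const x (Y b i j)).congr_of_eventuallyEq e1
      rw [e0]
      exact e2

private theorem jb_identity {Z E Wt : Matrix (Fin N) (Fin N) ℂ} (hZ : Z.IsHermitian)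
    (V V' : Matrix (Fin N) (Fin 1) ℂ) :
    (V' + Z * V)ᴴ * (V' + Z * V) = V'ᴴ * V' + Vᴴ * (E * V) - Vᴴ * (Wt * V) +
      ((V'ᴴ * Z + Vᴴ * (Z * Z - E + Wt)) * V + Vᴴ * Z * V') := by
  have hZ' : Zᴴ = Z := hZ
  rw [Matrix.conjTranspose_add, Matrix.conjTranspose_mul, hZ']
  simp only [Matrix.mul_add, Matrix.add_mul, Matrix.mul_sub, Matrix.sub_mul, Matrix.mul_assoc]
  abel

end

theorem jbound {N : ℕ} {a b : ℝ} (hab : a < b) {W Y : ℝ → Matrix (Fin N) (Fin N) ℂ}
    {E : Matrix (Fin N) (Fin N) ℂ} (hWc : ContinuousOn W (Icc a b)) (hE : E.PosSemidef)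
    (hR : IsRic a b W E Y) (hend : Y b = msqrt E) {v v' : ℝ → EuclideanSpace ℂ (Fin N)}
    (hv : IsH1 v v') :
    ∫ x in a..b, (inner ℂ (v x) (app (W x) (v x))).re ≤
      (∫ x, ‖v' x‖ ^ 2) + ∫ x, (inner ℂ (v x) (app E (v x))).re := by
  set V : ℝ → Matrix (Fin N) (Fin 1) ℂ := Umat (fun _ : Fin 1 => v) with hVdef
  set V' : ℝ → Matrix (Fin N) (Fin 1) ℂ := Umat (fun _ : Fin 1 => v') with hV'def
  set Z := jbZ a b Y with hZdef
  set Wt := jbW a b W with hWtdef
  have hV : HasWM V V' := IsH1.hasWM (fun _ => hv)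
  have hV2 : ∀ i j, MemLp (fun x => V x i j) 2 volume := Umat_memLp (fun _ => hv.memLp)
  have hV2' : ∀ i j, MemLp (fun x => V' x i j) 2 volume := Umat_memLp (fun _ => hv.memLp_deriv)
  have hZ : HasWM Z (jbZ' a b W Y E) := jbZ_hasWM hab hWc hE hR hend
  obtain ⟨C1, hC1⟩ := jbZ_bounded hab hR
  obtain ⟨C2, hC2⟩ := jbW_bounded (a := a) (b := b) hWc
  have hZm : ∀ i j, AEStronglyMeasurable (fun x => Z x i j) volume := fun i j =>
    (jbZ_continuous hab hR i j).aestronglyMeasurable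
  have hWm : ∀ i j, AEStronglyMeasurable (fun x => Wt x i j) volume := fun i j =>
    (jbW_integrable hWc i j).aestronglyMeasurable
  -- square integrable products
  have hZV : ∀ i j, MemLp (fun x => (Z x * V x) i j) 2 volume := jb_memLp hZm hC1 hV2
  have hZV' : ∀ i j, MemLp (fun x => (Z x * V' x) i j) 2 volume := jb_memLp hZm hC1 hV2'
  have hWV : ∀ i j, MemLp (fun x => (Wt x * V x) i j) 2 volume := jb_memLp hWm hC2 hV2
  obtain ⟨C3, hC3⟩ : ∃ C : ℝ, ∀ (x : ℝ) (i j : Fin N), ‖(fun _ : ℝ => E) x i j‖ ≤ C := by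
    refine ⟨∑ i, ∑ j, ‖E i j‖, fun _ i j => ?_⟩
    refine (Finset.single_le_sum (f := fun j => ‖E i j‖)
      (fun j _ => norm_nonneg _) (Finset.mem_univ j)).trans ?_
    exact Finset.single_le_sum (f := fun i => ∑ j, ‖E i j‖)
      (fun i _ => Finset.sum_nonneg fun j _ => norm_nonneg _) (Finset.mem_univ i)
  have hEV : ∀ i j, MemLp (fun x => (E * V x) i j) 2 volume :=
    jb_memLp (M := fun _ => E) (fun _ _ => aestronglyMeasurable_const) hC3 hV2
  have hZZV : ∀ i j, MemLp (fun x => (Z x * (Z x * V x)) i j) 2 volume :=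
    jb_memLp hZm hC1 hZV
  have hDV : ∀ i j, MemLp (fun x => (jbZ' a b W Y E x * V x) i j) 2 volume := by
    intro i j
    have h1 := ((hZZV i j).sub (hEV i j)).add (hWV i j)
    have h2 : (fun x => (jbZ' a b W Y E x * V x) i j) =
        ((fun x => (Z x * (Z x * V x)) i j) - fun x => (E * V x) i j) +
          fun x => (Wt x * V x) i j := by
      funext x
      simp only [jbZ', Pi.add_apply, Pi.sub_apply, Matrix.add_mul, Matrix.sub_mul,
        Matrix.add_apply, Matrix.sub_apply, Matrix.mul_assoc, hZdef, hWtdef]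
    rw [h2]
    exact h1
  -- the boundary function
  have hq := ((hV.conjTranspose.mul hZ).mul hV).trace
  have itr : ∀ {A : ℝ → Matrix (Fin 1) (Fin 1) ℂ}, (∀ i j, Integrable (fun x => A x i j)) →
      Integrable (fun x => (A x).trace) := by
    intro A hA
    simp only [Matrix.trace, Matrix.diag_apply]
    exact integrable_finsetSum _ fun i _ => hA i i
  have i1 : Integrable (fun x => ((V x)ᴴ * (Z x * V x)).trace) := itr (integrable_gram hV2 hZV)
  have i2 : Integrable (fun x => ((V' x)ᴴ * (Z x * V x)).trace) :=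
    itr (integrable_gram hV2' hZV)
  have i3 : Integrable (fun x => ((V x)ᴴ * (jbZ' a b W Y E x * V x)).trace) :=
    itr (integrable_gram hV2 hDV)
  have i4 : Integrable (fun x => ((V x)ᴴ * (Z x * V' x)).trace) :=
    itr (integrable_gram hV2 hZV')
  have i5 : Integrable (fun x => ((V' x)ᴴ * V' x).trace) := itr (integrable_gram hV2' hV2')
  have i6 : Integrable (fun x => ((V x)ᴴ * (E * V x)).trace) := itr (integrable_gram hV2 hEV)
  have i7 : Integrable (fun x => ((V x)ᴴ * (Wt x * V x)).trace) :=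
    itr (integrable_gram hV2 hWV)
  have hqi : Integrable (fun x => ((V x)ᴴ * Z x * V x).trace) := by
    simp only [Matrix.mul_assoc]
    exact i1
  have hqi' : Integrable (fun x => (((V' x)ᴴ * Z x + (V x)ᴴ * jbZ' a b W Y E x) * V x +
      (V x)ᴴ * Z x * V' x).trace) := by
    simp only [Matrix.add_mul, Matrix.mul_assoc, Matrix.trace_add]
    exact (i2.add i3).add i4
  have hq0 := jb_int_zero hq hqi hqi'
  -- the pointwise identity
  have hZH : ∀ x, (Z x).IsHermitian := fun x => hR.herm _ (jb_clamp hab x)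
  have hpt : ∀ x, 0 ≤ ((V' x)ᴴ * V' x).trace.re + ((V x)ᴴ * (E * V x)).trace.re -
      ((V x)ᴴ * (Wt x * V x)).trace.re + ((((V' x)ᴴ * Z x + (V x)ᴴ * jbZ' a b W Y E x) * V x +
      (V x)ᴴ * Z x * V' x).trace).re := by
    intro x
    have h1 := jb_identity (E := E) (Wt := Wt x) (hZH x) (V x) (V' x)
    have h2 : 0 ≤ (((V' x + Z x * V x)ᴴ * (V' x + Z x * V x)).trace).re := by
      rw [gram_trace]
      exact Finset.sum_nonneg fun _ _ => Finset.sum_nonneg fun _ _ => by positivity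
    rw [h1] at h2
    simp only [Matrix.trace_add, Matrix.trace_sub, Complex.add_re, Complex.sub_re] at h2
    simp only [Matrix.trace_add, Complex.add_re]
    exact h2
  have hint : 0 ≤ ∫ x, (((V' x)ᴴ * V' x).trace.re + ((V x)ᴴ * (E * V x)).trace.re -
      ((V x)ᴴ * (Wt x * V x)).trace.re + ((((V' x)ᴴ * Z x + (V x)ᴴ * jbZ' a b W Y E x) * V x +
      (V x)ᴴ * Z x * V' x).trace).re) := integral_nonneg (fun x => hpt x)
  have j1 : Integrable (fun x => ((V' x)ᴴ * V' x).trace.re) := i5.re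
  have j2 : Integrable (fun x => ((V x)ᴴ * (E * V x)).trace.re) := i6.re
  have j3 : Integrable (fun x => ((V x)ᴴ * (Wt x * V x)).trace.re) := i7.re
  have j4 : Integrable (fun x => ((((V' x)ᴴ * Z x + (V x)ᴴ * jbZ' a b W Y E x) * V x +
      (V x)ᴴ * Z x * V' x).trace).re) := hqi'.re
  have e1 : ∫ x, ((((V' x)ᴴ * Z x + (V x)ᴴ * jbZ' a b W Y E x) * V x +
      (V x)ᴴ * Z x * V' x).trace).re = 0 := by
    have h1 := integral_re (𝕜 := ℂ) hqi'
    have h2 : ∫ x, ((((V' x)ᴴ * Z x + (V x)ᴴ * jbZ' a b W Y E x) * V x +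
      (V x)ᴴ * Z x * V' x).trace).re = (∫ x, (((V' x)ᴴ * Z x + (V x)ᴴ * jbZ' a b W Y E x) * V x +
      (V x)ᴴ * Z x * V' x).trace).re := h1
    rw [h2, hq0]
    rfl
  rw [jb_int4 j1 j2 j3 j4, e1, add_zero] at hint
  have e2 : ∀ x, ((V' x)ᴴ * V' x).trace.re = ‖v' x‖ ^ 2 := by
    intro x
    rw [hV'def, Umat_trace]
    simp
  have e3 : ∀ x, ((V x)ᴴ * (E * V x)).trace.re = (inner ℂ (v x) (app E (v x))).re := by
    intro x
    rw [jb_inner]
  have e4 : ∫ x, ((V x)ᴴ * (Wt x * V x)).trace.re =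
      ∫ x in a..b, (inner ℂ (v x) (app (W x) (v x))).re := by
    have h1 : (fun x => ((V x)ᴴ * (Wt x * V x)).trace.re) =
        (Icc a b).indicator fun x => (inner ℂ (v x) (app (W x) (v x))).re := by
      funext x
      rw [hWtdef]
      unfold jbW
      by_cases hx : x ∈ Icc a b
      · rw [if_pos hx, Set.indicator_of_mem hx, jb_inner]
      · rw [if_neg hx, Set.indicator_of_notMem hx]
        simp
    rw [h1, integral_indicator measurableSet_Icc, integral_Icc_eq_integral_Ioc,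
      intervalIntegral.integral_of_le hab.le]
  rw [e4] at hint
  simp only [e2, e3] at hint
  linarith

end Vale.Agent.P371.Gen
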