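import Vale.Agent.Lib.P371.Gen.Sqrt

/-! # P371 Gen: bounds for K_l (module KlFacts)

`E ≥ 0`, `l > 0`. Everything is diagonal in the eigenbasis of `E`.
`K_l - √E ≥ c(l) > 0`: `√(e+l) - √e = l/(√(e+l)+√e) ≥ l / (2 √(M + l))` if `e ≤ M`. Hence
`K_l ± Y ≥ c(l)` when `-√E ≤ Y ≤ √E`, and `X + l = E - Y^2 + l = K_l^2 - Y^2`. -/

open Matrix Set MeasureTheory
open scoped ComplexOrder

namespace Vale.Agent.P371.Gen

variable {n : Type*} [Fintype n] [DecidableEq n] {E Y : Matrix n n ℂ}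

theorem Kl_posDef (hE : E.PosSemidef) {l : ℝ} (hl : 0 < l) : (Kl l E).PosDef := by
  unfold Kl
  apply mf_posDef hE.isHermitian
  intro i
  have := hE.eigenvalues_nonneg i
  apply Real.sqrt_pos.2
  linarith

theorem Kl_mul_self (hE : E.PosSemidef) {l : ℝ} (hl : 0 ≤ l) :
    Kl l E * Kl l E = E + (l : ℂ) • (1 : Matrix n n ℂ) := by
  have h1 : Kl l E * Kl l E = mf (fun t => t + l) E := by
    unfold Kl
    rw [← mf_mul hE.isHermitian]
    apply mf_congr hE.isHermitian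
    intro i
    have := hE.eigenvalues_nonneg i
    exact Real.mul_self_sqrt (by linarith)
  have h2 := mf_add hE.isHermitian (fun t => t) (fun _ => l)
  rw [mf_id hE.isHermitian, mf_const hE.isHermitian] at h2
  rw [h1, h2]

theorem Kl_eig_le (hE : E.PosSemidef) (i : n) : hE.isHermitian.eigenvalues i ≤ rtr E := by
  have h1 : rtr E = ∑ i, hE.isHermitian.eigenvalues i := by
    have := rtr_mf hE.isHermitian (fun t => t)
    rwa [mf_id hE.isHermitian] at this
  rw [h1]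
  exact Finset.single_le_sum (f := fun i => hE.isHermitian.eigenvalues i)
    (fun j _ => hE.eigenvalues_nonneg j) (Finset.mem_univ i)

/-- `K_l - √E ≥ l / (2 √(tr E + l))`. -/
theorem Kl_sub_msqrt (hE : E.PosSemidef) {l : ℝ} (hl : 0 < l) :
    (Kl l E - msqrt E - ((l / (2 * Real.sqrt (rtr E + l)) : ℝ) : ℂ) •
      (1 : Matrix n n ℂ)).PosSemidef := by
  unfold Kl msqrt
  rw [← mf_const hE.isHermitian, ← mf_sub hE.isHermitian, ← mf_sub hE.isHermitian]
  apply mf_posSemidef hE.isHermitian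
  intro i
  have h0 := hE.eigenvalues_nonneg i
  have h1 := Kl_eig_le hE i
  set e := hE.isHermitian.eigenvalues i with he
  have h2 : 0 < Real.sqrt (e + l) := Real.sqrt_pos.2 (by linarith)
  have h3 : Real.sqrt e ≤ Real.sqrt (e + l) := Real.sqrt_le_sqrt (by linarith)
  have h4 : Real.sqrt (e + l) ≤ Real.sqrt (rtr E + l) := Real.sqrt_le_sqrt (by linarith)
  have h5 : 0 ≤ Real.sqrt e := Real.sqrt_nonneg _
  have h6 : Real.sqrt (e + l) * Real.sqrt (e + l) = e + l := Real.mul_self_sqrt (by linarith)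
  have h7 : Real.sqrt e * Real.sqrt e = e := Real.mul_self_sqrt h0
  rw [sub_nonneg, div_le_iff₀ (by linarith)]
  have h8 : l = (Real.sqrt (e + l) - Real.sqrt e) * (Real.sqrt (e + l) + Real.sqrt e) := by
    nlinarith
  calc l = (Real.sqrt (e + l) - Real.sqrt e) * (Real.sqrt (e + l) + Real.sqrt e) := h8
    _ ≤ (Real.sqrt (e + l) - Real.sqrt e) * (2 * Real.sqrt (rtr E + l)) := by
      apply mul_le_mul_of_nonneg_left _ (by linarith)
      linarith

/-- Lower bound for `K_l ± Y`. -/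
theorem Kl_add_ge (hE : E.PosSemidef) (h2 : (msqrt E + Y).PosSemidef) {l : ℝ} (hl : 0 < l) :
    (Kl l E + Y - ((l / (2 * Real.sqrt (rtr E + l)) : ℝ) : ℂ) •
      (1 : Matrix n n ℂ)).PosSemidef := by
  have h := (Kl_sub_msqrt hE hl).add h2
  convert h using 1
  abel

theorem Kl_sub_ge (hE : E.PosSemidef) (h1 : (msqrt E - Y).PosSemidef) {l : ℝ} (hl : 0 < l) :
    (Kl l E - Y - ((l / (2 * Real.sqrt (rtr E + l)) : ℝ) : ℂ) •
      (1 : Matrix n n ℂ)).PosSemidef := by
  have h := (Kl_sub_msqrt hE hl).add h1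
  convert h using 1
  abel

theorem Kl_up (hE : E.PosSemidef) {l : ℝ} (hl : 0 < l) :
    (((Real.sqrt (rtr E + l) : ℝ) : ℂ) • (1 : Matrix n n ℂ) - Kl l E).PosSemidef := by
  unfold Kl
  rw [← mf_const hE.isHermitian, ← mf_sub hE.isHermitian]
  apply mf_posSemidef hE.isHermitian
  intro i
  have h1 := Kl_eig_le hE i
  rw [sub_nonneg]
  exact Real.sqrt_le_sqrt (by linarith)

theorem Kl_up0 (hE : E.PosSemidef) {l : ℝ} (hl : 0 < l) :
    (((Real.sqrt (rtr E + l) : ℝ) : ℂ) • (1 : Matrix n n ℂ) - msqrt E).PosSemidef := by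
  unfold msqrt
  rw [← mf_const hE.isHermitian, ← mf_sub hE.isHermitian]
  apply mf_posSemidef hE.isHermitian
  intro i
  have h1 := Kl_eig_le hE i
  rw [sub_nonneg]
  exact Real.sqrt_le_sqrt (by linarith)

theorem Kl_two (c : ℝ) : (((2 * c : ℝ) : ℂ) • (1 : Matrix n n ℂ)) =
    (c : ℂ) • (1 : Matrix n n ℂ) + (c : ℂ) • (1 : Matrix n n ℂ) := by
  rw [← add_smul]
  congr 1
  push_cast
  ring

/-- Upper bound for `K_l ± Y`. -/
theorem Kl_add_le (hE : E.PosSemidef) (h1 : (msqrt E - Y).PosSemidef) {l : ℝ} (hl : 0 < l) :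
    (((2 * Real.sqrt (rtr E + l) : ℝ) : ℂ) • (1 : Matrix n n ℂ) - (Kl l E + Y)).PosSemidef := by
  have h := ((Kl_up hE hl).add (Kl_up0 hE hl)).add h1
  rw [Kl_two]
  convert h using 1
  abel

theorem Kl_sub_le (hE : E.PosSemidef) (h2 : (msqrt E + Y).PosSemidef) {l : ℝ} (hl : 0 < l) :
    (((2 * Real.sqrt (rtr E + l) : ℝ) : ℂ) • (1 : Matrix n n ℂ) - (Kl l E - Y)).PosSemidef := by
  have h := ((Kl_up hE hl).add (Kl_up0 hE hl)).add h2
  rw [Kl_two]
  convert h using 1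
  abel

theorem Kl_smul_posDef {c : ℝ} (hc : 0 < c) : ((c : ℂ) • (1 : Matrix n n ℂ)).PosDef := by
  rw [smul_one_eq_diagonal, posDef_diagonal_iff]
  intro _
  exact Complex.zero_lt_real.mpr hc

theorem Kl_pos_const (hE : E.PosSemidef) {l : ℝ} (hl : 0 < l) :
    0 < l / (2 * Real.sqrt (rtr E + l)) := by
  have h0 : 0 ≤ rtr E := by
    have h1 : rtr E = ∑ i, hE.isHermitian.eigenvalues i := by
      have := rtr_mf hE.isHermitian (fun t => t)
      rwa [mf_id hE.isHermitian] at this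
    rw [h1]
    exact Finset.sum_nonneg (fun i _ => hE.eigenvalues_nonneg i)
  have h1 : 0 < Real.sqrt (rtr E + l) := Real.sqrt_pos.2 (by linarith)
  positivity

theorem Kl_add_posDef (hE : E.PosSemidef) (h2 : (msqrt E + Y).PosSemidef) {l : ℝ} (hl : 0 < l) :
    (Kl l E + Y).PosDef := by
  have h := (Kl_smul_posDef (n := n) (Kl_pos_const hE hl)).add_posSemidef (Kl_add_ge hE h2 hl)
  convert h using 1
  abel

theorem Kl_sub_posDef (hE : E.PosSemidef) (h1 : (msqrt E - Y).PosSemidef) {l : ℝ} (hl : 0 < l) :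
    (Kl l E - Y).PosDef := by
  have h := (Kl_smul_posDef (n := n) (Kl_pos_const hE hl)).add_posSemidef (Kl_sub_ge hE h1 hl)
  convert h using 1
  abel

end Vale.Agent.P371.Gen
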