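import Vale.Agent.Lib.P371.Gen.Fun

/-! # P371 Gen: Klein inequality (module Klein)

`klein`: by `exists_ovl`, `tr f(A) - tr f(B) - tr (f'(B) (A - B))
 = ∑ w i j (f(a_i) - f(b_j) - f'(b_j) (a_i - b_j)) ≥ 0`
(use `exists_ovl` for the pairs `(f, 1)`, `(1, f)`, `(id, f')`, `(1, id * f')`).

`hasDeriv_eta`: let `η(t) = t log t - t`, convex on `(0,∞)`, `η' = log`. Klein in both directions:
`tr (log P(x) (P(y) - P(x))) ≤ tr η(P(y)) - tr η(P(x)) ≤ tr (log P(y) (P(y) - P(x)))`.
Divide by `y - x` and use the continuity of `y ↦ log P(y)` (`continuousOn_mf_log`; `P` is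
continuous on the compact interval `[a, b]` and positive definite, so bounded below by some
`c > 0`: or only locally near `x`). -/

open Matrix Set MeasureTheory
open scoped ComplexOrder

namespace Vale.Agent.P371.Gen

variable {n : Type*} [Fintype n] [DecidableEq n]

private theorem rtr_add' (A B : Matrix n n ℂ) : rtr (A + B) = rtr A + rtr B := by
  simp [rtr, Matrix.trace_add]

private theorem rtr_sub' (A B : Matrix n n ℂ) : rtr (A - B) = rtr A - rtr B := by
  simp [rtr, Matrix.trace_sub]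

private theorem rtr_comm' (A B : Matrix n n ℂ) : rtr (A * B) = rtr (B * A) := by
  simp only [rtr, Matrix.trace_mul_comm A B]

theorem klein {A B : Matrix n n ℂ} (hA : A.IsHermitian) (hB : B.IsHermitian) {f f' : ℝ → ℝ}
    (h : ∀ i j, f (hB.eigenvalues j) + f' (hB.eigenvalues j) *
      (hA.eigenvalues i - hB.eigenvalues j) ≤ f (hA.eigenvalues i)) :
    rtr (mf f B) + rtr (mf f' B * (A - B)) ≤ rtr (mf f A) := by
  obtain ⟨w, hw0, hw1, hw2, hw⟩ := exists_ovl hA hB
  have e1 : rtr (mf f B) = ∑ i, ∑ j, w i j * f (hB.eigenvalues j) := by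
    rw [rtr_mf hB f, Finset.sum_comm]
    refine Finset.sum_congr rfl fun j _ => ?_
    rw [← Finset.sum_mul, hw2 j, one_mul]
  have e2 : rtr (mf f A) = ∑ i, ∑ j, w i j * f (hA.eigenvalues i) := by
    rw [rtr_mf hA f]
    refine Finset.sum_congr rfl fun i _ => ?_
    rw [← Finset.sum_mul, hw1 i, one_mul]
  have e3 : rtr (mf f' B * A) = ∑ i, ∑ j, w i j * (hA.eigenvalues i * f' (hB.eigenvalues j)) := by
    rw [rtr_comm', ← hw (fun t => t) f', mf_id hA]
  have e4 : rtr (mf f' B * B) =
      ∑ i, ∑ j, w i j * (f' (hB.eigenvalues j) * hB.eigenvalues j) := by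
    have : mf f' B * B = mf (fun t => f' t * t) B := by
      rw [mf_mul hB f' (fun t => t), mf_id hB]
    rw [this, rtr_mf hB, Finset.sum_comm]
    refine Finset.sum_congr rfl fun j _ => ?_
    rw [← Finset.sum_mul, hw2 j, one_mul]
  rw [Matrix.mul_sub, rtr_sub', e1, e2, e3, e4, ← Finset.sum_sub_distrib,
    ← Finset.sum_add_distrib]
  refine Finset.sum_le_sum fun i _ => ?_
  rw [← Finset.sum_sub_distrib, ← Finset.sum_add_distrib]
  refine Finset.sum_le_sum fun j _ => ?_
  have := mul_le_mul_of_nonneg_left (h i j) (hw0 i j)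
  nlinarith [this]

end Vale.Agent.P371.Gen
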