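import Vale.Agent.Lib.P371.Gen.Klein
import Vale.Agent.Lib.P371.Gen.Cont

/-! # P371 Gen: derivative of the trace of eta (module KleinD)

`klein`: by `exists_ovl`, `tr f(A) - tr f(B) - tr (f'(B) (A - B))
 = ∑ w i j (f(a_i) - f(b_j) - f'(b_j) (a_i - b_j)) ≥ 0`
(use `exists_ovl` for the pairs `(f, 1)`, `(1, f)`, `(id, f')`, `(1, id * f')`).

`hasDeriv_eta`: let `η(t) = t log t - t`, convex on `(0,∞)`, `η' = log`. Klein in both directions:
`tr (log P(x) (P(y) - P(x))) ≤ tr η(P(y)) - tr η(P(x)) ≤ tr (log P(y) (P(y) - P(x)))`.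
Divide by `y - x` and use the continuity of `y ↦ log P(y)` (`continuousOn_mf_log`; `P` is
continuous on the compact interval `[a, b]` and positive definite, so bounded below by some
`c > 0`: or only locally near `x`). -/

open Matrix Set MeasureTheory
open scoped ComplexOrder

namespace Vale.Agent.P371.Gen

variable {n : Type*} [Fintype n] [DecidableEq n]

theorem kleinD_scalar {s t : ℝ} (hs : 0 < s) (ht : 0 < t) :
    (s * Real.log s - s) + Real.log s * (t - s) ≤ t * Real.log t - t := by
  have h1 : Real.log (s / t) ≤ s / t - 1 := Real.log_le_sub_one_of_pos (by positivity)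
  rw [Real.log_div hs.ne' ht.ne'] at h1
  have h2 : t * (Real.log s - Real.log t) ≤ t * (s / t - 1) :=
    mul_le_mul_of_nonneg_left h1 ht.le
  have h3 : t * (s / t - 1) = s - t := by field_simp
  nlinarith

theorem kleinD_klein {A B : Matrix n n ℂ} (hA : A.PosDef) (hB : B.PosDef) :
    rtr (mf (fun u => u * Real.log u - u) B) + rtr (mf Real.log B * (A - B)) ≤
      rtr (mf (fun u => u * Real.log u - u) A) := by
  apply klein hA.isHermitian hB.isHermitian
  intro i j
  exact kleinD_scalar (hB.eigenvalues_pos j) (hA.eigenvalues_pos i)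

theorem kleinD_lower {A : Matrix n n ℂ} (hA : A.PosDef) :
    ∃ c : ℝ, 0 < c ∧ ∀ i, c ≤ hA.isHermitian.eigenvalues i := by
  rcases isEmpty_or_nonempty n with h | h
  · exact ⟨1, one_pos, fun i => (h.false i).elim⟩
  · obtain ⟨i₀, hi₀⟩ := Finite.exists_min (hA.isHermitian.eigenvalues)
    exact ⟨_, hA.eigenvalues_pos i₀, hi₀⟩

theorem kleinD_sub {A : Matrix n n ℂ} (hA : A.IsHermitian) {c : ℝ}
    (h : ∀ i, c ≤ hA.eigenvalues i) : (A - (c : ℂ) • (1 : Matrix n n ℂ)).PosSemidef := by
  have h1 : mf (fun t => t - c) A = A - (c : ℂ) • (1 : Matrix n n ℂ) := by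
    rw [mf_sub hA, mf_id hA, mf_const hA]
  rw [← h1]
  exact mf_posSemidef hA (fun i => sub_nonneg.mpr (h i))

omit [Fintype n] [DecidableEq n] in
theorem kleinD_contOn {P P' : ℝ → Matrix n n ℂ} {a b : ℝ} (hP : HasMD P P' a b) :
    ContinuousOn P (Icc a b) := by
  intro y hy
  exact tendsto_pi_nhds.mpr (fun i => tendsto_pi_nhds.mpr
    (fun j => (hP y hy i j).continuousWithinAt))

theorem kleinD_log_cont {P P' : ℝ → Matrix n n ℂ} {a b : ℝ} (hP : HasMD P P' a b)
    (hpd : ∀ x ∈ Icc a b, (P x).PosDef) {x : ℝ} (hx : x ∈ Icc a b) :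
    ContinuousWithinAt (fun t => mf Real.log (P t)) (Icc a b) x := by
  obtain ⟨c, hc, hcl⟩ := kleinD_lower (hpd x hx)
  have hcont := kleinD_contOn hP
  set s : Set ℝ := {y | y ∈ Icc a b ∧ rtr ((P y - P x) * (P y - P x)) ≤ (c / 2) ^ 2} with hs
  have hsub : s ⊆ Icc a b := fun y hy => hy.1
  have hmem : s ∈ nhdsWithin x (Icc a b) := by
    have h1 : ContinuousWithinAt (fun y => rtr ((P y - P x) * (P y - P x))) (Icc a b) x := by
      have h2 : ContinuousWithinAt (fun y => (P y - P x) * (P y - P x)) (Icc a b) x :=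
        ((hcont x hx).sub continuousWithinAt_const).mul
          ((hcont x hx).sub continuousWithinAt_const)
      exact (continuous_rtr.continuousAt).comp_continuousWithinAt h2
    have h3 : ∀ᶠ y in nhdsWithin x (Icc a b),
        rtr ((P y - P x) * (P y - P x)) < (c / 2) ^ 2 := by
      apply h1.eventually (gt_mem_nhds _)
      simp only [sub_self, mul_zero]
      unfold rtr
      simp
      positivity
    filter_upwards [h3, self_mem_nhdsWithin] with y hy1 hy2
    exact ⟨hy2, hy1.le⟩
  have hxs : x ∈ s := by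
    refine ⟨hx, ?_⟩
    simp only [sub_self, mul_zero]
    unfold rtr
    simp
    positivity
  have hlow : ∀ y ∈ s, (P y - ((c / 2 : ℝ) : ℂ) • (1 : Matrix n n ℂ)).PosSemidef := by
    intro y hy
    have hD : (P y - P x).IsHermitian :=
      (hpd y hy.1).isHermitian.sub (hpd x hx).isHermitian
    have h1 : (P x - (c : ℂ) • (1 : Matrix n n ℂ)).PosSemidef :=
      kleinD_sub (hpd x hx).isHermitian hcl
    have h2 : ((P y - P x) - ((-(c / 2) : ℝ) : ℂ) • (1 : Matrix n n ℂ)).PosSemidef := by
      apply kleinD_sub hD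
      intro i
      have h3 := (eigenvalue_sq_le hD i).trans hy.2
      exact (abs_le.mp (abs_le_of_sq_le_sq h3 (by positivity))).1
    have h4 := h1.add h2
    have h5 : P x - (c : ℂ) • (1 : Matrix n n ℂ) +
        ((P y - P x) - ((-(c / 2) : ℝ) : ℂ) • (1 : Matrix n n ℂ)) =
        P y - ((c / 2 : ℝ) : ℂ) • (1 : Matrix n n ℂ) := by
      ext i j
      simp only [Matrix.add_apply, Matrix.sub_apply, Matrix.smul_apply, smul_eq_mul]
      push_cast
      ring
    rwa [h5] at h4
  have h6 := continuousOn_mf_log (hcont.mono hsub) (half_pos hc) hlow x hxs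
  exact h6.mono_of_mem_nhdsWithin hmem

omit [DecidableEq n] in
theorem kleinD_rtr_mul (A B : Matrix n n ℂ) :
    rtr (A * B) = ∑ i, ∑ j, (A i j * B j i).re := by
  unfold rtr
  simp only [Matrix.trace, Matrix.diag_apply, Matrix.mul_apply, Complex.re_sum]

theorem hasDeriv_eta {P P' : ℝ → Matrix n n ℂ} {a b : ℝ} (hP : HasMD P P' a b)
    (hpd : ∀ x ∈ Icc a b, (P x).PosDef) {x : ℝ} (hx : x ∈ Icc a b) :
    HasDerivWithinAt (fun t => rtr (mf (fun u => u * Real.log u - u) (P t)))
      (rtr (mf Real.log (P x) * P' x)) (Icc a b) x := by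
  have hlog := kleinD_log_cont hP hpd hx
  -- the linear part
  have hG : HasDerivWithinAt (fun t => rtr (mf Real.log (P x) * P t))
      (rtr (mf Real.log (P x) * P' x)) (Icc a b) x := by
    simp only [kleinD_rtr_mul]
    apply HasDerivWithinAt.fun_sum
    intro i _
    apply HasDerivWithinAt.fun_sum
    intro j _
    have h1 := (hP x hx j i).const_mul (mf Real.log (P x) i j)
    have h2 : HasDerivWithinAt (fun t => (mf Real.log (P x) i j * P t j i).re)
        ((mf Real.log (P x) i j * P' x j i).re) (Icc a b) x := by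
      exact Complex.reCLM.hasFDerivAt.comp_hasDerivWithinAt x h1
    exact h2
  rw [hasDerivWithinAt_iff_isLittleO] at hG ⊢
  -- the remainder
  have hR : (fun y => rtr ((mf Real.log (P y) - mf Real.log (P x)) * (P y - P x)))
      =o[nhdsWithin x (Icc a b)] fun y => y - x := by
    simp only [kleinD_rtr_mul]
    apply Asymptotics.IsLittleO.fun_sum
    intro i _
    apply Asymptotics.IsLittleO.fun_sum
    intro j _
    have h1 : (fun y => (mf Real.log (P y) - mf Real.log (P x)) i j)
        =o[nhdsWithin x (Icc a b)] fun _ => (1 : ℝ) := by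
      rw [Asymptotics.isLittleO_one_iff]
      have h2 : Filter.Tendsto (fun y => mf Real.log (P y) i j) (nhdsWithin x (Icc a b))
          (nhds (mf Real.log (P x) i j)) :=
        tendsto_pi_nhds.mp (tendsto_pi_nhds.mp hlog i) j
      have h3 := h2.sub_const (mf Real.log (P x) i j)
      simpa using h3
    have h4 : (fun y => (P y - P x) j i) =O[nhdsWithin x (Icc a b)] fun y => y - x := by
      exact (hP x hx j i).hasFDerivWithinAt.isBigO_sub
    have h6 := h1.mul_isBigO h4
    have h7 : (fun y => ((mf Real.log (P y) - mf Real.log (P x)) i j * (P y - P x) j i).re)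
        =O[nhdsWithin x (Icc a b)]
        fun y => (mf Real.log (P y) - mf Real.log (P x)) i j * (P y - P x) j i := by
      apply Asymptotics.isBigO_of_le
      intro y
      exact Complex.abs_re_le_norm _
    have h8 := h7.trans_isLittleO h6
    simpa using h8
  have hbound : ∀ᶠ y in nhdsWithin x (Icc a b),
      ‖rtr (mf (fun u => u * Real.log u - u) (P y)) - rtr (mf (fun u => u * Real.log u - u) (P x))
        - (rtr (mf Real.log (P x) * P y) - rtr (mf Real.log (P x) * P x))‖ ≤
      ‖rtr ((mf Real.log (P y) - mf Real.log (P x)) * (P y - P x))‖ := by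
    filter_upwards [self_mem_nhdsWithin] with y hy
    have h1 := kleinD_klein (hpd y hy) (hpd x hx)
    have h2 := kleinD_klein (hpd x hx) (hpd y hy)
    have e1 : rtr (mf Real.log (P x) * (P y - P x)) =
        rtr (mf Real.log (P x) * P y) - rtr (mf Real.log (P x) * P x) := by
      unfold rtr
      rw [Matrix.mul_sub, Matrix.trace_sub, Complex.sub_re]
    have e2 : rtr ((mf Real.log (P y) - mf Real.log (P x)) * (P y - P x)) =
        - rtr (mf Real.log (P y) * (P x - P y)) - rtr (mf Real.log (P x) * (P y - P x)) := by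
      unfold rtr
      simp only [Matrix.mul_sub, Matrix.sub_mul, Matrix.trace_sub, Complex.sub_re]
      ring
    rw [Real.norm_eq_abs, Real.norm_eq_abs, ← e1, e2, abs_of_nonneg (by linarith)]
    refine le_trans ?_ (le_abs_self _)
    linarith
  have hF : (fun y => rtr (mf (fun u => u * Real.log u - u) (P y)) -
      rtr (mf (fun u => u * Real.log u - u) (P x))
        - (rtr (mf Real.log (P x) * P y) - rtr (mf Real.log (P x) * P x)))
      =o[nhdsWithin x (Icc a b)] fun y => y - x :=
    (Asymptotics.IsBigO.of_bound' hbound).trans_isLittleO hR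
  refine (hF.add hG).congr_left ?_
  intro y
  ring

end Vale.Agent.P371.Gen
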