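import Vale.Agent.Lib.P371.Gen.Scalar

/-! # P371 Gen: scalar integrals, sig (module ScalarS)

`0 < θ < 1`. Near `0`: `log (1 + 1/l) ≤ C l^{-θ/2}`; near infinity `log (1+1/l) ≤ 1/l`.
`int_log`: substitution `l = x t`. `int_sig`: `(d/dx) sig l x = log (1 + x/l)` and
`0 ≤ sig l x`, so by Tonelli `∫ l^{θ-1} sig l x dl = ∫_0^x kap θ u^θ du`
(`sig l x = ∫_0^x log (1 + u/l) du`). -/

open Set MeasureTheory

namespace Vale.Agent.P371.Gen

theorem scalarS_sig_le {l x : ℝ} (hl : 0 < l) (hx : 0 ≤ x) :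
    sig l x ≤ x * Real.log (1 + x / l) := by
  unfold sig
  have h1 : 0 < 1 + x / l := by positivity
  have h2 : Real.log (1 + x / l) ≤ x / l := by
    have := Real.log_le_sub_one_of_pos h1
    linarith
  have h3 : l * Real.log (1 + x / l) ≤ x := by
    calc l * Real.log (1 + x / l) ≤ l * (x / l) := mul_le_mul_of_nonneg_left h2 hl.le
      _ = x := by field_simp
  nlinarith

theorem integrableOn_sig {θ : ℝ} (h0 : 0 < θ) (h1 : θ < 1) {x : ℝ} (hx : 0 ≤ x) :
    IntegrableOn (fun l : ℝ => l ^ (θ - 1) * sig l x) (Ioi 0) := by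
  have hint := (integrableOn_log h0 h1 hx).const_mul x
  refine Integrable.mono' hint ?_ ?_
  · apply Measurable.aestronglyMeasurable
    unfold sig
    fun_prop
  · filter_upwards [ae_restrict_mem measurableSet_Ioi] with l hl
    have hl0 : (0 : ℝ) < l := hl
    have hp : 0 ≤ l ^ (θ - 1) := Real.rpow_nonneg hl0.le _
    rw [Real.norm_eq_abs, abs_of_nonneg (mul_nonneg hp (sig_nonneg hl0 hx))]
    have := mul_le_mul_of_nonneg_left (scalarS_sig_le hl0 hx) hp
    calc l ^ (θ - 1) * sig l x ≤ l ^ (θ - 1) * (x * Real.log (1 + x / l)) := this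
      _ = x * (l ^ (θ - 1) * Real.log (1 + x / l)) := by ring

theorem scalarS_ftc {l x : ℝ} (hl : 0 < l) (hx : 0 ≤ x) :
    ∫ u in Ioc 0 x, Real.log (1 + u / l) = sig l x := by
  rw [← intervalIntegral.integral_of_le hx]
  have hd : ∀ u ∈ uIcc 0 x, HasDerivAt (fun u => (u + l) * Real.log (1 + u / l) - u)
      (Real.log (1 + u / l)) u := by
    intro u hu
    rw [uIcc_of_le hx] at hu
    have hpos : 0 < 1 + u / l := by
      have : 0 ≤ u / l := div_nonneg hu.1 hl.le
      linarith
    have e1 : HasDerivAt (fun u : ℝ => 1 + u / l) (1 / l) u :=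
      ((hasDerivAt_id u).div_const l).const_add 1
    have e2 := e1.log hpos.ne'
    have e3 : HasDerivAt (fun u : ℝ => u + l) 1 u := (hasDerivAt_id u).add_const l
    have e4 := (e3.mul e2).sub (hasDerivAt_id u)
    refine e4.congr_deriv ?_
    have h5 : (u + l) * (1 / l / (1 + u / l)) = 1 := by
      have hul : 0 < u + l := by linarith [hu.1]
      have hul2 : 1 + u / l = (u + l) / l := by
        field_simp
        ring
      rw [hul2]
      field_simp
    rw [h5]
    ring
  have hc : ContinuousOn (fun u : ℝ => Real.log (1 + u / l)) (uIcc 0 x) := by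
    apply ContinuousOn.log
    · fun_prop
    · intro u hu
      rw [uIcc_of_le hx] at hu
      have : 0 ≤ u / l := div_nonneg hu.1 hl.le
      positivity
  rw [intervalIntegral.integral_eq_sub_of_hasDerivAt hd hc.intervalIntegrable]
  unfold sig
  simp

theorem int_sig {θ : ℝ} (h0 : 0 < θ) (h1 : θ < 1) {x : ℝ} (hx : 0 ≤ x) :
    ∫ l in Ioi (0 : ℝ), l ^ (θ - 1) * sig l x = kap θ * x ^ (1 + θ) / (1 + θ) := by
  have hmeas : Measurable (fun p : ℝ × ℝ => p.1 ^ (θ - 1) * Real.log (1 + p.2 / p.1)) := by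
    fun_prop
  have hdom : Integrable (fun p : ℝ × ℝ => p.1 ^ (θ - 1) * Real.log (1 + x / p.1))
      ((volume.restrict (Ioi (0 : ℝ))).prod (volume.restrict (Ioc 0 x))) :=
    Integrable.comp_fst (f := fun l : ℝ => l ^ (θ - 1) * Real.log (1 + x / l))
      (integrableOn_log h0 h1 hx) (volume.restrict (Ioc 0 x))
  have hint : Integrable (Function.uncurry fun l u : ℝ => l ^ (θ - 1) * Real.log (1 + u / l))
      ((volume.restrict (Ioi (0 : ℝ))).prod (volume.restrict (Ioc 0 x))) := by
    refine Integrable.mono' hdom hmeas.aestronglyMeasurable ?_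
    rw [Measure.prod_restrict]
    filter_upwards [ae_restrict_mem (measurableSet_Ioi.prod measurableSet_Ioc)] with p hp
    have hp1 : (0 : ℝ) < p.1 := hp.1
    have hp2 : (0 : ℝ) < p.2 := hp.2.1
    have hp3 : p.2 ≤ x := hp.2.2
    have hr : 0 ≤ p.1 ^ (θ - 1) := Real.rpow_nonneg hp1.le _
    have hd : 0 < p.2 / p.1 := div_pos hp2 hp1
    have hl : 0 ≤ Real.log (1 + p.2 / p.1) := Real.log_nonneg (by linarith)
    show ‖p.1 ^ (θ - 1) * Real.log (1 + p.2 / p.1)‖ ≤ _
    rw [Real.norm_eq_abs, abs_of_nonneg (mul_nonneg hr hl)]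
    apply mul_le_mul_of_nonneg_left _ hr
    apply Real.log_le_log (by linarith)
    have := div_le_div_of_nonneg_right hp3 hp1.le
    linarith
  have hswap := integral_integral_swap hint
  have hL : ∫ l in Ioi (0 : ℝ), ∫ u in Ioc 0 x, l ^ (θ - 1) * Real.log (1 + u / l) =
      ∫ l in Ioi (0 : ℝ), l ^ (θ - 1) * sig l x := by
    refine setIntegral_congr_fun measurableSet_Ioi fun l hl => ?_
    show ∫ u in Ioc 0 x, l ^ (θ - 1) * Real.log (1 + u / l) = _
    rw [integral_const_mul, scalarS_ftc hl hx]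
  have hR : ∫ u in Ioc 0 x, ∫ l in Ioi (0 : ℝ), l ^ (θ - 1) * Real.log (1 + u / l) =
      ∫ u in Ioc 0 x, kap θ * u ^ θ := by
    refine setIntegral_congr_fun measurableSet_Ioc fun u hu => ?_
    exact int_log h0 h1 hu.1.le
  rw [← hL, hswap, hR, ← intervalIntegral.integral_of_le hx, intervalIntegral.integral_const_mul,
    integral_rpow (Or.inl (by linarith)), Real.zero_rpow (by linarith : θ + 1 ≠ 0), sub_zero,
    add_comm θ 1, mul_div_assoc]

end Vale.Agent.P371.Gen
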