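import Vale.Agent.Lib.P371.Gen.PointA
import Vale.Agent.Lib.P371.Gen.GInt
import Vale.Agent.Lib.P371.Gen.ScalarS

/-! # P371 Gen: the matrix inequality integrated over l (module MainA)

Let `s = 1/θ`, `X = E - Y^2`, `Z ≥ 0`. For `l > 0`, `gtv` with `ρ = Z + l`, `P, Q = K_l ± Y` gives
(`tr (P Q) = tr X + l N`, subtract `log l * tr (Z + l)`)
`tr ((Z + l) B_l) ≤ tr X + ∑ sig l (z_i)`. Hence
`tr (B_l ((1+s) Z - X)) = (1+s) [tr ((Z+l) B_l) - l tr B_l] - (g(l) - l tr B_l)
  ≤ - [g(l) - (1+s) tr X + s l tr B_l] + (1+s) ∑ sig l (z_i)`.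
Multiply by `l^{θ-1}`, integrate over `[ε, R]`, use `int_lower`, and
`∫_ε^R l^{θ-1} sig l z ≤ ∫_0^∞ = kap θ z^{1+θ}/(1+θ)`; `(1+s)/(1+θ) = s`. -/

open Matrix Set MeasureTheory
open scoped ComplexOrder

namespace Vale.Agent.P371.Gen

variable {n : Type*} [Fintype n] [DecidableEq n] {E Y Z : Matrix n n ℂ}

/-- the scalar integrals over a bounded interval -/
private theorem mainA_sig {θ : ℝ} (h0 : 0 < θ) (h1' : θ < 1) {ε R : ℝ} (hε : 0 < ε) (hR : ε ≤ R)
    {z : ℝ} (hz : 0 ≤ z) :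
    IntervalIntegrable (fun l : ℝ => l ^ (θ - 1) * sig l z) volume ε R ∧
      ∫ l in ε..R, l ^ (θ - 1) * sig l z ≤ kap θ * z ^ (1 + θ) / (1 + θ) := by
  have hint := integrableOn_sig h0 h1' hz
  have hsub : Ioc ε R ⊆ Ioi 0 := fun x hx => hε.trans hx.1
  refine ⟨(intervalIntegrable_iff_integrableOn_Ioc_of_le hR).mpr (hint.mono_set hsub), ?_⟩
  rw [intervalIntegral.integral_of_le hR, ← int_sig h0 h1' hz]
  refine setIntegral_mono_set hint ?_ (Filter.Eventually.of_forall hsub)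
  refine (ae_restrict_iff' measurableSet_Ioi).mpr (Filter.Eventually.of_forall fun l hl => ?_)
  exact mul_nonneg (Real.rpow_nonneg (le_of_lt hl) _) (sig_nonneg hl hz)

private theorem mainA_rtr {n : Type*} [Fintype n] {F : ℝ → Matrix n n ℂ} {s : Set ℝ}
    (h : ContinuousOn F s) : ContinuousOn (fun l => rtr (F l)) s := by
  have h1 : Continuous (fun M : Matrix n n ℂ => rtr M) :=
    Complex.continuous_re.comp (continuous_id.matrix_trace)
  exact h1.comp_continuousOn h

theorem mainA {θ : ℝ} (h0 : 0 < θ) (h1' : θ < 1) (hE : E.PosSemidef) (hY : Y.IsHermitian)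
    (h1 : (msqrt E - Y).PosSemidef) (h2 : (msqrt E + Y).PosSemidef) (hZ : Z.PosSemidef) {ε R : ℝ}
    (hε : 0 < ε) (hR : ε ≤ R) :
    ∫ l in ε..R, l ^ (θ - 1) * rtr (BB l E Y * (((1 + 1 / θ : ℝ) : ℂ) • Z - (E - Y * Y))) ≤
      ε ^ θ * (1 / θ) * (gg E Y ε - rtr (E - Y * Y)) + (1 / θ) * kap θ * tp (1 + θ) Z := by
  have hBc := continuousOn_BB hE hY h1 h2
  have hsub : uIcc ε R ⊆ Ioi 0 := by
    rw [uIcc_of_le hR]
    exact fun x hx => lt_of_lt_of_le hε hx.1
  have hpow : ContinuousOn (fun l : ℝ => l ^ (θ - 1)) (Ioi 0) := by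
    intro x hx
    exact (Real.continuousAt_rpow_const x (θ - 1) (Or.inl (ne_of_gt hx))).continuousWithinAt
  -- continuity of the two functions
  have hI1 : ContinuousOn (fun l : ℝ => l ^ (θ - 1) *
      rtr (BB l E Y * (((1 + 1 / θ : ℝ) : ℂ) • Z - (E - Y * Y)))) (Ioi 0) := by
    refine hpow.mul (mainA_rtr ?_)
    exact hBc.mul continuousOn_const
  have hgg : ContinuousOn (fun l : ℝ => gg E Y l) (Ioi 0) := by
    have : ContinuousOn (fun l : ℝ => (E - Y * Y + (l : ℂ) • (1 : Matrix n n ℂ)) * BB l E Y)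
        (Ioi 0) := by
      refine ContinuousOn.mul ?_ hBc
      exact (continuous_const.add (Complex.continuous_ofReal.smul continuous_const)).continuousOn
    exact mainA_rtr this
  have hF : ContinuousOn (fun l : ℝ => l ^ (θ - 1) * (gg E Y l - (1 + 1 / θ) * rtr (E - Y * Y)
        + (1 / θ) * l * rtr (BB l E Y))) (Ioi 0) := by
    refine hpow.mul ((hgg.sub continuousOn_const).add ?_)
    exact (continuousOn_const.mul continuousOn_id).mul (mainA_rtr hBc)
  have hz : ∀ i, 0 ≤ hZ.isHermitian.eigenvalues i := fun i => hZ.eigenvalues_nonneg i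
  have hsigI := fun i => (mainA_sig h0 h1' hε hR (hz i)).1
  have hsigB := fun i => (mainA_sig h0 h1' hε hR (hz i)).2
  have hi1 := (hI1.mono hsub).intervalIntegrable (μ := volume)
  have hiF := (hF.mono hsub).intervalIntegrable (μ := volume)
  have hiS : IntervalIntegrable (fun l : ℝ => ∑ i, l ^ (θ - 1) *
      sig l (hZ.isHermitian.eigenvalues i)) volume ε R := by
    have := IntervalIntegrable.sum Finset.univ (fun i (_ : i ∈ Finset.univ) => hsigI i)
    simpa [Finset.sum_fn] using this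
  have hmono := intervalIntegral.integral_mono_on hR hi1
    ((hiF.neg).add (hiS.const_mul (1 + 1 / θ))) (by
      intro l hl
      have hl0 : 0 < l := lt_of_lt_of_le hε hl.1
      have h3 := pointwiseA h0 hE hY h1 h2 hZ hl0
      have h4 : 0 ≤ l ^ (θ - 1) := Real.rpow_nonneg hl0.le _
      have h5 := mul_le_mul_of_nonneg_left h3 h4
      refine h5.trans (le_of_eq ?_)
      rw [rtr_mf hZ.isHermitian]
      simp only [Pi.neg_apply]
      rw [← Finset.mul_sum]
      ring)
  refine hmono.trans ?_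
  rw [intervalIntegral.integral_add hiF.neg (hiS.const_mul _), intervalIntegral.integral_const_mul,
    intervalIntegral.integral_finsetSum (fun i _ => hsigI i)]
  have hlow := int_lower h0 hE hY h1 h2 hε hR
  have h6 : ∫ l in ε..R, (-fun l : ℝ => l ^ (θ - 1) * (gg E Y l - (1 + 1 / θ) * rtr (E - Y * Y)
        + (1 / θ) * l * rtr (BB l E Y))) l = -∫ l in ε..R, l ^ (θ - 1) *
        (gg E Y l - (1 + 1 / θ) * rtr (E - Y * Y) + (1 / θ) * l * rtr (BB l E Y)) := by
    rw [← intervalIntegral.integral_neg]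
    rfl
  have h7 : ∑ i, ∫ l in ε..R, l ^ (θ - 1) * sig l (hZ.isHermitian.eigenvalues i) ≤
      kap θ * tp (1 + θ) Z / (1 + θ) := by
    calc _ ≤ ∑ i, kap θ * (hZ.isHermitian.eigenvalues i) ^ (1 + θ) / (1 + θ) :=
          Finset.sum_le_sum fun i _ => hsigB i
      _ = _ := by
          rw [tp, rtr_mf hZ.isHermitian, ← Finset.sum_div, Finset.mul_sum]
  have h8 : (1 + 1 / θ) * (kap θ * tp (1 + θ) Z / (1 + θ)) = (1 / θ) * kap θ * tp (1 + θ) Z := by
    field_simp
    ring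
  have h9 : (1 + 1 / θ) * ∑ i, ∫ l in ε..R, l ^ (θ - 1) *
      sig l (hZ.isHermitian.eigenvalues i) ≤ (1 / θ) * kap θ * tp (1 + θ) Z := by
    rw [← h8]
    exact mul_le_mul_of_nonneg_left h7 (by positivity)
  rw [h6]
  linarith

end Vale.Agent.P371.Gen
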