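import Vale.Agent.Lib.P371.Gen.GMono

/-! # P371 Gen: pointwise matrix inequality (module PointA)

Let `s = 1/θ`, `X = E - Y^2`, `Z ≥ 0`. For `l > 0`, `gtv` with `ρ = Z + l`, `P, Q = K_l ± Y` gives
(`tr (P Q) = tr X + l N`, subtract `log l * tr (Z + l)`)
`tr ((Z + l) B_l) ≤ tr X + ∑ sig l (z_i)`. Hence
`tr (B_l ((1+s) Z - X)) = (1+s) [tr ((Z+l) B_l) - l tr B_l] - (g(l) - l tr B_l)
  ≤ - [g(l) - (1+s) tr X + s l tr B_l] + (1+s) ∑ sig l (z_i)`.
Multiply by `l^{θ-1}`, integrate over `[ε, R]`, use `int_lower`, and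
`∫_ε^R l^{θ-1} sig l z ≤ ∫_0^∞ = kap θ z^{1+θ}/(1+θ)`; `(1+s)/(1+θ) = s`. -/

open Matrix Set MeasureTheory
open scoped ComplexOrder

namespace Vale.Agent.P371.Gen

variable {n : Type*} [Fintype n] [DecidableEq n] {E Y Z : Matrix n n ℂ}

private theorem pa_add (A B : Matrix n n ℂ) : rtr (A + B) = rtr A + rtr B := by
  simp [rtr, Matrix.trace_add]

private theorem pa_sub (A B : Matrix n n ℂ) : rtr (A - B) = rtr A - rtr B := by
  simp [rtr, Matrix.trace_sub]

private theorem pa_smul (c : ℝ) (A : Matrix n n ℂ) : rtr ((c : ℂ) • A) = c * rtr A := by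
  simp [rtr, Matrix.trace_smul]

private theorem pa_comm (A B : Matrix n n ℂ) : rtr (A * B) = rtr (B * A) := by
  simp only [rtr, Matrix.trace_mul_comm A B]

/-- The variational inequality with `ρ = Z + l`. -/
private theorem pa_key (hE : E.PosSemidef) (hY : Y.IsHermitian)
    (h1 : (msqrt E - Y).PosSemidef) (h2 : (msqrt E + Y).PosSemidef) (hZ : Z.PosSemidef) {l : ℝ}
    (hl : 0 < l) :
    rtr ((Z + (l : ℂ) • (1 : Matrix n n ℂ)) * BB l E Y) ≤
      rtr (E - Y * Y) + rtr (mf (sig l) Z) := by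
  have hK := Kl_mul_self hE hl.le
  have hP := Kl_add_posDef hE h2 hl
  have hQ := Kl_sub_posDef hE h1 hl
  have hZH : Z.IsHermitian := hZ.1
  have hz0 : ∀ i, 0 ≤ hZH.eigenvalues i := fun i => hZ.eigenvalues_nonneg i
  have hrho : Z + (l : ℂ) • (1 : Matrix n n ℂ) = mf (fun t => t + l) Z := by
    rw [mf_add hZH (fun t => t) (fun _ => l), mf_id hZH, mf_const hZH l]
  have hρ : (Z + (l : ℂ) • (1 : Matrix n n ℂ)).PosDef := by
    rw [hrho]
    exact mf_posDef hZH fun i => by have := hz0 i; linarith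
  have hg := gtv hρ hP hQ
  have hlog : (Z + (l : ℂ) • (1 : Matrix n n ℂ)) * mf Real.log (Z + (l : ℂ) • (1 : Matrix n n ℂ))
      = mf (fun t => (t + l) * Real.log (t + l)) Z := by
    rw [hrho, mf_comp hZH Real.log (fun t => t + l),
      ← mf_mul hZH (fun t => t + l) (fun t => Real.log (t + l))]
  have hsig : mf (sig l) Z = mf (fun t => (t + l) * Real.log (t + l)) Z -
      ((Real.log l : ℝ) : ℂ) • (Z + (l : ℂ) • (1 : Matrix n n ℂ)) - Z := by
    have e1 : mf (sig l) Z = mf (fun t => ((t + l) * Real.log (t + l) -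
        Real.log l * (t + l)) - t) Z := by
      refine mf_congr hZH fun i => ?_
      have hz := hz0 i
      have hzl : 0 < hZH.eigenvalues i + l := by linarith
      have e2 : 1 + hZH.eigenvalues i / l = (hZH.eigenvalues i + l) / l := by
        field_simp
        ring
      simp only [sig]
      rw [e2, Real.log_div hzl.ne' hl.ne']
      ring
    rw [e1, mf_sub hZH (fun t => (t + l) * Real.log (t + l) - Real.log l * (t + l)) (fun t => t),
      mf_sub hZH (fun t => (t + l) * Real.log (t + l)) (fun t => Real.log l * (t + l)),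
      mf_const_mul hZH (Real.log l) (fun t => t + l), mf_id hZH, ← hrho]
  have hPQ : rtr ((Kl l E + Y) * (Kl l E - Y)) =
      rtr (E - Y * Y) + rtr ((l : ℂ) • (1 : Matrix n n ℂ)) := by
    have e3 : (Kl l E + Y) * (Kl l E - Y) =
        Kl l E * Kl l E - Kl l E * Y + (Y * Kl l E - Y * Y) := by
      rw [Matrix.add_mul, Matrix.mul_sub, Matrix.mul_sub]
    rw [e3, hK]
    simp only [pa_add, pa_sub]
    rw [pa_comm (Kl l E) Y]
    ring
  have hLL : LL l E Y = mf Real.log (Kl l E + Y) + mf Real.log (Kl l E - Y) := rfl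
  rw [hPQ, hlog, ← hLL] at hg
  have hB : (Z + (l : ℂ) • (1 : Matrix n n ℂ)) * BB l E Y =
      (Z + (l : ℂ) • (1 : Matrix n n ℂ)) * LL l E Y -
        ((Real.log l : ℝ) : ℂ) • (Z + (l : ℂ) • (1 : Matrix n n ℂ)) := by
    rw [BB, Matrix.mul_sub, Matrix.mul_smul, Matrix.mul_one]
  rw [hB, hsig]
  rw [pa_add Z] at hg
  simp only [pa_sub] at hg ⊢
  linarith

theorem pointwiseA {θ : ℝ} (h0 : 0 < θ) (hE : E.PosSemidef) (hY : Y.IsHermitian)
    (h1 : (msqrt E - Y).PosSemidef) (h2 : (msqrt E + Y).PosSemidef) (hZ : Z.PosSemidef) {l : ℝ}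
    (hl : 0 < l) :
    rtr (BB l E Y * (((1 + 1 / θ : ℝ) : ℂ) • Z - (E - Y * Y))) ≤
      -(gg E Y l - (1 + 1 / θ) * rtr (E - Y * Y) + (1 / θ) * l * rtr (BB l E Y))
        + (1 + 1 / θ) * rtr (mf (sig l) Z) := by
  have hkey := pa_key hE hY h1 h2 hZ hl
  have hc : (0 : ℝ) < 1 + 1 / θ := by positivity
  have e1 : rtr (BB l E Y * (((1 + 1 / θ : ℝ) : ℂ) • Z - (E - Y * Y))) =
      (1 + 1 / θ) * rtr (Z * BB l E Y) - rtr ((E - Y * Y) * BB l E Y) := by
    rw [Matrix.mul_sub, pa_sub, Matrix.mul_smul, pa_smul, pa_comm (BB l E Y) Z,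
      pa_comm (BB l E Y) (E - Y * Y)]
  have e2 : rtr ((Z + (l : ℂ) • (1 : Matrix n n ℂ)) * BB l E Y) =
      rtr (Z * BB l E Y) + l * rtr (BB l E Y) := by
    rw [Matrix.add_mul, pa_add, Matrix.smul_mul, Matrix.one_mul, pa_smul]
  have e3 : gg E Y l = rtr ((E - Y * Y) * BB l E Y) + l * rtr (BB l E Y) := by
    rw [gg, Matrix.add_mul, pa_add, Matrix.smul_mul, Matrix.one_mul, pa_smul]
  rw [e2] at hkey
  have h3 := mul_le_mul_of_nonneg_left hkey hc.le
  rw [e1, e3]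
  have h4 : (1 + 1 / θ) * (rtr (Z * BB l E Y) + l * rtr (BB l E Y)) =
      (1 + 1 / θ) * rtr (Z * BB l E Y) + l * rtr (BB l E Y) + 1 / θ * l * rtr (BB l E Y) := by
    ring
  rw [h4] at h3
  linarith

end Vale.Agent.P371.Gen
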