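import Vale.Agent.Lib.P371.Gen.Gram
import Vale.Agent.Lib.P371.Gen.Cont

/-! # P371 Gen: the energy dependent potential (module Pot)

`𝒲 G x = q (T(G) gram(x) T(G))^{1/θ}`, `q = 1 + 1/θ`, with `T` continuous on the positive
semidefinite matrices, `T(G)` Hermitian, `T(G)^2 ≤ τ`. Joint continuity: `continuousOn_mf` for
`t ↦ (max t 0)^{1/θ}`. Bound: `T gram T ≤ rtr (T gram T) ≤ τ C`. -/

open Matrix Set MeasureTheory
open scoped ComplexOrder

namespace Vale.Agent.P371.Gen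

variable {m N : ℕ}

/-- The potential built from `T` and the Gram matrix. -/
noncomputable def pot (θ : ℝ) (f : Fin N → ℝ → EuclideanSpace ℂ (Fin m))
    (T : Matrix (Fin N) (Fin N) ℂ) (x : ℝ) : Matrix (Fin N) (Fin N) ℂ :=
  ((1 + 1 / θ : ℝ) : ℂ) • mf (fun t => t ^ (1 / θ)) (T * gram f x * T)

theorem pot_conj_psd (f : Fin N → ℝ → EuclideanSpace ℂ (Fin m))
    {T : Matrix (Fin N) (Fin N) ℂ} (hT : T.IsHermitian) (x : ℝ) :
    (T * gram f x * T).PosSemidef := by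
  have h := (gram_posSemidef f x).mul_mul_conjTranspose_same T
  rwa [hT.eq] at h

theorem pot_posSemidef {θ : ℝ} (h0 : 0 < θ) (f : Fin N → ℝ → EuclideanSpace ℂ (Fin m))
    {T : Matrix (Fin N) (Fin N) ℂ} (hT : T.IsHermitian) (x : ℝ) : (pot θ f T x).PosSemidef := by
  have h := pot_conj_psd f hT x
  have h1 : (mf (fun t => t ^ (1 / θ)) (T * gram f x * T)).PosSemidef :=
    mf_posSemidef h.isHermitian fun i => Real.rpow_nonneg (h.eigenvalues_nonneg i) _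
  have h2 : (0 : ℂ) ≤ ((1 + 1 / θ : ℝ) : ℂ) := Complex.zero_le_real.mpr (by positivity)
  exact h1.smul h2

theorem pot_cont {θ : ℝ} (h0 : 0 < θ) {f f' : Fin N → ℝ → EuclideanSpace ℂ (Fin m)}
    (hf : ∀ j, IsH1 (f j) (f' j)) {Tm : Matrix (Fin N) (Fin N) ℂ → Matrix (Fin N) (Fin N) ℂ}
    (hTm : ContinuousOn Tm {G | G.PosSemidef})
    (hTH : ∀ G : Matrix (Fin N) (Fin N) ℂ, G.PosSemidef → (Tm G).IsHermitian) {a b : ℝ} :
    ContinuousOn (fun p : Matrix (Fin N) (Fin N) ℂ × ℝ => pot θ f (Tm p.1) p.2)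
      ({G | G.PosSemidef} ×ˢ Icc a b) := by
  have hq : (0 : ℝ) ≤ 1 / θ := by positivity
  have hT1 : ContinuousOn (fun p : Matrix (Fin N) (Fin N) ℂ × ℝ => Tm p.1)
      ({G | G.PosSemidef} ×ˢ Icc a b) :=
    hTm.comp continuousOn_fst (fun p hp => hp.1)
  have hg : ContinuousOn (fun p : Matrix (Fin N) (Fin N) ℂ × ℝ => gram f p.2)
      ({G | G.PosSemidef} ×ˢ Icc a b) :=
    ((continuous_gram hf).comp continuous_snd).continuousOn
  have hP : ContinuousOn (fun p : Matrix (Fin N) (Fin N) ℂ × ℝ => Tm p.1 * gram f p.2 * Tm p.1)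
      ({G | G.PosSemidef} ×ˢ Icc a b) := (hT1.mul hg).mul hT1
  have h1 := (continuousOn_mf (n := Fin N) (Real.continuous_rpow_const hq)).comp hP
    (fun p hp => (pot_conj_psd f (hTH p.1 hp.1) p.2).isHermitian)
  exact h1.const_smul (((1 + 1 / θ : ℝ) : ℂ))

theorem pot_bound {θ : ℝ} (h0 : 0 < θ) {f f' : Fin N → ℝ → EuclideanSpace ℂ (Fin m)}
    (hf : ∀ j, IsH1 (f j) (f' j)) {τ : ℝ} (hτ : 0 ≤ τ) :
    ∃ w₀ : ℝ, 0 ≤ w₀ ∧ ∀ T : Matrix (Fin N) (Fin N) ℂ, T.IsHermitian →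
      ((τ : ℂ) • (1 : Matrix (Fin N) (Fin N) ℂ) - T * T).PosSemidef → ∀ x : ℝ,
        ((w₀ : ℂ) • (1 : Matrix (Fin N) (Fin N) ℂ) - pot θ f T x).PosSemidef := by
  obtain ⟨C, hC0, hC⟩ := gram_bound hf
  refine ⟨(1 + 1 / θ) * (τ * C) ^ (1 / θ), by positivity, ?_⟩
  intro T hT hTT x
  have hS := pot_conj_psd f hT x
  set S := T * gram f x * T with hSd
  have htr : rtr S ≤ τ * C := by
    have h1 := rtr_mul_nonneg (gram_posSemidef f x) hTT
    have h2 : rtr (gram f x * ((τ : ℂ) • (1 : Matrix (Fin N) (Fin N) ℂ) - T * T)) =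
        τ * rtr (gram f x) - rtr S := by
      have h3 : S.trace = (gram f x * (T * T)).trace := by
        rw [hSd, Matrix.trace_mul_comm, ← Matrix.mul_assoc, Matrix.trace_mul_comm]
      unfold rtr
      rw [h3, Matrix.mul_sub, Matrix.mul_smul, Matrix.mul_one, Matrix.trace_sub,
        Matrix.trace_smul, Complex.sub_re, smul_eq_mul, Complex.re_ofReal_mul]
    rw [h2] at h1
    have h4 := mul_le_mul_of_nonneg_left (hC x) hτ
    linarith
  have hlam : ∀ i, hS.isHermitian.eigenvalues i ≤ τ * C := fun i =>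
    (eigenvalues_le hS.isHermitian (le_rtr hS) i).trans htr
  have h5 : ((((1 + 1 / θ) * (τ * C) ^ (1 / θ) : ℝ)) : ℂ) • (1 : Matrix (Fin N) (Fin N) ℂ) -
      pot θ f T x = mf (fun t => (1 + 1 / θ) * (τ * C) ^ (1 / θ) - (1 + 1 / θ) * t ^ (1 / θ)) S := by
    rw [mf_sub hS.isHermitian (fun _ => (1 + 1 / θ) * (τ * C) ^ (1 / θ))
      (fun t => (1 + 1 / θ) * t ^ (1 / θ)), mf_const hS.isHermitian,
      mf_const_mul hS.isHermitian (1 + 1 / θ) (fun t => t ^ (1 / θ))]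
    rfl
  rw [h5]
  refine mf_posSemidef hS.isHermitian fun i => ?_
  have h6 : hS.isHermitian.eigenvalues i ^ (1 / θ) ≤ (τ * C) ^ (1 / θ) :=
    Real.rpow_le_rpow (hS.eigenvalues_nonneg i) (hlam i) (by positivity)
  have h7 : (0 : ℝ) ≤ 1 + 1 / θ := by positivity
  have h8 := mul_le_mul_of_nonneg_left h6 h7
  simpa using h8

end Vale.Agent.P371.Gen
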