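import Vale.Agent.Lib.P371.Gen.Brouwer

/-! # P371 Gen: a quasi-variational inequality (module QVI)

`π_G(z)` = nearest point of `C G` (`exists_proj`), `G' = π_G(G)`, `Θ(G) = π_G(G' - Φ(G, G'))`, which
maps `K₀` to `K₀`. Sequential continuity: if `G_k → G`, `z_k → z`, then `p_k = π_{G_k}(z_k) ∈ K₀`
(compact); every limit point `p` lies in `C G` (`hgraph`) and for `H ∈ C G` take `H_k → H`,
`H_k ∈ C (G_k)` (`hlsc`): `‖z_k - p_k‖ ≤ ‖z_k - H_k‖` gives `‖z - p‖ ≤ ‖z - H‖`, so `p = π_G(z)`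
(uniqueness of the nearest point). Hence `π_{G_k}(z_k) → π_G(z)`. By Brouwer `Θ` has a fixed point
`G ∈ C G`; then `G' = G` and `⟪G - Φ - G, H - G⟫ ≤ 0` for all `H ∈ C G`. -/

open Set Metric Filter Topology
open scoped RealInnerProductSpace

namespace Vale.Agent.P371.Gen

/-- Uniqueness of the nearest point, from the variational inequality. -/
theorem qvi_unique {V : Type*} [NormedAddCommGroup V] [InnerProductSpace ℝ V] {z p q : V}
    (h1 : ⟪z - p, q - p⟫ ≤ 0) (h2 : ⟪z - q, p - q⟫ ≤ 0) : p = q := by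
  have h3 : ⟪z - p, q - p⟫ + ⟪z - q, p - q⟫ = ⟪q - p, q - p⟫ := by
    have e : p - q = -(q - p) := by abel
    rw [e, inner_neg_right, ← sub_eq_add_neg, ← inner_sub_left]
    congr 1
    abel
  have h4 : ⟪q - p, q - p⟫ ≤ 0 := by linarith
  rw [real_inner_self_eq_norm_sq] at h4
  have h5 : ‖q - p‖ = 0 := by nlinarith [norm_nonneg (q - p), sq_nonneg ‖q - p‖]
  exact (sub_eq_zero.1 (norm_eq_zero.1 h5)).symm

theorem qvi {V : Type*} [NormedAddCommGroup V] [InnerProductSpace ℝ V] [FiniteDimensional ℝ V]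
    {K₀ : Set V} (hK : IsCompact K₀) (hKc : Convex ℝ K₀) (hne : K₀.Nonempty) (C : V → Set V)
    (hC1 : ∀ G ∈ K₀, C G ⊆ K₀) (hC2 : ∀ G ∈ K₀, (C G).Nonempty) (hC3 : ∀ G ∈ K₀, Convex ℝ (C G))
    (hgraph : ∀ (G E : ℕ → V) (G₀ E₀ : V), (∀ k, G k ∈ K₀) → (∀ k, E k ∈ C (G k)) →
      Tendsto G atTop (𝓝 G₀) → Tendsto E atTop (𝓝 E₀) → E₀ ∈ C G₀)
    (hlsc : ∀ (G : ℕ → V) (G₀ : V), (∀ k, G k ∈ K₀) → Tendsto G atTop (𝓝 G₀) → ∀ H ∈ C G₀,
      ∃ Hs : ℕ → V, (∀ k, Hs k ∈ C (G k)) ∧ Tendsto Hs atTop (𝓝 H))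
    (Φ : V → V → V)
    (hΦ : ∀ (G E : ℕ → V) (G₀ E₀ : V), (∀ k, G k ∈ K₀) → (∀ k, E k ∈ C (G k)) →
      Tendsto G atTop (𝓝 G₀) → Tendsto E atTop (𝓝 E₀) →
      Tendsto (fun k => Φ (G k) (E k)) atTop (𝓝 (Φ G₀ E₀))) :
    ∃ G ∈ K₀, G ∈ C G ∧ ∀ H ∈ C G, 0 ≤ ⟪Φ G G, H - G⟫ := by
  classical
  have hclosed : ∀ G ∈ K₀, IsClosed (C G) := by
    intro G hG
    refine IsSeqClosed.isClosed ?_
    intro E E₀ hE hlim
    exact hgraph (fun _ => G) E G E₀ (fun _ => hG) hE tendsto_const_nhds hlim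
  have hex : ∀ G z : V, ∃ p : V, G ∈ K₀ → (p ∈ C G ∧ ∀ w ∈ C G, ⟪z - p, w - p⟫ ≤ 0) := by
    intro G z
    by_cases hG : G ∈ K₀
    · obtain ⟨p, hp, hvi, _⟩ := exists_proj (hclosed G hG) (hC3 G hG) (hC2 G hG) z
      exact ⟨p, fun _ => ⟨hp, hvi⟩⟩
    · exact ⟨0, fun h => absurd h hG⟩
  choose π hπ using hex
  have hcont : ∀ (G z : ℕ → V) (G₀ z₀ : V), (∀ k, G k ∈ K₀) → G₀ ∈ K₀ →
      Tendsto G atTop (𝓝 G₀) → Tendsto z atTop (𝓝 z₀) →
      Tendsto (fun k => π (G k) (z k)) atTop (𝓝 (π G₀ z₀)) := by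
    intro G z G₀ z₀ hGk hG₀ hG hz
    refine tendsto_of_subseq_tendsto ?_
    intro ns hns
    have hmem : ∀ k, π (G (ns k)) (z (ns k)) ∈ K₀ := fun k =>
      hC1 _ (hGk _) (hπ _ _ (hGk _)).1
    obtain ⟨p, hp, φ, hφ, hlim⟩ := hK.tendsto_subseq hmem
    refine ⟨φ, ?_⟩
    have hnφ : Tendsto (fun k => ns (φ k)) atTop atTop := hns.comp hφ.tendsto_atTop
    have hG' : Tendsto (fun k => G (ns (φ k))) atTop (𝓝 G₀) := hG.comp hnφ
    have hz' : Tendsto (fun k => z (ns (φ k))) atTop (𝓝 z₀) := hz.comp hnφ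
    have hlim' : Tendsto (fun k => π (G (ns (φ k))) (z (ns (φ k)))) atTop (𝓝 p) := hlim
    have hpC : p ∈ C G₀ := hgraph (fun k => G (ns (φ k)))
      (fun k => π (G (ns (φ k))) (z (ns (φ k)))) G₀ p (fun k => hGk _)
      (fun k => (hπ _ _ (hGk _)).1) hG' hlim'
    have hvi : ∀ H ∈ C G₀, ⟪z₀ - p, H - p⟫ ≤ 0 := by
      intro H hH
      obtain ⟨Hs, hHs, hHlim⟩ := hlsc (fun k => G (ns (φ k))) G₀ (fun k => hGk _) hG' H hH
      have h1 := (hz'.sub hlim').inner (𝕜 := ℝ) (hHlim.sub hlim')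
      exact le_of_tendsto' h1 (fun k => (hπ _ _ (hGk _)).2 _ (hHs k))
    have hpe : p = π G₀ z₀ := qvi_unique (hvi _ (hπ _ _ hG₀).1) ((hπ _ _ hG₀).2 _ hpC)
    rw [← hpe]
    exact hlim'
  obtain ⟨G, hG, hfix⟩ := brouwer (f := fun G => π G (π G G - Φ G (π G G))) hK hKc hne
    (by
      rw [continuousOn_iff_continuous_domRestrict]
      refine SeqContinuous.continuous ?_
      intro u x hu
      have hu' : Tendsto (fun k => (u k : V)) atTop (𝓝 (x : V)) :=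
        (continuous_subtype_val.tendsto x).comp hu
      have h1 := hcont (fun k => (u k : V)) (fun k => (u k : V)) x x (fun k => (u k).2) x.2 hu' hu'
      have h2 := hΦ (fun k => (u k : V)) (fun k => π (u k) (u k)) x (π x x) (fun k => (u k).2)
        (fun k => (hπ _ _ (u k).2).1) hu' h1
      exact hcont (fun k => (u k : V)) _ x _ (fun k => (u k).2) x.2 hu' (h1.sub h2))
    (fun G hG => hC1 _ hG (hπ _ _ hG).1)
  have hGC : G ∈ C G := by
    have := (hπ G (π G G - Φ G (π G G)) hG).1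
    rwa [hfix] at this
  have hGG : π G G = G := by
    have := (hπ G G hG).2 G hGC
    rw [real_inner_self_eq_norm_sq] at this
    have h5 : ‖G - π G G‖ = 0 := by
      nlinarith [norm_nonneg (G - π G G), sq_nonneg ‖G - π G G‖]
    exact (sub_eq_zero.1 (norm_eq_zero.1 h5)).symm
  refine ⟨G, hG, hGC, fun H hH => ?_⟩
  rw [hGG] at hfix
  have := (hπ G (G - Φ G G) hG).2 H hH
  rw [hfix] at this
  have e : G - Φ G G - G = - Φ G G := by abel
  rw [e, inner_neg_left] at this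
  linarith

end Vale.Agent.P371.Gen
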