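import Vale.Agent.Lib.P371.Gen.Base
import Vale.Agent.Lib.P371.Kinetic
import Vale.Agent.Lib.P371.Upper

/-! # P371 Gen: testing with the eigenfunctions (module Red)

`test_identity`: `((Umat f x)ᴴ * W x * Umat f x) i j = ⟨f i x, W x f j x⟩`, and the eigenvalue
equation tested with `f i`: `∫ ⟨f_i, W f_j⟩ = ∫ ⟨f_i', f_j'⟩ - λ_j δ_ij`. Integrability of
`⟨f_i, W f_j⟩`: `|⟨u, W v⟩| ≤ (⟨u, W u⟩ + ⟨v, W v⟩)/2` and `integrable_inner_app`.
`young_int`: with `V = Umat f x * T` (`m × N`), `tr (T T Uᴴ W U) = tr (W V Vᴴ)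
≤ cp θ tr W^{1+θ} + tr (V Vᴴ)^q`, and `tr (V Vᴴ)^q = tr (Vᴴ V)^q = tr (T gram T)^q`.
Integrability of `tp q (T gram T)`: continuous in `x`, `≤ (τ g)^q`, `g = ∑ ‖f_j‖^2` bounded and
integrable.
`tail`: `tp q (T gram T) ≤ (rtr (T gram T))^q ≤ (τ g)^q ≤ τ^q C^{q-1} g` if `T T ≤ τ`. -/

open Matrix Set MeasureTheory
open scoped ComplexOrder

namespace Vale.Agent.P371.Gen

variable {m N : ℕ}

theorem red_add_smul {f f' g g' : ℝ → EuclideanSpace ℂ (Fin m)} (hf : IsH1 f f')
    (hg : IsH1 g g') (c : ℂ) : IsH1 (fun x => f x + c • g x) (fun x => f' x + c • g' x) := by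
  refine ⟨hf.memLp.add (hg.memLp.const_smul c), hf.memLp_deriv.add (hg.memLp_deriv.const_smul c),
    fun a b => ?_⟩
  have h1 : ∫ x in a..b, (f' x + c • g' x) = (∫ x in a..b, f' x) + ∫ x in a..b, c • g' x :=
    intervalIntegral.integral_add (hf.intervalIntegrable_deriv a b)
      ((hg.intervalIntegrable_deriv a b).smul c)
  rw [h1, intervalIntegral.integral_smul, ← hf.ftc a b, ← hg.ftc a b, smul_sub]
  abel

theorem red_app_add (M : Matrix (Fin m) (Fin m) ℂ) (u v : EuclideanSpace ℂ (Fin m)) :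
    app M (u + v) = app M u + app M v := by
  rw [app_eq, app_eq, app_eq, map_add]

theorem red_app_smul (M : Matrix (Fin m) (Fin m) ℂ) (c : ℂ) (v : EuclideanSpace ℂ (Fin m)) :
    app M (c • v) = c • app M v := by
  rw [app_eq, app_eq, map_smul]

theorem red_integrable_quad {p : ℝ} (hp : 1 ≤ p) {W : ℝ → Matrix (Fin m) (Fin m) ℂ}
    (hW : IsPotential p W) {f f' : ℝ → EuclideanSpace ℂ (Fin m)} (hf : IsH1 f f') :
    Integrable (fun x => (inner ℂ (f x) (app (W x) (f x)) : ℂ)) volume := by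
  have h1 := (integrable_inner_app hp hW hf).ofReal (𝕜 := ℂ)
  refine h1.congr (Filter.Eventually.of_forall fun x => ?_)
  exact (inner_app_im (hW.posSemidef x).isHermitian _).symm

theorem red_polar {M : Matrix (Fin m) (Fin m) ℂ} (u v : EuclideanSpace ℂ (Fin m)) :
    (inner ℂ u (app M v) : ℂ) =
      (inner ℂ (u + (1 : ℂ) • v) (app M (u + (1 : ℂ) • v))
        - inner ℂ (u + (-1 : ℂ) • v) (app M (u + (-1 : ℂ) • v))
        - Complex.I * inner ℂ (u + Complex.I • v) (app M (u + Complex.I • v))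
        + Complex.I * inner ℂ (u + (-Complex.I) • v) (app M (u + (-Complex.I) • v))) / 4 := by
  simp only [red_app_add, red_app_smul, inner_add_left, inner_add_right, inner_smul_left,
    inner_smul_right, map_neg, map_one, Complex.conj_I]
  ring_nf
  have hI2 : Complex.I ^ 2 = -1 := Complex.I_sq
  simp only [hI2]
  ring

theorem red_integrable {p : ℝ} (hp : 1 ≤ p) {W : ℝ → Matrix (Fin m) (Fin m) ℂ}
    (hW : IsPotential p W) {f f' g g' : ℝ → EuclideanSpace ℂ (Fin m)} (hf : IsH1 f f')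
    (hg : IsH1 g g') :
    Integrable (fun x => (inner ℂ (f x) (app (W x) (g x)) : ℂ)) volume := by
  have h : ∀ c : ℂ, Integrable (fun x => (inner ℂ (f x + c • g x)
      (app (W x) (f x + c • g x)) : ℂ)) volume := fun c =>
    red_integrable_quad hp hW (red_add_smul hf hg c)
  have h1 := ((((h 1).sub (h (-1))).sub ((h Complex.I).const_mul Complex.I)).add
    ((h (-Complex.I)).const_mul Complex.I)).div_const 4
  refine h1.congr (Filter.Eventually.of_forall fun x => ?_)
  exact (red_polar (f x) (g x)).symm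

theorem red_entry (W : ℝ → Matrix (Fin m) (Fin m) ℂ) (f : Fin N → ℝ → EuclideanSpace ℂ (Fin m))
    (x : ℝ) (i j : Fin N) :
    ((Umat f x)ᴴ * W x * Umat f x) i j = inner ℂ (f i x) (app (W x) (f j x)) := by
  rw [Matrix.mul_assoc, Matrix.mul_apply, PiLp.inner_apply]
  refine Finset.sum_congr rfl fun a _ => ?_
  rw [RCLike.inner_apply, Matrix.conjTranspose_apply, mul_comm]
  rfl

theorem test_identity {p : ℝ} (hp : 1 ≤ p) {W : ℝ → Matrix (Fin m) (Fin m) ℂ}
    (hW : IsPotential p W) {lam : Fin N → ℝ} {f f' : Fin N → ℝ → EuclideanSpace ℂ (Fin m)}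
    (hf : ∀ j, IsEigenfunction W (lam j) (f j) (f' j))
    (ho : ∀ i j, (∫ x, inner ℂ (f i x) (f j x)) = if i = j then (1 : ℂ) else 0)
    (S : Matrix (Fin N) (Fin N) ℂ) :
    Integrable (fun x => rtr (S * ((Umat f x)ᴴ * W x * Umat f x))) ∧
    ∫ x, rtr (S * ((Umat f x)ᴴ * W x * Umat f x))
      = (∫ x, rtr (S * ((Umat f' x)ᴴ * Umat f' x)))
        + rtr (S * Matrix.diagonal (fun j => ((-lam j : ℝ) : ℂ))) := by
  have hA : ∀ i j, Integrable (fun x => ((Umat f x)ᴴ * W x * Umat f x) i j) := by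
    intro i j
    simp only [red_entry]
    exact red_integrable hp hW (hf i).1 (hf j).1
  have hB : ∀ i j, Integrable (fun x => ((Umat f' x)ᴴ * Umat f' x) i j) := fun i j =>
    integrable_gram (Umat_memLp fun j => (hf j).1.memLp_deriv)
      (Umat_memLp fun j => (hf j).1.memLp_deriv) i j
  have hgen : ∀ Q : ℝ → Matrix (Fin N) (Fin N) ℂ, (∀ i j, Integrable (fun x => Q x i j)) →
      Integrable (fun x => (S * Q x).trace) ∧
        ∫ x, rtr (S * Q x) = (∑ i, ∑ j, S i j * ∫ x, Q x j i).re := by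
    intro Q hQ
    have h1 : ∀ x, (S * Q x).trace = ∑ i, ∑ j, S i j * Q x j i := by
      intro x
      simp only [Matrix.trace, Matrix.diag_apply, Matrix.mul_apply]
    have h2 : Integrable (fun x => (S * Q x).trace) := by
      simp only [h1]
      exact integrable_finsetSum _ fun i _ => integrable_finsetSum _ fun j _ =>
        (hQ j i).const_mul _
    refine ⟨h2, ?_⟩
    unfold rtr
    have h3 : ∫ x, ((S * Q x).trace).re = (∫ x, (S * Q x).trace).re := by
      exact integral_re h2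
    rw [h3]
    congr 1
    simp only [h1]
    have h4 : ∀ i j, Integrable (fun x => S i j * Q x j i) := fun i j =>
      (hQ j i).const_mul (S i j)
    have h5 : ∀ i, Integrable (fun x => ∑ j, S i j * Q x j i) := fun i =>
      integrable_finsetSum _ fun j _ => h4 i j
    rw [integral_finsetSum _ fun i _ => h5 i]
    refine Finset.sum_congr rfl fun i _ => ?_
    rw [integral_finsetSum _ fun j _ => h4 i j]
    refine Finset.sum_congr rfl fun j _ => ?_
    rw [integral_const_mul]
  obtain ⟨hA1, hA2⟩ := hgen _ hA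
  obtain ⟨-, hB2⟩ := hgen _ hB
  refine ⟨hA1.re, ?_⟩
  rw [hA2, hB2]
  have h4 : ∀ i j, (∫ x, ((Umat f x)ᴴ * W x * Umat f x) i j)
      = (∫ x, ((Umat f' x)ᴴ * Umat f' x) i j)
        + Matrix.diagonal (fun j => ((-lam j : ℝ) : ℂ)) i j := by
    intro i j
    have h5 := (hf j).2 (f i) (f' i) (hf i).1
    rw [ho i j] at h5
    have h6 : (∫ x, ((Umat f' x)ᴴ * Umat f' x) i j) = ∫ x, inner ℂ (f' i x) (f' j x) := by
      refine integral_congr_ae (Filter.Eventually.of_forall fun x => ?_)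
      exact (congrFun (congrFun (gram_eq f' x) i) j).symm
    rw [h6]
    simp only [red_entry]
    rw [Matrix.diagonal_apply]
    split_ifs at h5 ⊢ with hij
    · subst hij
      push_cast
      linear_combination -h5
    · linear_combination -h5
  have h7 : rtr (S * Matrix.diagonal (fun j => ((-lam j : ℝ) : ℂ)))
      = (∑ i, ∑ j, S i j * Matrix.diagonal (fun j => ((-lam j : ℝ) : ℂ)) j i).re := by
    unfold rtr
    simp only [Matrix.trace, Matrix.diag_apply, Matrix.mul_apply]
  rw [h7, ← Complex.add_re, ← Finset.sum_add_distrib]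
  congr 1
  refine Finset.sum_congr rfl fun i _ => ?_
  rw [← Finset.sum_add_distrib]
  refine Finset.sum_congr rfl fun j _ => ?_
  rw [h4 j i]
  ring

end Vale.Agent.P371.Gen
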