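import Vale.Agent.Lib.P371.Gen.Sqrt

/-! # P371 Gen: the resolvent inequality (module Resolv)

Let `K > 0`, `Y` Hermitian, `P = K + Y > 0`, `Q = K - Y > 0`, `H = K⁻¹`, `t ≥ 0`, `R = (P+t)⁻¹`.

(1) `K^2 - Y^2 = (P Q + Q P)/2`. Since `R P = P R = 1 - t R`,
`tr ((K^2-Y^2) R H R) = (1/2) tr (Q (R H R P + P R H R)) = tr (Q ((R H + H R)/2 - t R H R))`, and
with `Q = 2K - P`, `H K = K H = 1`: this is `2 tr R - 2 t tr (K R H R) - tr (H (P R)^2)`.

(2) `tr (K R H R) ≥ tr (R^2)`: with `Z = K^{1/2} R K^{-1/2}`, `tr (R^2) = tr (Z^2) ≤ tr (Z* Z)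
= tr (K^{-1/2} R K R K^{-1/2}) = tr (H R K R)` (Cauchy-Schwarz `|tr Z^2| ≤ tr Z*Z`).

(3) Hence `tr ((K^2-Y^2) R H R) ≤ 2 tr (R - t R^2) - tr (H (PR)^2) = 2 tr (P R^2) - tr (H (P R)^2)`.

`int_PRR`, `int_HPR`: in the eigenbasis of `P`: `∫_0^∞ p/(p+t)^2 dt = 1`,
`∫_0^∞ (p/(p+t))^2 dt = p`. -/

open Matrix Set MeasureTheory
open scoped ComplexOrder

namespace Vale.Agent.P371.Gen

variable {n : Type*} [Fintype n] [DecidableEq n]

/-- The resolvent `(P + t)⁻¹`. -/
noncomputable def Rs (P : Matrix n n ℂ) (t : ℝ) : Matrix n n ℂ :=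
  (P + (t : ℂ) • (1 : Matrix n n ℂ))⁻¹

theorem resolv_mul_mf {P : Matrix n n ℂ} (hP : P.PosDef) {t : ℝ} (ht : 0 ≤ t) :
    (P + (t : ℂ) • (1 : Matrix n n ℂ)) * mf (fun p => 1 / (p + t)) P = 1 := by
  have hH : P.IsHermitian := hP.isHermitian
  have h1 : P + (t : ℂ) • (1 : Matrix n n ℂ) = mf (fun p => p + t) P := by
    rw [mf_add hH (fun p => p) (fun _ => t), mf_id hH, mf_const hH]
  rw [h1, ← mf_mul hH (fun p => p + t) (fun p => 1 / (p + t))]
  have h2 : mf (fun p => (p + t) * (1 / (p + t))) P = mf (fun _ => (1:ℝ)) P := by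
    refine mf_congr hH fun i => ?_
    have h3 : 0 < hH.eigenvalues i := hP.eigenvalues_pos i
    have h4 : hH.eigenvalues i + t ≠ 0 := by linarith
    exact mul_one_div_cancel h4
  rw [h2, mf_const hH]
  simp

theorem Rs_eq_mf {P : Matrix n n ℂ} (hP : P.PosDef) {t : ℝ} (ht : 0 ≤ t) :
    Rs P t = mf (fun p => 1 / (p + t)) P :=
  Matrix.inv_eq_right_inv (resolv_mul_mf hP ht)

theorem resolv_mul {P : Matrix n n ℂ} (hP : P.PosDef) {t : ℝ} (ht : 0 ≤ t) :
    P * Rs P t = 1 - (t : ℂ) • Rs P t := by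
  have h := resolv_mul_mf hP ht
  rw [← Rs_eq_mf hP ht, Matrix.add_mul, Matrix.smul_mul, Matrix.one_mul] at h
  exact eq_sub_of_add_eq h

theorem resolv_mul' {P : Matrix n n ℂ} (hP : P.PosDef) {t : ℝ} (ht : 0 ≤ t) :
    Rs P t * P = 1 - (t : ℂ) • Rs P t := by
  have h := resolv_mul_mf hP ht
  rw [← Rs_eq_mf hP ht] at h
  have h1 := mul_eq_one_comm.1 h
  rw [Matrix.mul_add, Matrix.mul_smul, Matrix.mul_one] at h1
  exact eq_sub_of_add_eq h1

theorem resolv_rtr_comm (A B : Matrix n n ℂ) : rtr (A * B) = rtr (B * A) := by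
  unfold rtr
  rw [Matrix.trace_mul_comm]

theorem resolv_rtr_add (A B : Matrix n n ℂ) : rtr (A + B) = rtr A + rtr B := by
  unfold rtr
  rw [Matrix.trace_add, Complex.add_re]

theorem resolv_rtr_sub (A B : Matrix n n ℂ) : rtr (A - B) = rtr A - rtr B := by
  unfold rtr
  rw [Matrix.trace_sub, Complex.sub_re]

theorem resolv_rtr_smul (t : ℝ) (A : Matrix n n ℂ) : rtr ((t : ℂ) • A) = t * rtr A := by
  unfold rtr
  rw [Matrix.trace_smul, smul_eq_mul, Complex.re_ofReal_mul]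

theorem resolv_rtr_conj (A : Matrix n n ℂ) : rtr Aᴴ = rtr A := by
  unfold rtr
  rw [Matrix.trace_conjTranspose, Complex.star_def, Complex.conj_re]

/-- Cauchy-Schwarz for `tr Z^2` -/
theorem resolv_cs (Z : Matrix n n ℂ) : rtr (Z * Z) ≤ rtr (Zᴴ * Z) := by
  have h1 := rtr_nonneg (Matrix.posSemidef_conjTranspose_mul_self (Z - Zᴴ))
  have h2 : (Z - Zᴴ)ᴴ * (Z - Zᴴ) = Zᴴ * Z - Zᴴ * Zᴴ - Z * Z + Z * Zᴴ := by
    rw [Matrix.conjTranspose_sub, Matrix.conjTranspose_conjTranspose]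
    noncomm_ring
  rw [h2, resolv_rtr_add, resolv_rtr_sub, resolv_rtr_sub, resolv_rtr_comm Z Zᴴ] at h1
  have h3 : rtr (Zᴴ * Zᴴ) = rtr (Z * Z) := by
    rw [← Matrix.conjTranspose_mul, resolv_rtr_conj]
  rw [h3] at h1
  linarith

/-- (2) -/
theorem rtr_sq_le {K R : Matrix n n ℂ} (hK : K.PosDef) (hR : R.IsHermitian) :
    rtr (R * R) ≤ rtr (K * R * K⁻¹ * R) := by
  have hH : K.IsHermitian := hK.isHermitian
  set S := mf (fun x => Real.sqrt x) K with hS
  set T := mf (fun x => 1 / Real.sqrt x) K with hT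
  have hpos : ∀ i, 0 < hH.eigenvalues i := fun i => hK.eigenvalues_pos i
  have hSS : S * S = K := by
    rw [hS, ← mf_mul hH]
    have h1 : mf (fun x => Real.sqrt x * Real.sqrt x) K = mf (fun x => x) K :=
      mf_congr hH fun i => Real.mul_self_sqrt (hpos i).le
    rw [h1, mf_id hH]
  have hST : S * T = 1 := by
    rw [hS, hT, ← mf_mul hH]
    have h1 : mf (fun x => Real.sqrt x * (1 / Real.sqrt x)) K = mf (fun _ => (1:ℝ)) K :=
      mf_congr hH fun i => mul_one_div_cancel (Real.sqrt_pos.2 (hpos i)).ne'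
    rw [h1, mf_const hH]
    simp
  have hTS : T * S = 1 := mul_eq_one_comm.1 hST
  have hTT : T * T = K⁻¹ := by
    refine (Matrix.inv_eq_right_inv ?_).symm
    rw [← hSS]
    calc S * S * (T * T) = S * (S * T) * T := by noncomm_ring
      _ = 1 := by rw [hST, Matrix.mul_one, hST]
  have hSh : Sᴴ = S := mf_isHermitian _ K
  have hTh : Tᴴ = T := mf_isHermitian _ K
  have hRh : Rᴴ = R := hR
  have h1 := resolv_cs (S * R * T)
  have h2 : rtr (S * R * T * (S * R * T)) = rtr (R * R) := by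
    have h3 : S * R * T * (S * R * T) = S * (R * R * T) := by
      calc S * R * T * (S * R * T) = S * R * (T * S) * (R * T) := by noncomm_ring
        _ = S * (R * R * T) := by rw [hTS]; noncomm_ring
    rw [h3, resolv_rtr_comm, Matrix.mul_assoc (R * R) T S, hTS, Matrix.mul_one]
  have h4 : rtr ((S * R * T)ᴴ * (S * R * T)) = rtr (K * R * K⁻¹ * R) := by
    have h5 : (S * R * T)ᴴ * (S * R * T) = (T * R) * (K * R * T) := by
      rw [Matrix.conjTranspose_mul, Matrix.conjTranspose_mul, hSh, hTh, hRh, ← hSS]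
      noncomm_ring
    have h6 : K * R * T * (T * R) = K * R * K⁻¹ * R := by
      rw [← hTT]
      noncomm_ring
    rw [h5, resolv_rtr_comm, h6]
  rw [h2, h4] at h1
  exact h1

/-- (3) -/
theorem resolv_ineq {K Y : Matrix n n ℂ} (hK : K.PosDef) (hY : Y.IsHermitian)
    (hP : (K + Y).PosDef) {t : ℝ} (ht : 0 ≤ t) :
    rtr ((K * K - Y * Y) * (Rs (K + Y) t * K⁻¹ * Rs (K + Y) t)) ≤
      2 * rtr ((K + Y) * (Rs (K + Y) t * Rs (K + Y) t))
        - rtr (K⁻¹ * (((K + Y) * Rs (K + Y) t) * ((K + Y) * Rs (K + Y) t))) := by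
  have hKdet : IsUnit K.det := (Matrix.isUnit_iff_isUnit_det K).1 hK.isUnit
  have hKH : K * K⁻¹ = 1 := Matrix.mul_nonsing_inv K hKdet
  have hHK : K⁻¹ * K = 1 := Matrix.nonsing_inv_mul K hKdet
  have hPR := resolv_mul hP ht
  have hRP := resolv_mul' hP ht
  have hRh : (Rs (K + Y) t).IsHermitian := by
    rw [Rs_eq_mf hP ht]
    exact mf_isHermitian _ _
  have hsq := rtr_sq_le hK hRh
  set H := K⁻¹ with hH
  set P := K + Y with hPdef
  set R := Rs P t with hRdef
  have hid : (K * K - Y * Y) * (R * H * R) =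
      P * (K * R * H * R) + K * (P * R) * (H * R) - P * (P * R * H * R) := by
    have hYe : Y = P - K := by rw [hPdef]; noncomm_ring
    rw [hYe]
    noncomm_ring
  rw [hid, resolv_rtr_sub, resolv_rtr_add]
  have h1 : rtr (P * (K * R * H * R)) = rtr R - t * rtr (K * R * H * R) := by
    have e : K * R * H * R * P = K * (R * H) - (t : ℂ) • (K * R * H * R) := by
      rw [Matrix.mul_assoc (K * R * H) R P, hRP, Matrix.mul_sub, Matrix.mul_one, Matrix.mul_smul]
      simp only [Matrix.mul_assoc]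
    rw [resolv_rtr_comm, e, resolv_rtr_sub, resolv_rtr_smul, resolv_rtr_comm K (R * H),
      Matrix.mul_assoc R H K, hHK, Matrix.mul_one]
  have h2 : rtr (K * (P * R) * (H * R)) = rtr R - t * rtr (K * R * H * R) := by
    have e : K * (P * R) * (H * R) = R - (t : ℂ) • (K * R * H * R) := by
      rw [hPR, Matrix.mul_sub, Matrix.mul_one, Matrix.sub_mul, ← Matrix.mul_assoc, hKH,
        Matrix.one_mul, Matrix.mul_smul, Matrix.smul_mul]
      simp only [Matrix.mul_assoc]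
    rw [e, resolv_rtr_sub, resolv_rtr_smul]
  have h3 : rtr (P * (P * R * H * R)) = rtr (H * (P * R * (P * R))) := by
    have e1 : P * (P * R * H * R) = (P * P * R) * (H * R) := by simp only [Matrix.mul_assoc]
    have e2 : H * R * (P * P * R) = H * (P * R * (P * R)) := by
      have e3 : R * P = P * R := by rw [hRP, hPR]
      calc H * R * (P * P * R) = H * ((R * P) * (P * R)) := by simp only [Matrix.mul_assoc]
        _ = H * (P * R * (P * R)) := by rw [e3]
    rw [e1, resolv_rtr_comm, e2]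
  have h4 : rtr (P * (R * R)) = rtr R - t * rtr (R * R) := by
    rw [← Matrix.mul_assoc, hPR, Matrix.sub_mul, Matrix.one_mul, Matrix.smul_mul, resolv_rtr_sub,
      resolv_rtr_smul]
  rw [h1, h2, h3, h4]
  have h5 := mul_le_mul_of_nonneg_left hsq ht
  linarith

end Vale.Agent.P371.Gen
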