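import Vale.Agent.Lib.P371.Gen.RicExist

/-! # P371 Gen: the admissible set (module RicAdm)

`adm_of_le`: if `E ∈ Adm W` with solution `Y`, `E ≤ E'` and `W' - E' ≤ W - E` on `[a,b]`, then `Y`
is a supersolution for `(W', E')` (`Y' - (Y^2 - E' + W') = (W - E) - (W' - E') ≥ 0`,
`Y a + √E' = √E' - √E ≥ 0` by `msqrt_mono`), so the solution `Y₁` exists (`ric_exists`), `Y₁ ≤ Y`
(`ric_comp`), and `Y₁ b ≤ Y b ≤ √E ≤ √E'`.
`adm_const`: `Z = 0` is a supersolution for `E = w₀ 1` if `W ≤ w₀`.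
`adm_convex`: for `E = s E₀ + t E₁` let `Z = s Y₀ + t Y₁`. Then
`Z' = s Y₀^2 + t Y₁^2 - E + W ≥ Z^2 - E + W` (since `s Y₀^2 + t Y₁^2 - Z^2 = s t (Y₀ - Y₁)^2`), and
`Z a + √E = √E - (s √E₀ + t √E₁) ≥ 0` by `msqrt_concave`; so the solution `Y` exists and
`Y b ≤ Z b ≤ s √E₀ + t √E₁ ≤ √E`. -/

open Matrix Set MeasureTheory
open scoped ComplexOrder

namespace Vale.Agent.P371.Gen

variable {n : Type*} [Fintype n] [DecidableEq n]

theorem adm_of_le {a b : ℝ} (hab : a ≤ b) {W W' : ℝ → Matrix n n ℂ}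
    (hW'c : ContinuousOn W' (Icc a b)) (hW' : ∀ x ∈ Icc a b, (W' x).PosSemidef)
    {E E' : Matrix n n ℂ} {Yf : ℝ → Matrix n n ℂ} (hE : E.PosSemidef) (hR : IsRic a b W E Yf)
    (hend : (msqrt E - Yf b).PosSemidef) (hEE' : (E' - E).PosSemidef)
    (hle : ∀ x ∈ Icc a b, ((W x - E) - (W' x - E')).PosSemidef) :
    ∃ Y' : ℝ → Matrix n n ℂ, IsRic a b W' E' Y' ∧ (∀ x ∈ Icc a b, (Yf x - Y' x).PosSemidef) ∧
      (msqrt E' - Y' b).PosSemidef ∧ E' ∈ Adm a b W' := by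
  have hE' : E'.PosSemidef := by
    have := hEE'.add hE
    rwa [sub_add_cancel] at this
  have hm := msqrt_mono hE hEE'
  have hsup : ∀ x ∈ Icc a b, ((Yf x * Yf x - E + W x) - (Yf x * Yf x - E' + W' x)).PosSemidef := by
    intro x hx
    have e : (Yf x * Yf x - E + W x) - (Yf x * Yf x - E' + W' x) = (W x - E) - (W' x - E') := by
      abel
    rw [e]
    exact hle x hx
  have ha : (Yf a + msqrt E').PosSemidef := by
    rw [hR.init, neg_add_eq_sub]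
    exact hm
  obtain ⟨Y', hY'⟩ := ric_exists hab hW'c hW' hE' hR.herm hR.deriv hsup ha
  have hc := ric_comp hab hY' hR.herm hR.deriv hsup ha
  have hend' : (msqrt E' - Y' b).PosSemidef := by
    have := (hm.add hend).add (hc b (right_mem_Icc.2 hab))
    have e : msqrt E' - msqrt E + (msqrt E - Yf b) + (Yf b - Y' b) = msqrt E' - Y' b := by abel
    rwa [e] at this
  exact ⟨Y', hY', hc, hend', hE', Y', hY', hend'⟩

theorem adm_const {a b : ℝ} (hab : a ≤ b) {W : ℝ → Matrix n n ℂ}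
    (hWc : ContinuousOn W (Icc a b)) (hW : ∀ x ∈ Icc a b, (W x).PosSemidef) {w₀ : ℝ}
    (hw₀ : 0 ≤ w₀) (hle : ∀ x ∈ Icc a b, ((w₀ : ℂ) • (1 : Matrix n n ℂ) - W x).PosSemidef) :
    (w₀ : ℂ) • (1 : Matrix n n ℂ) ∈ Adm a b W := by
  have hE : ((w₀ : ℂ) • (1 : Matrix n n ℂ)).PosSemidef := by
    refine Matrix.PosSemidef.smul Matrix.PosSemidef.one ?_
    exact_mod_cast hw₀
  set E := (w₀ : ℂ) • (1 : Matrix n n ℂ) with hEdef
  have hZH : ∀ x ∈ Icc a b, ((fun _ : ℝ => (0 : Matrix n n ℂ)) x).IsHermitian := by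
    intro x _
    exact Matrix.isHermitian_zero
  have hZ : HasMD (fun _ : ℝ => (0 : Matrix n n ℂ)) (fun _ : ℝ => (0 : Matrix n n ℂ)) a b := by
    intro x _ i j
    simpa using hasDerivWithinAt_const x (Icc a b) (0 : ℂ)
  have hsup : ∀ x ∈ Icc a b, ((0 : Matrix n n ℂ) - ((0 : Matrix n n ℂ) * 0 - E + W x)).PosSemidef := by
    intro x hx
    have e : (0 : Matrix n n ℂ) - ((0 : Matrix n n ℂ) * 0 - E + W x) = E - W x := by
      rw [Matrix.zero_mul]; abel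
    rw [e]
    exact hle x hx
  have ha : ((0 : Matrix n n ℂ) + msqrt E).PosSemidef := by
    rw [zero_add]
    exact msqrt_posSemidef E
  obtain ⟨Y, hY⟩ := ric_exists hab hWc hW hE hZH hZ hsup ha
  have hc := ric_comp hab hY hZH hZ hsup ha
  refine ⟨hE, Y, hY, ?_⟩
  have := (msqrt_posSemidef E).add (hc b (right_mem_Icc.2 hab))
  have e : msqrt E + (0 - Y b) = msqrt E - Y b := by abel
  rwa [e] at this

omit [DecidableEq n] in
/-- `s A^2 + t B^2 - (s A + t B)^2 = s t (A - B)^2` if `s + t = 1`. -/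
theorem adm_sq_aux (A B : Matrix n n ℂ) {s t : ℂ} (hst : s + t = 1) :
    s • (A * A) + t • (B * B) - (s • A + t • B) * (s • A + t • B) =
      (s * t) • ((A - B) * (A - B)) := by
  obtain rfl : t = 1 - s := by rw [← hst]; ring
  simp only [Matrix.add_mul, Matrix.mul_add, Matrix.smul_mul, Matrix.mul_smul, Matrix.sub_mul,
    Matrix.mul_sub, smul_sub, smul_add, smul_smul]
  module

theorem adm_convex {a b : ℝ} (hab : a ≤ b) {W : ℝ → Matrix n n ℂ}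
    (hWc : ContinuousOn W (Icc a b)) (hW : ∀ x ∈ Icc a b, (W x).PosSemidef)
    {E₀ E₁ : Matrix n n ℂ} (h₀ : E₀ ∈ Adm a b W) (h₁ : E₁ ∈ Adm a b W) {s t : ℝ} (hs : 0 ≤ s)
    (ht : 0 ≤ t) (hst : s + t = 1) : (s : ℂ) • E₀ + (t : ℂ) • E₁ ∈ Adm a b W := by
  obtain ⟨hE₀, Y₀, hY₀, hend₀⟩ := h₀
  obtain ⟨hE₁, Y₁, hY₁, hend₁⟩ := h₁
  have hsC : (0 : ℂ) ≤ (s : ℂ) := by exact_mod_cast hs
  have htC : (0 : ℂ) ≤ (t : ℂ) := by exact_mod_cast ht
  have hstC : (s : ℂ) + (t : ℂ) = 1 := by exact_mod_cast hst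
  have hE : ((s : ℂ) • E₀ + (t : ℂ) • E₁).PosSemidef :=
    (hE₀.smul hsC).add (hE₁.smul htC)
  have hconc := msqrt_concave hE₀ hE₁ hs ht hst
  set E := (s : ℂ) • E₀ + (t : ℂ) • E₁ with hEdef
  have herm : ∀ {A B : Matrix n n ℂ}, A.IsHermitian → B.IsHermitian →
      ((s : ℂ) • A + (t : ℂ) • B).IsHermitian := by
    intro A B hA hB
    unfold Matrix.IsHermitian
    rw [Matrix.conjTranspose_add, Matrix.conjTranspose_smul, Matrix.conjTranspose_smul, hA.eq,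
      hB.eq]
    simp
  have hZH : ∀ x ∈ Icc a b, ((s : ℂ) • Y₀ x + (t : ℂ) • Y₁ x).IsHermitian :=
    fun x hx => herm (hY₀.herm x hx) (hY₁.herm x hx)
  have hZ : HasMD (fun x => (s : ℂ) • Y₀ x + (t : ℂ) • Y₁ x)
      (fun x => (s : ℂ) • (Y₀ x * Y₀ x - E₀ + W x) + (t : ℂ) • (Y₁ x * Y₁ x - E₁ + W x)) a b := by
    intro x hx i j
    have h1 := (hY₀.deriv x hx i j).const_mul (s : ℂ)
    have h2 := (hY₁.deriv x hx i j).const_mul (t : ℂ)
    exact h1.fun_add h2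
  have hsup : ∀ x ∈ Icc a b,
      (((s : ℂ) • (Y₀ x * Y₀ x - E₀ + W x) + (t : ℂ) • (Y₁ x * Y₁ x - E₁ + W x)) -
        (((s : ℂ) • Y₀ x + (t : ℂ) • Y₁ x) * ((s : ℂ) • Y₀ x + (t : ℂ) • Y₁ x) - E
          + W x)).PosSemidef := by
    intro x hx
    have e : ((s : ℂ) • (Y₀ x * Y₀ x - E₀ + W x) + (t : ℂ) • (Y₁ x * Y₁ x - E₁ + W x)) -
        (((s : ℂ) • Y₀ x + (t : ℂ) • Y₁ x) * ((s : ℂ) • Y₀ x + (t : ℂ) • Y₁ x) - E
          + W x) = ((s : ℂ) * (t : ℂ)) • ((Y₀ x - Y₁ x) * (Y₀ x - Y₁ x)) := by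
      rw [← adm_sq_aux _ _ hstC]
      have hW1 : (s : ℂ) • W x + (t : ℂ) • W x = W x := by rw [← add_smul, hstC, one_smul]
      calc _ = ((s : ℂ) • (Y₀ x * Y₀ x) + (t : ℂ) • (Y₁ x * Y₁ x) -
            ((s : ℂ) • Y₀ x + (t : ℂ) • Y₁ x) * ((s : ℂ) • Y₀ x + (t : ℂ) • Y₁ x)) +
            (((s : ℂ) • W x + (t : ℂ) • W x) - W x) + (E - ((s : ℂ) • E₀ + (t : ℂ) • E₁)) := by
              simp only [smul_add, smul_sub]; abel
        _ = _ := by rw [hW1, hEdef]; abel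
    rw [e]
    have hh : (Y₀ x - Y₁ x).IsHermitian := (hY₀.herm x hx).sub (hY₁.herm x hx)
    have hp : ((Y₀ x - Y₁ x) * (Y₀ x - Y₁ x)).PosSemidef := by
      have := Matrix.posSemidef_conjTranspose_mul_self (Y₀ x - Y₁ x)
      rwa [hh.eq] at this
    exact hp.smul (mul_nonneg hsC htC)
  have ha : (((s : ℂ) • Y₀ a + (t : ℂ) • Y₁ a) + msqrt E).PosSemidef := by
    rw [hY₀.init, hY₁.init]
    have e : (s : ℂ) • -msqrt E₀ + (t : ℂ) • -msqrt E₁ + msqrt E =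
        msqrt E - ((s : ℂ) • msqrt E₀ + (t : ℂ) • msqrt E₁) := by
      simp only [smul_neg]; abel
    rw [e]
    exact hconc
  obtain ⟨Y, hY⟩ := ric_exists hab hWc hW hE hZH hZ hsup ha
  have hc := ric_comp hab hY hZH hZ hsup ha
  refine ⟨hE, Y, hY, ?_⟩
  have := ((hconc.add (hend₀.smul hsC)).add (hend₁.smul htC)).add (hc b (right_mem_Icc.2 hab))
  have e : msqrt E - ((s : ℂ) • msqrt E₀ + (t : ℂ) • msqrt E₁) + (s : ℂ) • (msqrt E₀ - Y₀ b) +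
      (t : ℂ) • (msqrt E₁ - Y₁ b) + (((s : ℂ) • Y₀ b + (t : ℂ) • Y₁ b) - Y b) =
      msqrt E - Y b := by
    simp only [smul_sub]; abel
  rwa [e] at this

end Vale.Agent.P371.Gen
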