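import Vale.Agent.Lib.P371.Gen.Fun

/-! # P371 Gen: comparison lemma (module RicCmp)

`psd_of_deriv`: let `D' ≥ A D + D A` on `[a,b]`, `D(a) ≥ 0`. Suppose that `D` is not positive
semidefinite somewhere, let `C > 2 |⟨c, A(x) c⟩|` for all unit vectors `c` and all `x`, and let
`(x₀, c₀)` be a minimum point of `e^{-Cx} ⟨c, D(x) c⟩` on `[a,b] × sphere`. The minimum is negative,
so that `x₀ > a`, and `D(x₀) c₀ = λ c₀` with `λ < 0`. The derivative in `x` at `x₀` is `≤ 0`; but
`⟨c₀, D' c₀⟩ - C λ ≥ 2 λ ⟨c₀, A c₀⟩ - C λ > 0`.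
`psd_of_deriv_back`: reflect `x ↦ a + b - x`.
`ric_ge`: `D = √E + Y`: `D' = Y^2 - E + W = D D/2 + ... `; with `K = √E`,
`Y^2 - K^2 = ((Y - K)(Y + K) + (Y + K)(Y - K))/2 = A D + D A`, `A = (Y - K)/2`; `W ≥ 0`.
`ric_le`: `D = K - Y`: `D' = K^2 - Y^2 - W = A D + D A - W`, `A = (K + Y)/2`; backward from `b`.
`ric_comp`: `D = Z - Y`, `Z^2 - Y^2 = A D + D A`, `A = (Z + Y)/2`. -/

open Matrix Set MeasureTheory
open scoped ComplexOrder

namespace Vale.Agent.P371.Gen

variable {n : Type*} [Fintype n] [DecidableEq n]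

/-- real quadratic form of a matrix -/
private noncomputable def qf (M : Matrix n n ℂ) (c : n → ℂ) : ℝ := (star c ⬝ᵥ (M *ᵥ c)).re

/-- squared norm -/
private noncomputable def nq (c : n → ℂ) : ℝ := ∑ i, ‖c i‖ ^ 2

omit [DecidableEq n] in
private theorem qf_eq (M : Matrix n n ℂ) (c : n → ℂ) :
    qf M c = ∑ i, ∑ j, (star (c i) * (M i j * c j)).re := by
  simp only [qf, dotProduct, mulVec, Pi.star_apply, Finset.mul_sum, Complex.re_sum]

omit [DecidableEq n] in
private theorem star_dot_self (c : n → ℂ) : star c ⬝ᵥ c = ((nq c : ℝ) : ℂ) := by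
  simp only [dotProduct, nq, Pi.star_apply, Complex.star_def, Complex.conj_mul', Complex.ofReal_sum,
    Complex.ofReal_pow]

omit [DecidableEq n] in
private theorem nq_nonneg (c : n → ℂ) : 0 ≤ nq c :=
  Finset.sum_nonneg fun _ _ => sq_nonneg _

omit [DecidableEq n] in
private theorem eq_zero_of_nq {c : n → ℂ} (h : nq c = 0) : c = 0 := by
  funext i
  have h1 := (Finset.sum_eq_zero_iff_of_nonneg (fun i _ => sq_nonneg ‖c i‖)).mp h i
    (Finset.mem_univ i)
  simpa using h1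

omit [DecidableEq n] in
private theorem qf_smul (M : Matrix n n ℂ) (t : ℝ) (c : n → ℂ) :
    qf M ((t : ℂ) • c) = t ^ 2 * qf M c := by
  have h : star ((t : ℂ) • c) ⬝ᵥ (M *ᵥ ((t : ℂ) • c)) = ((t ^ 2 : ℝ) : ℂ) * (star c ⬝ᵥ (M *ᵥ c)) := by
    rw [star_smul, mulVec_smul, smul_dotProduct, dotProduct_smul, Complex.star_def,
      Complex.conj_ofReal, smul_eq_mul, smul_eq_mul, ← mul_assoc]
    push_cast
    ring
  rw [qf, h, Complex.re_ofReal_mul, qf]

omit [DecidableEq n] in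
private theorem nq_smul (t : ℝ) (c : n → ℂ) : nq ((t : ℂ) • c) = t ^ 2 * nq c := by
  simp only [nq, Pi.smul_apply, smul_eq_mul, norm_mul, mul_pow, Complex.norm_real, Real.norm_eq_abs,
    sq_abs, Finset.mul_sum]

omit [DecidableEq n] in
/-- it is enough to consider unit vectors -/
private theorem qf_nonneg_of_unit {M : Matrix n n ℂ} (h : ∀ c, nq c = 1 → 0 ≤ qf M c)
    (c : n → ℂ) : 0 ≤ qf M c := by
  rcases (nq_nonneg c).eq_or_lt with h0 | h0
  · rw [eq_zero_of_nq h0.symm]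
    simp [qf]
  · have hs : 0 < Real.sqrt (nq c) := Real.sqrt_pos.mpr h0
    have h1 : nq (((1 / Real.sqrt (nq c) : ℝ) : ℂ) • c) = 1 := by
      rw [nq_smul, div_pow, one_pow, Real.sq_sqrt h0.le]
      field_simp
    have h2 := h _ h1
    rw [qf_smul] at h2
    exact nonneg_of_mul_nonneg_right h2 (by positivity)

omit [DecidableEq n] in
private theorem psd_iff {M : Matrix n n ℂ} (hM : M.IsHermitian) :
    M.PosSemidef ↔ ∀ c, 0 ≤ qf M c := by
  constructor
  · intro h c
    exact (Complex.nonneg_iff.mp (h.dotProduct_mulVec_nonneg c)).1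
  · intro h
    refine PosSemidef.of_dotProduct_mulVec_nonneg hM fun c => ?_
    rw [Complex.nonneg_iff]
    refine ⟨h c, ?_⟩
    have := hM.im_star_dotProduct_mulVec_self c
    simpa using this.symm

omit [DecidableEq n] in
private theorem sphere_compact : IsCompact {c : n → ℂ | nq c = 1} := by
  have hcont : Continuous (fun c : n → ℂ => nq c) := by
    unfold nq
    fun_prop
  refine Metric.isCompact_of_isClosed_isBounded (isClosed_eq hcont continuous_const) ?_
  refine (Metric.isBounded_iff_subset_closedBall (0 : n → ℂ)).mpr ⟨1, fun c hc => ?_⟩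
  rw [mem_closedBall_zero_iff, pi_norm_le_iff_of_nonneg zero_le_one]
  intro i
  have h1 : ‖c i‖ ^ 2 ≤ nq c :=
    Finset.single_le_sum (f := fun i => ‖c i‖ ^ 2) (fun i _ => sq_nonneg _) (Finset.mem_univ i)
  have h2 : ‖c i‖ ^ 2 ≤ 1 := h1.trans (le_of_eq hc)
  nlinarith [norm_nonneg (c i)]

omit [DecidableEq n] in
private theorem qf_cont {s : Set ℝ} {D : ℝ → Matrix n n ℂ}
    (h : ∀ i j, ContinuousOn (fun x => D x i j) s) (t : Set (n → ℂ)) :
    ContinuousOn (fun p : ℝ × (n → ℂ) => qf (D p.1) p.2) (s ×ˢ t) := by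
  simp only [qf_eq]
  refine continuousOn_finsetSum _ fun i _ => continuousOn_finsetSum _ fun j _ => ?_
  have h1 : ContinuousOn (fun p : ℝ × (n → ℂ) => D p.1 i j) (s ×ˢ t) :=
    (h i j).comp continuousOn_fst (fun p hp => hp.1)
  have h2 : ContinuousOn (fun p : ℝ × (n → ℂ) => p.2 j) (s ×ˢ t) :=
    ((continuous_apply j).comp continuous_snd).continuousOn
  have h3 : ContinuousOn (fun p : ℝ × (n → ℂ) => star (p.2 i)) (s ×ˢ t) :=
    (continuous_star.comp ((continuous_apply i).comp continuous_snd)).continuousOn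
  exact Complex.continuous_re.comp_continuousOn (h3.mul (h1.mul h2))

omit [DecidableEq n] in
private theorem qf_deriv {a b : ℝ} {D D' : ℝ → Matrix n n ℂ} {x : ℝ}
    (hD : ∀ i j, HasDerivWithinAt (fun t => D t i j) (D' x i j) (Icc a b) x) (c : n → ℂ) :
    HasDerivWithinAt (fun t => qf (D t) c) (qf (D' x) c) (Icc a b) x := by
  simp only [qf_eq]
  refine HasDerivWithinAt.fun_sum fun i _ => HasDerivWithinAt.fun_sum fun j _ => ?_
  have h1 := ((hD i j).mul_const (c j)).const_mul (star (c i))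
  exact Complex.reCLM.hasFDerivAt.comp_hasDerivWithinAt x h1

private theorem qf_sub_smul (M : Matrix n n ℂ) (l : ℝ) (c : n → ℂ) :
    qf (M - (l : ℂ) • (1 : Matrix n n ℂ)) c = qf M c - l * nq c := by
  rw [qf, sub_mulVec, smul_mulVec, one_mulVec, dotProduct_sub, dotProduct_smul, star_dot_self,
    Complex.sub_re, smul_eq_mul, ← Complex.ofReal_mul, Complex.ofReal_re, qf]

omit [DecidableEq n] in
private theorem qf_anticomm {D A : Matrix n n ℂ} (hD : D.IsHermitian) {l : ℝ} {c : n → ℂ}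
    (h : D *ᵥ c = (l : ℂ) • c) : qf (A * D + D * A) c = 2 * l * qf A c := by
  have h1 : star c ⬝ᵥ ((A * D) *ᵥ c) = (l : ℂ) * (star c ⬝ᵥ (A *ᵥ c)) := by
    rw [← mulVec_mulVec, h, mulVec_smul, dotProduct_smul, smul_eq_mul]
  have h2 : star c ⬝ᵥ ((D * A) *ᵥ c) = (l : ℂ) * (star c ⬝ᵥ (A *ᵥ c)) := by
    have h3 : star c ᵥ* D = (l : ℂ) • star c := by
      have h4 := star_mulVec D c
      rw [hD.eq, h, star_smul, Complex.star_def, Complex.conj_ofReal] at h4
      exact h4.symm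
    rw [← mulVec_mulVec, dotProduct_mulVec, h3, smul_dotProduct, smul_eq_mul]
  rw [qf, add_mulVec, dotProduct_add, h1, h2, Complex.add_re, Complex.re_ofReal_mul, qf]
  ring

theorem psd_of_deriv {a b : ℝ} {D D' A : ℝ → Matrix n n ℂ}
    (hDH : ∀ x ∈ Icc a b, (D x).IsHermitian) (hD : HasMD D D' a b)
    (hAc : ContinuousOn A (Icc a b)) (hAH : ∀ x ∈ Icc a b, (A x).IsHermitian)
    (hineq : ∀ x ∈ Icc a b, (D' x - (A x * D x + D x * A x)).PosSemidef)
    (ha : (D a).PosSemidef) : ∀ x ∈ Icc a b, (D x).PosSemidef := by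
  by_contra hcon
  push Not at hcon
  obtain ⟨x₁, hx₁, hneg⟩ := hcon
  obtain ⟨c₂, hc₂, hc₂neg⟩ : ∃ c, nq c = 1 ∧ qf (D x₁) c < 0 := by
    by_contra h
    push Not at h
    exact hneg ((psd_iff (hDH x₁ hx₁)).mpr (qf_nonneg_of_unit h))
  have hK : IsCompact (Icc a b ×ˢ {c : n → ℂ | nq c = 1}) := isCompact_Icc.prod sphere_compact
  have hDc : ContinuousOn (fun p : ℝ × (n → ℂ) => qf (D p.1) p.2)
      (Icc a b ×ˢ {c : n → ℂ | nq c = 1}) :=
    qf_cont (fun i j x hx => (hD x hx i j).continuousWithinAt) _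
  have hAc' : ContinuousOn (fun p : ℝ × (n → ℂ) => qf (A p.1) p.2)
      (Icc a b ×ˢ {c : n → ℂ | nq c = 1}) :=
    qf_cont (fun i j => ((continuous_id.matrix_elem i j).comp_continuousOn hAc)) _
  obtain ⟨M, hM⟩ := hK.exists_bound_of_continuousOn hAc'
  have hG : ContinuousOn (fun p : ℝ × (n → ℂ) =>
      Real.exp (-(2 * M + 1) * p.1) * qf (D p.1) p.2) (Icc a b ×ˢ {c : n → ℂ | nq c = 1}) := by
    refine ContinuousOn.mul ?_ hDc
    exact (Real.continuous_exp.comp (continuous_const.mul continuous_fst)).continuousOn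
  obtain ⟨⟨x₀, c₀⟩, hmem, hmin⟩ := hK.exists_isMinOn ⟨(x₁, c₂), ⟨hx₁, hc₂⟩⟩ hG
  have hx₀ : x₀ ∈ Icc a b := hmem.1
  have hc₀ : nq c₀ = 1 := hmem.2
  have hmin' : ∀ x ∈ Icc a b, ∀ c, nq c = 1 →
      Real.exp (-(2 * M + 1) * x₀) * qf (D x₀) c₀ ≤ Real.exp (-(2 * M + 1) * x) * qf (D x) c := by
    intro x hx c hc
    exact hmin (show (x, c) ∈ Icc a b ×ˢ {c : n → ℂ | nq c = 1} from ⟨hx, hc⟩)
  obtain ⟨l, hl⟩ : ∃ l, l = qf (D x₀) c₀ := ⟨_, rfl⟩
  have hl0 : l < 0 := by
    have h1 := hmin' x₁ hx₁ c₂ hc₂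
    have h2 : Real.exp (-(2 * M + 1) * x₁) * qf (D x₁) c₂ < 0 :=
      mul_neg_of_pos_of_neg (Real.exp_pos _) hc₂neg
    rw [← hl] at h1
    by_contra h3
    push Not at h3
    have h4 : 0 ≤ Real.exp (-(2 * M + 1) * x₀) * l := mul_nonneg (Real.exp_pos _).le h3
    linarith
  have hxa : a < x₀ := by
    rcases hx₀.1.eq_or_lt with h | h
    · exfalso
      have h1 := (psd_iff (ha.isHermitian)).mp ha c₀
      rw [h, ← hl] at h1
      linarith
    · exact h
  -- eigenvector
  have hHl : (D x₀ - (l : ℂ) • (1 : Matrix n n ℂ)).IsHermitian := by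
    refine (hDH x₀ hx₀).sub ?_
    rw [IsHermitian, conjTranspose_smul, conjTranspose_one, Complex.star_def, Complex.conj_ofReal]
  have hpsd : (D x₀ - (l : ℂ) • (1 : Matrix n n ℂ)).PosSemidef := by
    refine (psd_iff hHl).mpr (qf_nonneg_of_unit fun c hc => ?_)
    rw [qf_sub_smul, hc, mul_one]
    have h1 := hmin' x₀ hx₀ c hc
    rw [← hl] at h1
    have h2 := le_of_mul_le_mul_left h1 (Real.exp_pos _)
    linarith
  have heig : D x₀ *ᵥ c₀ = (l : ℂ) • c₀ := by
    have h1 : star c₀ ⬝ᵥ ((D x₀ - (l : ℂ) • (1 : Matrix n n ℂ)) *ᵥ c₀) = 0 := by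
      apply Complex.ext
      · have h2 := qf_sub_smul (D x₀) l c₀
        rw [hc₀, mul_one, ← hl, sub_self] at h2
        exact h2
      · have h2 := hHl.im_star_dotProduct_mulVec_self c₀
        simpa using h2
    have h2 := (hpsd.dotProduct_mulVec_zero_iff c₀).mp h1
    rw [sub_mulVec, smul_mulVec, one_mulVec, sub_eq_zero] at h2
    exact h2
  -- the derivative at the minimum
  have hder := qf_deriv (fun i j => hD x₀ hx₀ i j) c₀
  have hexp : HasDerivWithinAt (fun t : ℝ => Real.exp (-(2 * M + 1) * t))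
      (Real.exp (-(2 * M + 1) * x₀) * (-(2 * M + 1))) (Icc a b) x₀ := by
    have h1 : HasDerivAt (fun t : ℝ => -(2 * M + 1) * t) (-(2 * M + 1)) x₀ := by
      simpa using (hasDerivAt_id x₀).const_mul (-(2 * M + 1))
    exact h1.exp.hasDerivWithinAt
  have hprod := hexp.mul hder
  have hlocal : IsLocalMinOn ((fun t : ℝ => Real.exp (-(2 * M + 1) * t)) *
      (fun t => qf (D t) c₀)) (Icc a b) x₀ := by
    have h1 : IsMinOn ((fun t : ℝ => Real.exp (-(2 * M + 1) * t)) *
      (fun t => qf (D t) c₀)) (Icc a b) x₀ := by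
      intro x hx
      exact hmin' x hx c₀ hc₀
    exact h1.localize
  have hcone : a - x₀ ∈ posTangentConeAt (Icc a b) x₀ := by
    apply sub_mem_posTangentConeAt_of_segment_subset
    rw [segment_symm, segment_eq_Icc hxa.le]
    exact Icc_subset_Icc_right hx₀.2
  have h5 := hlocal.hasFDerivWithinAt_nonneg hprod.hasFDerivWithinAt hcone
  rw [← hl] at h5
  have h6 : (Real.exp (-(2 * M + 1) * x₀) * (-(2 * M + 1)) * l +
      Real.exp (-(2 * M + 1) * x₀) * qf (D' x₀) c₀) ≤ 0 := by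
    by_contra h7
    push Not at h7
    have h8 : (a - x₀) * (Real.exp (-(2 * M + 1) * x₀) * (-(2 * M + 1)) * l +
      Real.exp (-(2 * M + 1) * x₀) * qf (D' x₀) c₀) < 0 :=
      mul_neg_of_neg_of_pos (by linarith) h7
    have h9 : 0 ≤ (a - x₀) * (Real.exp (-(2 * M + 1) * x₀) * (-(2 * M + 1)) * l +
      Real.exp (-(2 * M + 1) * x₀) * qf (D' x₀) c₀) := by
      simpa using h5
    linarith
  have h7 : qf (D' x₀) c₀ - (2 * M + 1) * l ≤ 0 := by
    have h8 : Real.exp (-(2 * M + 1) * x₀) * (qf (D' x₀) c₀ - (2 * M + 1) * l) ≤ 0 := by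
      calc _ = (Real.exp (-(2 * M + 1) * x₀) * (-(2 * M + 1)) * l +
          Real.exp (-(2 * M + 1) * x₀) * qf (D' x₀) c₀) := by ring
        _ ≤ 0 := h6
    by_contra h9
    push Not at h9
    have h10 := mul_pos (Real.exp_pos (-(2 * M + 1) * x₀)) h9
    linarith
  have h8 : 2 * l * qf (A x₀) c₀ ≤ qf (D' x₀) c₀ := by
    have h9 := (psd_iff (hineq x₀ hx₀).isHermitian).mp (hineq x₀ hx₀) c₀
    have h10 : qf (D' x₀ - (A x₀ * D x₀ + D x₀ * A x₀)) c₀ =
        qf (D' x₀) c₀ - qf (A x₀ * D x₀ + D x₀ * A x₀) c₀ := by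
      simp only [qf]
      rw [sub_mulVec, dotProduct_sub, Complex.sub_re]
    rw [h10, qf_anticomm (hDH x₀ hx₀) heig] at h9
    linarith
  have h9 : |qf (A x₀) c₀| ≤ M := hM (x₀, c₀) hmem
  have h10 := abs_le.mp h9
  nlinarith

theorem psd_of_deriv_back {a b : ℝ} {D D' A : ℝ → Matrix n n ℂ}
    (hDH : ∀ x ∈ Icc a b, (D x).IsHermitian) (hD : HasMD D D' a b)
    (hAc : ContinuousOn A (Icc a b)) (hAH : ∀ x ∈ Icc a b, (A x).IsHermitian)
    (hineq : ∀ x ∈ Icc a b, ((A x * D x + D x * A x) - D' x).PosSemidef)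
    (hb : (D b).PosSemidef) : ∀ x ∈ Icc a b, (D x).PosSemidef := by
  intro x hx
  have hmaps : ∀ y ∈ Icc a b, a + b - y ∈ Icc a b := by
    intro y hy
    exact ⟨by linarith [hy.2], by linarith [hy.1]⟩
  have hcont : ContinuousOn (fun y : ℝ => a + b - y) (Icc a b) :=
    (continuous_const.sub continuous_id).continuousOn
  have h := psd_of_deriv (a := a) (b := b) (D := fun y => D (a + b - y))
    (D' := fun y => -D' (a + b - y)) (A := fun y => -A (a + b - y))
    (fun y hy => hDH _ (hmaps y hy)) (by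
      intro y hy i j
      have h1 : HasDerivWithinAt (fun t : ℝ => a + b - t) (-1) (Icc a b) y := by
        simpa using ((hasDerivAt_id y).const_sub (a + b)).hasDerivWithinAt
      have h2 := (hD (a + b - y) (hmaps y hy) i j).scomp y h1 hmaps
      have h3 : (-D' (a + b - y)) i j = (-1 : ℝ) • D' (a + b - y) i j := by
        rw [neg_one_smul, Matrix.neg_apply]
      show HasDerivWithinAt (fun t => D (a + b - t) i j) ((-D' (a + b - y)) i j) (Icc a b) y
      rw [h3]
      exact h2)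
    ((hAc.comp hcont hmaps).neg) (fun y hy => (hAH _ (hmaps y hy)).neg) (by
      intro y hy
      have h1 := hineq _ (hmaps y hy)
      have h2 : -D' (a + b - y) - (-A (a + b - y) * D (a + b - y) +
          D (a + b - y) * -A (a + b - y)) =
          (A (a + b - y) * D (a + b - y) + D (a + b - y) * A (a + b - y)) - D' (a + b - y) := by
        rw [neg_mul, mul_neg]
        abel
      rw [h2]
      exact h1) (by
      have h1 : a + b - a = b := by ring
      rw [h1]
      exact hb) (a + b - x) (hmaps x hx)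
  have h1 : a + b - (a + b - x) = x := by ring
  simp only [h1] at h
  exact h

end Vale.Agent.P371.Gen
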