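import Vale.Agent.Lib.P371.Gen.Fun

/-! # P371 Gen: square roots of positive semidefinite matrices (module Sqrt)

All are elementary. `mf f A = cfc f A`, and for Hermitian `A` Mathlib has
`Matrix.IsHermitian.cfc_eq : cfc f A = hA.cfc f = U * diagonal (f ∘ eigenvalues) * U*`.
Every function is continuous on the (finite) spectrum.

`exists_ovl`: with eigenbases `e_i` of `A` and `f_j` of `B` take `w i j = |⟨e_i, f_j⟩|^2`; then
`tr (f(A) g(B)) = ∑ w i j f(a_i) g(b_j)`. -/

open Matrix Set MeasureTheory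
open scoped ComplexOrder

namespace Vale.Agent.P371.Gen

variable {n : Type*} [Fintype n] [DecidableEq n]

theorem msqrt_posSemidef (A : Matrix n n ℂ) : (msqrt A).PosSemidef := by
  by_cases hA : A.IsHermitian
  · exact mf_posSemidef hA (fun i => Real.sqrt_nonneg _)
  · have h0 : msqrt A = 0 := by
      unfold msqrt mf
      exact cfc_apply_of_not_predicate A hA
    rw [h0]
    exact Matrix.PosSemidef.zero

theorem msqrt_mul_self {A : Matrix n n ℂ} (hA : A.PosSemidef) : msqrt A * msqrt A = A := by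
  unfold msqrt
  rw [← mf_mul hA.isHermitian]
  have h1 : mf (fun t => Real.sqrt t * Real.sqrt t) A = mf (fun t => t) A :=
    mf_congr hA.isHermitian fun i => Real.mul_self_sqrt (hA.eigenvalues_nonneg i)
  rw [h1, mf_id hA.isHermitian]

/-- If `K, M ≥ 0` and `K^2 ≤ M^2` then `K ≤ M`.
Proof: let `μ` be an eigenvalue of `M - K` with unit eigenvector `v`. Then
`0 ≤ ⟨v, (M^2 - K^2) v⟩ = ⟨v, (M (M - K) + (M - K) K) v⟩ = μ ⟨v, (M + K) v⟩`. If `μ < 0` then
`⟨v, (M + K) v⟩ ≤ 0`, so `M v = K v = 0` and `μ = 0`. -/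
theorem le_of_sq_le {K M : Matrix n n ℂ} (hK : K.PosSemidef) (hM : M.PosSemidef)
    (h : (M * M - K * K).PosSemidef) : (M - K).PosSemidef := by
  have hD : (M - K).IsHermitian := hM.isHermitian.sub hK.isHermitian
  rw [hD.posSemidef_iff_eigenvalues_nonneg]
  intro i
  by_contra hneg
  rw [Pi.zero_apply, not_le] at hneg
  set μ : ℝ := hD.eigenvalues i with hμ
  set v : n → ℂ := ⇑(hD.eigenvectorBasis i) with hv
  have hDv : (M - K) *ᵥ v = μ • v := hD.mulVec_eigenvectorBasis i
  have hvv : star v ⬝ᵥ v = 1 := by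
    have h1 : ‖hD.eigenvectorBasis i‖ = 1 := hD.eigenvectorBasis.orthonormal.1 i
    have h2 : inner ℂ (hD.eigenvectorBasis i) (hD.eigenvectorBasis i) = (1 : ℂ) := by
      rw [inner_self_eq_norm_sq_to_K, h1]
      norm_num
    rw [EuclideanSpace.inner_eq_star_dotProduct] at h2
    rw [dotProduct_comm]
    exact h2
  have hDv' : star v ᵥ* (M - K) = μ • star v := by
    have h1 := congrArg star hDv
    rw [star_mulVec, hD.eq] at h1
    rw [h1]
    ext j
    simp
  have hM0 := hM.re_dotProduct_nonneg v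
  have hK0 := hK.re_dotProduct_nonneg v
  have hS := h.re_dotProduct_nonneg v
  have e1 : star v ⬝ᵥ ((M * M - K * K) *ᵥ v)
      = (μ : ℂ) * (star v ⬝ᵥ (M *ᵥ v)) + (μ : ℂ) * (star v ⬝ᵥ (K *ᵥ v)) := by
    have h1 : M * M - K * K = M * (M - K) + (M - K) * K := by noncomm_ring
    rw [h1, add_mulVec, dotProduct_add, ← mulVec_mulVec, ← mulVec_mulVec, hDv,
      dotProduct_mulVec (star v) (M - K), hDv', mulVec_smul, dotProduct_smul, smul_dotProduct]
    simp
  have e2 : (star v ⬝ᵥ (M *ᵥ v)) - (star v ⬝ᵥ (K *ᵥ v)) = (μ : ℂ) := by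
    rw [← dotProduct_sub, ← sub_mulVec, hDv, dotProduct_smul, hvv]
    simp
  have e1r := congrArg Complex.re e1
  have e2r := congrArg Complex.re e2
  simp only [Complex.add_re, Complex.sub_re, Complex.re_ofReal_mul, Complex.ofReal_re] at e1r e2r
  simp only [RCLike.re_eq_complex_re] at hM0 hK0 hS
  rw [e1r] at hS
  have h3 : (star v ⬝ᵥ (M *ᵥ v)).re + (star v ⬝ᵥ (K *ᵥ v)).re ≤ 0 := by
    by_contra h4
    rw [not_le] at h4
    have := mul_neg_of_neg_of_pos hneg h4
    linarith [mul_add μ (star v ⬝ᵥ (M *ᵥ v)).re (star v ⬝ᵥ (K *ᵥ v)).re]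
  linarith

theorem msqrt_mono {A B : Matrix n n ℂ} (hA : A.PosSemidef) (h : (B - A).PosSemidef) :
    (msqrt B - msqrt A).PosSemidef := by
  have hB : B.PosSemidef := by
    have := hA.add h
    rwa [add_sub_cancel] at this
  refine le_of_sq_le (msqrt_posSemidef A) (msqrt_posSemidef B) ?_
  rw [msqrt_mul_self hA, msqrt_mul_self hB]
  exact h

/-- Uniqueness of the positive square root. -/
theorem msqrt_unique {A K : Matrix n n ℂ} (hK : K.PosSemidef) (h : K * K = A) :
    msqrt A = K := by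
  have h1 : K * K = mf (fun t => t * t) K := by
    rw [mf_mul hK.isHermitian, mf_id hK.isHermitian]
  unfold msqrt
  rw [← h, h1, mf_comp hK.isHermitian]
  have h2 : mf (fun t => Real.sqrt (t * t)) K = mf (fun t => t) K :=
    mf_congr hK.isHermitian fun i => Real.sqrt_mul_self (hK.eigenvalues_nonneg i)
  rw [h2, mf_id hK.isHermitian]

/-- Operator concavity of the square root: `((1-t) K₀ + t K₁)^2 ≤ (1-t) K₀^2 + t K₁^2`, and
`le_of_sq_le`. -/
theorem msqrt_concave {A B : Matrix n n ℂ} (hA : A.PosSemidef) (hB : B.PosSemidef) {s t : ℝ}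
    (hs : 0 ≤ s) (ht : 0 ≤ t) (hst : s + t = 1) :
    (msqrt ((s : ℂ) • A + (t : ℂ) • B) - ((s : ℂ) • msqrt A + (t : ℂ) • msqrt B)).PosSemidef := by
  have hs' : (0 : ℂ) ≤ (s : ℂ) := by exact_mod_cast hs
  have ht' : (0 : ℂ) ≤ (t : ℂ) := by exact_mod_cast ht
  have hst' : (0 : ℂ) ≤ (s : ℂ) * (t : ℂ) := mul_nonneg hs' ht'
  have hst1 : (s : ℂ) + (t : ℂ) = 1 := by exact_mod_cast hst
  have hK0 := msqrt_posSemidef A
  have hK1 := msqrt_posSemidef B
  have hC : ((s : ℂ) • A + (t : ℂ) • B).PosSemidef := (hA.smul hs').add (hB.smul ht')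
  have hN : ((s : ℂ) • msqrt A + (t : ℂ) • msqrt B).PosSemidef :=
    (hK0.smul hs').add (hK1.smul ht')
  refine le_of_sq_le hN (msqrt_posSemidef _) ?_
  rw [msqrt_mul_self hC]
  have hH : (msqrt A - msqrt B).IsHermitian := hK0.isHermitian.sub hK1.isHermitian
  have hsq : ((msqrt A - msqrt B) * (msqrt A - msqrt B)).PosSemidef := by
    have := Matrix.posSemidef_conjTranspose_mul_self (msqrt A - msqrt B)
    rwa [hH.eq] at this
  have key : (s : ℂ) • A + (t : ℂ) • B
      - ((s : ℂ) • msqrt A + (t : ℂ) • msqrt B) * ((s : ℂ) • msqrt A + (t : ℂ) • msqrt B)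
      = ((s : ℂ) * (t : ℂ)) • ((msqrt A - msqrt B) * (msqrt A - msqrt B)) := by
    have hA2 := msqrt_mul_self hA
    have hB2 := msqrt_mul_self hB
    have hms : (t : ℂ) = 1 - (s : ℂ) := by rw [← hst1]; ring
    rw [hms]
    generalize msqrt A = P at hA2 ⊢
    generalize msqrt B = Q at hB2 ⊢
    rw [← hA2, ← hB2]
    simp only [add_mul, mul_add, sub_mul, mul_sub, smul_mul_assoc, mul_smul_comm]
    module
  rw [key]
  exact hsq.smul hst'

end Vale.Agent.P371.Gen
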