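import Vale.Agent.Lib.P371.Gen.RicCmp
import Vale.Agent.Lib.P371.Gen.Sqrt

/-! # P371 Gen: comparison for matrix Riccati equations (module RicComp)

`psd_of_deriv`: let `D' ≥ A D + D A` on `[a,b]`, `D(a) ≥ 0`. Let `C > 2 ‖A‖` and
`D_ε = D + ε e^{C(x-a)} 1`. Suppose `D_ε` is not positive definite somewhere and let `x₀ > a` be the
first point where `D_ε(x₀)` has a null vector `c`, `‖c‖ = 1`. Then `⟨c, D_ε(x) c⟩ > 0` for `x < x₀`
and `= 0` at `x₀`, so its derivative at `x₀` is `≤ 0`; but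
`⟨c, D' c⟩ + ε C e^{..} ≥ 2 Re ⟨A c, D c⟩ + ε C e^{..} = ε e^{..} (C - 2 ⟨c, A c⟩) > 0` as
`D(x₀) c = -ε e^{..} c`. Let `ε → 0`. (One can also argue with the integrating factor.)
`psd_of_deriv_back`: reflect `x ↦ a + b - x`.
`ric_ge`: `D = √E + Y`: `D' = Y^2 - E + W = D D/2 + ... `; with `K = √E`,
`Y^2 - K^2 = ((Y - K)(Y + K) + (Y + K)(Y - K))/2 = A D + D A`, `A = (Y - K)/2`; `W ≥ 0`.
`ric_le`: `D = K - Y`: `D' = K^2 - Y^2 - W = A D + D A - W`, `A = (K + Y)/2`; backward from `b`.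
`ric_comp`: `D = Z - Y`, `Z^2 - Y^2 = A D + D A`, `A = (Z + Y)/2`. -/

open Matrix Set MeasureTheory
open scoped ComplexOrder

namespace Vale.Agent.P371.Gen

variable {n : Type*} [Fintype n] [DecidableEq n]

omit [Fintype n] [DecidableEq n] in
theorem rc_md_sub {a b : ℝ} {Y Y' Z Z' : ℝ → Matrix n n ℂ} (h1 : HasMD Y Y' a b)
    (h2 : HasMD Z Z' a b) : HasMD (fun x => Y x - Z x) (fun x => Y' x - Z' x) a b := by
  intro x hx i j
  simpa [Matrix.sub_apply] using (h1 x hx i j).fun_sub (h2 x hx i j)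

omit [Fintype n] [DecidableEq n] in
theorem rc_md_const_add {a b : ℝ} {Y Y' : ℝ → Matrix n n ℂ} (K : Matrix n n ℂ)
    (h1 : HasMD Y Y' a b) : HasMD (fun x => K + Y x) Y' a b := by
  intro x hx i j
  simpa [Matrix.add_apply] using (h1 x hx i j).const_add (K i j)

omit [Fintype n] [DecidableEq n] in
theorem rc_md_const_sub {a b : ℝ} {Y Y' : ℝ → Matrix n n ℂ} (K : Matrix n n ℂ)
    (h1 : HasMD Y Y' a b) : HasMD (fun x => K - Y x) (fun x => - Y' x) a b := by
  intro x hx i j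
  simpa [Matrix.sub_apply] using (h1 x hx i j).const_sub (K i j)

omit [Fintype n] [DecidableEq n] in
theorem rc_md_cont {a b : ℝ} {Y Y' : ℝ → Matrix n n ℂ} (h1 : HasMD Y Y' a b) :
    ContinuousOn Y (Icc a b) := by
  refine continuousOn_pi.2 (fun i => continuousOn_pi.2 (fun j => ?_))
  intro x hx
  exact (h1 x hx i j).continuousWithinAt

theorem IsRic.continuousOn {a b : ℝ} {W : ℝ → Matrix n n ℂ} {E : Matrix n n ℂ}
    {Y : ℝ → Matrix n n ℂ} (hR : IsRic a b W E Y) : ContinuousOn Y (Icc a b) :=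
  rc_md_cont hR.deriv

/-- `(1/2) (B - C) (B + C) + (B + C) ((1/2) (B - C)) = B^2 - C^2`. -/
theorem rc_half_comm (B C : Matrix n n ℂ) :
    (((1 / 2 : ℂ)) • (B - C)) * (B + C) + (B + C) * (((1 / 2 : ℂ)) • (B - C)) =
      B * B - C * C := by
  rw [Matrix.smul_mul, Matrix.mul_smul, ← smul_add]
  have : (B - C) * (B + C) + (B + C) * (B - C) = (2 : ℂ) • (B * B - C * C) := by
    rw [two_smul]
    noncomm_ring
  rw [this, smul_smul]
  norm_num

omit [Fintype n] [DecidableEq n] in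
theorem rc_herm_half {A : Matrix n n ℂ} (hA : A.IsHermitian) :
    (((1 / 2 : ℂ)) • A).IsHermitian := by
  unfold Matrix.IsHermitian
  rw [Matrix.conjTranspose_smul, hA.eq]
  norm_num

theorem ric_ge {a b : ℝ} {W : ℝ → Matrix n n ℂ} {E : Matrix n n ℂ} {Y : ℝ → Matrix n n ℂ}
    (hab : a ≤ b) (hW : ∀ x ∈ Icc a b, (W x).PosSemidef) (hE : E.PosSemidef)
    (hR : IsRic a b W E Y) : ∀ x ∈ Icc a b, (msqrt E + Y x).PosSemidef := by
  have hK := (msqrt_posSemidef E)
  refine psd_of_deriv (D := fun x => msqrt E + Y x) (A := fun x => ((1 / 2 : ℂ)) • (Y x - msqrt E))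
    (fun x hx => hK.isHermitian.add (hR.herm x hx)) (rc_md_const_add (msqrt E) hR.deriv) ?_ ?_ ?_ ?_
  · exact (hR.continuousOn.sub continuousOn_const).const_smul (1 / 2 : ℂ)
  · intro x hx
    exact rc_herm_half ((hR.herm x hx).sub hK.isHermitian)
  · intro x hx
    have h := rc_half_comm (Y x) (msqrt E)
    rw [add_comm (msqrt E) (Y x), h, msqrt_mul_self hE]
    have : Y x * Y x - E + W x - (Y x * Y x - E) = W x := by abel
    rw [this]
    exact hW x hx
  · rw [hR.init, add_neg_cancel]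
    exact Matrix.PosSemidef.zero

theorem ric_le {a b : ℝ} {W : ℝ → Matrix n n ℂ} {E : Matrix n n ℂ} {Y : ℝ → Matrix n n ℂ}
    (hab : a ≤ b) (hW : ∀ x ∈ Icc a b, (W x).PosSemidef) (hE : E.PosSemidef)
    (hR : IsRic a b W E Y) (hend : (msqrt E - Y b).PosSemidef) :
    ∀ x ∈ Icc a b, (msqrt E - Y x).PosSemidef := by
  have hK := (msqrt_posSemidef E)
  refine psd_of_deriv_back (D := fun x => msqrt E - Y x)
    (A := fun x => ((1 / 2 : ℂ)) • (msqrt E + Y x))
    (fun x hx => hK.isHermitian.sub (hR.herm x hx)) (rc_md_const_sub (msqrt E) hR.deriv) ?_ ?_ ?_ hend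
  · exact (continuousOn_const.add hR.continuousOn).const_smul (1 / 2 : ℂ)
  · intro x hx
    exact rc_herm_half (hK.isHermitian.add (hR.herm x hx))
  · intro x hx
    have h := rc_half_comm (msqrt E) (-(Y x))
    rw [sub_neg_eq_add, ← sub_eq_add_neg, neg_mul_neg] at h
    rw [h, msqrt_mul_self hE]
    have : E - Y x * Y x - -(Y x * Y x - E + W x) = W x := by abel
    rw [this]
    exact hW x hx

/-- A supersolution stays above the solution. -/
theorem ric_comp {a b : ℝ} {W : ℝ → Matrix n n ℂ} {E : Matrix n n ℂ} {Y Z Z' : ℝ → Matrix n n ℂ}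
    (hab : a ≤ b) (hR : IsRic a b W E Y) (hZH : ∀ x ∈ Icc a b, (Z x).IsHermitian)
    (hZ : HasMD Z Z' a b) (hsup : ∀ x ∈ Icc a b, (Z' x - (Z x * Z x - E + W x)).PosSemidef)
    (ha : (Z a + msqrt E).PosSemidef) : ∀ x ∈ Icc a b, (Z x - Y x).PosSemidef := by
  refine psd_of_deriv (D := fun x => Z x - Y x)
    (A := fun x => ((1 / 2 : ℂ)) • (Z x + Y x))
    (fun x hx => (hZH x hx).sub (hR.herm x hx)) (rc_md_sub hZ hR.deriv) ?_ ?_ ?_ ?_
  · exact ((rc_md_cont hZ).add hR.continuousOn).const_smul (1 / 2 : ℂ)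
  · intro x hx
    exact rc_herm_half ((hZH x hx).add (hR.herm x hx))
  · intro x hx
    have h := rc_half_comm (Z x) (-(Y x))
    rw [sub_neg_eq_add, ← sub_eq_add_neg, neg_mul_neg] at h
    rw [h]
    have : Z' x - (Y x * Y x - E + W x) - (Z x * Z x - Y x * Y x)
        = Z' x - (Z x * Z x - E + W x) := by abel
    rw [this]
    exact hsup x hx
  · rw [hR.init, sub_neg_eq_add]
    exact ha

theorem ric_unique {a b : ℝ} {W : ℝ → Matrix n n ℂ} {E : Matrix n n ℂ} {Y Z : ℝ → Matrix n n ℂ}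
    (hab : a ≤ b) (hY : IsRic a b W E Y) (hZ : IsRic a b W E Z) :
    ∀ x ∈ Icc a b, Y x = Z x := by
  intro x hx
  have h1 := ric_comp hab hY hZ.herm hZ.deriv
    (fun x _ => by rw [sub_self]; exact Matrix.PosSemidef.zero)
    (by rw [hZ.init, neg_add_cancel]; exact Matrix.PosSemidef.zero) x hx
  have h2 := ric_comp hab hZ hY.herm hY.deriv
    (fun x _ => by rw [sub_self]; exact Matrix.PosSemidef.zero)
    (by rw [hY.init, neg_add_cancel]; exact Matrix.PosSemidef.zero) x hx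
  have h3 : (Z x - Y x) = 0 := by
    have htr : (Z x - Y x).trace = 0 := by
      have e1 := h1.trace_nonneg
      have e2 := h2.trace_nonneg
      have : (Y x - Z x).trace = - (Z x - Y x).trace := by
        rw [← Matrix.trace_neg, neg_sub]
      rw [this] at e2
      exact le_antisymm (by simpa using e2) e1
    exact h1.trace_eq_zero_iff.1 htr
  exact (sub_eq_zero.1 h3).symm

end Vale.Agent.P371.Gen
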