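import Vale.Agent.Lib.P371.Gen.RicComp

/-! # P371 Gen: existence of Riccati solutions below a supersolution (module RicExist)

Let `W ≥ 0` be continuous on `[a,b]`, `E ≥ 0` and `Z` a supersolution on `[a,b]`. Then the Riccati
solution exists on `[a,b]`.

Proof. Work in the real normed space of matrices (e.g. with the Frobenius norm, which is
submultiplicative, locally as an instance; entrywise derivatives are equivalent to derivatives).
Let `R` be larger than the norms of `√E` and of `Z` (with the room needed to bound any Hermitian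
`Y` with `-√E ≤ Y ≤ Z x`). Let `c_R` be a bounded, globally Lipschitz map equal to the identity on
the ball of radius `R` (radial retraction), which maps Hermitian matrices to Hermitian matrices.
The vector field `f(x, Y) = c_R(Y)^2 - E + W x` is bounded and globally Lipschitz in `Y`, so
Picard-Lindelof (`IsPicardLindelof`, with radius `a = bound * (b - a)`) gives a solution on `[a,b]`
with `Y a = -√E`; it is Hermitian (uniqueness: `Yᴴ` solves the same equation). Let `x₁` be the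
supremum of the `x` with `‖Y‖ < R` on `[a,x]`; on `[a,x₁]` `Y` solves the Riccati equation, so
`-√E ≤ Y ≤ Z` there (`ric_ge`, `ric_comp` on `[a,x₁]`), so `‖Y(x₁)‖ < R`, and `x₁ = b`. -/

open Matrix Set MeasureTheory
open scoped ComplexOrder

namespace Vale.Agent.P371.Gen

variable {n : Type*} [Fintype n] [DecidableEq n]

/-! ### clamping -/

/-- clamp of the real and imaginary part -/
noncomputable def ricCl (R : ℝ) (z : ℂ) : ℂ := ⟨max (-R) (min R z.re), max (-R) (min R z.im)⟩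

theorem ricCl_lip_real (R x y : ℝ) : |max (-R) (min R x) - max (-R) (min R y)| ≤ |x - y| := by
  have h := ((LipschitzWith.id (α := ℝ)).const_min R).const_max (-R)
  have h1 := h.dist_le_mul x y
  simpa [Real.dist_eq] using h1

theorem ricCl_lip (R : ℝ) (z w : ℂ) : ‖ricCl R z - ricCl R w‖ ≤ 2 * ‖z - w‖ := by
  refine (Complex.norm_le_abs_re_add_abs_im _).trans ?_
  have h1 := ricCl_lip_real R z.re w.re
  have h2 := ricCl_lip_real R z.im w.im
  have h3 := Complex.abs_re_le_norm (z - w)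
  have h4 := Complex.abs_im_le_norm (z - w)
  simp only [ricCl, Complex.sub_re, Complex.sub_im] at *
  linarith

theorem ricCl_bound {R : ℝ} (hR : 0 ≤ R) (z : ℂ) : ‖ricCl R z‖ ≤ 2 * R := by
  refine (Complex.norm_le_abs_re_add_abs_im _).trans ?_
  have h1 : ∀ x : ℝ, |max (-R) (min R x)| ≤ R := by
    intro x
    rw [abs_le]
    exact ⟨le_max_left _ _, max_le (by linarith) (min_le_left _ _)⟩
  have h2 := h1 z.re
  have h3 := h1 z.im
  simp only [ricCl]
  linarith

theorem ricCl_eq {R : ℝ} {z : ℂ} (h : ‖z‖ ≤ R) : ricCl R z = z := by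
  have h1 := abs_le.mp ((Complex.abs_re_le_norm z).trans h)
  have h2 := abs_le.mp ((Complex.abs_im_le_norm z).trans h)
  apply Complex.ext
  · simp only [ricCl]
    rw [min_eq_right h1.2, max_eq_right h1.1]
  · simp only [ricCl]
    rw [min_eq_right h2.2, max_eq_right h2.1]

theorem ricCl_star {R : ℝ} (hR : 0 ≤ R) (z : ℂ) : ricCl R (star z) = star (ricCl R z) := by
  have hodd : ∀ x : ℝ, max (-R) (min R (-x)) = -max (-R) (min R x) := by
    intro x
    rcases le_total x (-R) with h | h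
    · rw [min_eq_left (by linarith), max_eq_right (by linarith), min_eq_right (by linarith),
        max_eq_left h, neg_neg]
    · rcases le_total x R with h' | h'
      · rw [min_eq_right (by linarith), max_eq_right (by linarith), min_eq_right h',
          max_eq_right h]
      · rw [min_eq_right (by linarith), max_eq_left (by linarith), min_eq_left h',
          max_eq_right (by linarith)]
  apply Complex.ext
  · simp [ricCl]
  · simp only [ricCl, Complex.star_def, Complex.conj_im]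
    exact hodd z.im

/-- clamped Hermitian part -/
noncomputable def ricH (R : ℝ) (Y : n → n → ℂ) : n → n → ℂ :=
  fun i j => ricCl R ((Y i j + star (Y j i)) / 2)

/-- the truncated vector field -/
noncomputable def ricF (R : ℝ) (W : ℝ → Matrix n n ℂ) (E : Matrix n n ℂ) (x : ℝ)
    (Y : n → n → ℂ) : n → n → ℂ :=
  fun i j => (∑ k, ricH R Y i k * ricH R Y k j) - E i j + W x i j

omit [DecidableEq n] in
theorem ricH_lip (R : ℝ) (Y Y' : n → n → ℂ) (i j : n) :
    ‖ricH R Y i j - ricH R Y' i j‖ ≤ 2 * ‖Y - Y'‖ := by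
  unfold ricH
  refine (ricCl_lip R _ _).trans ?_
  have h1 : ‖Y i j - Y' i j‖ ≤ ‖Y - Y'‖ := by
    have := (norm_le_pi_norm ((Y - Y') i) j).trans (norm_le_pi_norm (Y - Y') i)
    simpa using this
  have h2 : ‖Y j i - Y' j i‖ ≤ ‖Y - Y'‖ := by
    have := (norm_le_pi_norm ((Y - Y') j) i).trans (norm_le_pi_norm (Y - Y') j)
    simpa using this
  have h3 : (Y i j + star (Y j i)) / 2 - (Y' i j + star (Y' j i)) / 2 =
      ((Y i j - Y' i j) + star (Y j i - Y' j i)) / 2 := by
    rw [star_sub]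
    ring
  have h4 : ‖((Y i j - Y' i j) + star (Y j i - Y' j i)) / 2‖ ≤ ‖Y - Y'‖ := by
    rw [norm_div, Complex.norm_ofNat]
    have h5 := norm_add_le (Y i j - Y' i j) (star (Y j i - Y' j i))
    rw [norm_star] at h5
    linarith
  rw [h3]
  linarith

omit [Fintype n] [DecidableEq n] in
theorem ricH_bound {R : ℝ} (hR : 0 ≤ R) (Y : n → n → ℂ) (i j : n) : ‖ricH R Y i j‖ ≤ 2 * R :=
  ricCl_bound hR _

omit [DecidableEq n] in
theorem ricF_lip {R : ℝ} (hR : 0 ≤ R) (W : ℝ → Matrix n n ℂ) (E : Matrix n n ℂ) (x : ℝ)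
    (Y Y' : n → n → ℂ) : ‖ricF R W E x Y - ricF R W E x Y'‖ ≤
      (Fintype.card n * (8 * R)) * ‖Y - Y'‖ := by
  have hK : 0 ≤ (Fintype.card n * (8 * R)) * ‖Y - Y'‖ := by positivity
  rw [pi_norm_le_iff_of_nonneg hK]
  intro i
  rw [pi_norm_le_iff_of_nonneg hK]
  intro j
  have h1 : (ricF R W E x Y - ricF R W E x Y') i j =
      ∑ k, (ricH R Y i k * (ricH R Y k j - ricH R Y' k j) +
        (ricH R Y i k - ricH R Y' i k) * ricH R Y' k j) := by
    have h2 : (ricF R W E x Y - ricF R W E x Y') i j =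
        (∑ k, ricH R Y i k * ricH R Y k j) - ∑ k, ricH R Y' i k * ricH R Y' k j := by
      simp only [Pi.sub_apply, ricF]
      ring
    rw [h2, ← Finset.sum_sub_distrib]
    exact Finset.sum_congr rfl (fun k _ => by ring)
  rw [h1]
  refine (norm_sum_le _ _).trans ?_
  have h3 : ∀ k ∈ Finset.univ, ‖ricH R Y i k * (ricH R Y k j - ricH R Y' k j) +
        (ricH R Y i k - ricH R Y' i k) * ricH R Y' k j‖ ≤ (8 * R) * ‖Y - Y'‖ := by
    intro k _
    refine (norm_add_le _ _).trans ?_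
    rw [norm_mul, norm_mul]
    have a1 := ricH_bound hR Y i k
    have a2 := ricH_lip R Y Y' k j
    have a3 := ricH_lip R Y Y' i k
    have a4 := ricH_bound hR Y' k j
    have b1 : ‖ricH R Y i k‖ * ‖ricH R Y k j - ricH R Y' k j‖ ≤ (2 * R) * (2 * ‖Y - Y'‖) :=
      mul_le_mul a1 a2 (norm_nonneg _) (by positivity)
    have b2 : ‖ricH R Y i k - ricH R Y' i k‖ * ‖ricH R Y' k j‖ ≤ (2 * ‖Y - Y'‖) * (2 * R) :=
      mul_le_mul a3 a4 (norm_nonneg _) (by positivity)
    linarith
  refine (Finset.sum_le_sum h3).trans ?_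
  rw [Finset.sum_const, Finset.card_univ, nsmul_eq_mul]
  exact le_of_eq (by ring)

omit [DecidableEq n] in
theorem ricF_bound {R : ℝ} (hR : 0 ≤ R) (W : ℝ → Matrix n n ℂ) (E : Matrix n n ℂ) (x : ℝ)
    {CE CW : ℝ} (hE : ∀ i j, ‖E i j‖ ≤ CE) (hW : ∀ i j, ‖W x i j‖ ≤ CW) (hCE : 0 ≤ CE)
    (hCW : 0 ≤ CW) (Y : n → n → ℂ) : ‖ricF R W E x Y‖ ≤
      Fintype.card n * (4 * R ^ 2) + CE + CW := by
  have hK : 0 ≤ Fintype.card n * (4 * R ^ 2) + CE + CW := by positivity
  rw [pi_norm_le_iff_of_nonneg hK]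
  intro i
  rw [pi_norm_le_iff_of_nonneg hK]
  intro j
  unfold ricF
  refine (norm_add_le _ _).trans ?_
  have h0 := norm_sub_le (∑ k, ricH R Y i k * ricH R Y k j) (E i j)
  have h1 : ‖∑ k, ricH R Y i k * ricH R Y k j‖ ≤ Fintype.card n * (4 * R ^ 2) := by
    refine (norm_sum_le _ _).trans ?_
    have h3 : ∀ k ∈ Finset.univ, ‖ricH R Y i k * ricH R Y k j‖ ≤ 4 * R ^ 2 := by
      intro k _
      rw [norm_mul]
      have a1 := ricH_bound hR Y i k
      have a4 := ricH_bound hR Y k j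
      have b1 : ‖ricH R Y i k‖ * ‖ricH R Y k j‖ ≤ (2 * R) * (2 * R) :=
        mul_le_mul a1 a4 (norm_nonneg _) (by positivity)
      nlinarith
    refine (Finset.sum_le_sum h3).trans ?_
    rw [Finset.sum_const, Finset.card_univ, nsmul_eq_mul]
  have h2 := hE i j
  have h3 := hW i j
  linarith

omit [DecidableEq n] in
/-- the vector field is Hermitian -/
theorem ricF_star {R : ℝ} (hR : 0 ≤ R) {W : ℝ → Matrix n n ℂ} {E : Matrix n n ℂ} {x : ℝ}
    (hE : E.IsHermitian) (hW : (W x).IsHermitian) (Y : n → n → ℂ) (i j : n) :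
    star (ricF R W E x Y j i) = ricF R W E x Y i j := by
  have hH : ∀ k l, star (ricH R Y k l) = ricH R Y l k := by
    intro k l
    unfold ricH
    rw [← ricCl_star hR]
    congr 1
    rw [star_div₀, star_add, star_star, add_comm]
    simp
  unfold ricF
  rw [star_add, star_sub, star_sum, hE.apply i j, hW.apply i j]
  congr 2
  refine Finset.sum_congr rfl (fun k _ => ?_)
  rw [star_mul', hH, hH, mul_comm]

omit [DecidableEq n] in
theorem ricF_eq {R : ℝ} (W : ℝ → Matrix n n ℂ) (E : Matrix n n ℂ) (x : ℝ) {Y : n → n → ℂ}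
    (hY : ∀ i j, star (Y j i) = Y i j) (hb : ∀ i j, ‖Y i j‖ ≤ R) (i j : n) :
    ricF R W E x Y i j = ((Matrix.of Y) * (Matrix.of Y) - E + W x) i j := by
  have hH : ∀ k l, ricH R Y k l = Y k l := by
    intro k l
    unfold ricH
    rw [hY k l]
    have h1 : (Y k l + Y k l) / 2 = Y k l := by ring
    rw [h1, ricCl_eq (hb k l)]
  unfold ricF
  simp only [hH, Matrix.add_apply, Matrix.sub_apply, Matrix.mul_apply, Matrix.of_apply]

omit [DecidableEq n] in
/-- solution of the truncated equation -/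
theorem ric_trunc {a b : ℝ} (hab : a ≤ b) {W : ℝ → Matrix n n ℂ} (hWc : ContinuousOn W (Icc a b))
    (E : Matrix n n ℂ) {R : ℝ} (hR : 0 ≤ R) (Y0 : n → n → ℂ) :
    ∃ Y : ℝ → n → n → ℂ, Y a = Y0 ∧
      ∀ x ∈ Icc a b, HasDerivWithinAt Y (ricF R W E x (Y x)) (Icc a b) x := by
  have hWij : ∀ i j, ContinuousOn (fun x => W x i j) (Icc a b) := by
    intro i j
    exact (continuous_apply_apply i j).comp_continuousOn hWc
  obtain ⟨CW, hCW⟩ : ∃ CW, 0 ≤ CW ∧ ∀ x ∈ Icc a b, ∀ i j, ‖W x i j‖ ≤ CW := by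
    have h1 : ∀ i j, ∃ C, ∀ x ∈ Icc a b, ‖W x i j‖ ≤ C := fun i j =>
      isCompact_Icc.exists_bound_of_continuousOn (hWij i j)
    choose C hC using h1
    refine ⟨∑ i, ∑ j, |C i j|, by positivity, ?_⟩
    intro x hx i j
    calc ‖W x i j‖ ≤ C i j := hC i j x hx
      _ ≤ |C i j| := le_abs_self _
      _ ≤ ∑ j, |C i j| := Finset.single_le_sum (f := fun j => |C i j|)
          (fun j _ => abs_nonneg _) (Finset.mem_univ j)
      _ ≤ ∑ i, ∑ j, |C i j| := Finset.single_le_sum (f := fun i => ∑ j, |C i j|)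
          (fun i _ => Finset.sum_nonneg fun j _ => abs_nonneg _) (Finset.mem_univ i)
  obtain ⟨CE, hCE⟩ : ∃ CE, 0 ≤ CE ∧ ∀ i j, ‖E i j‖ ≤ CE := by
    refine ⟨∑ i, ∑ j, ‖E i j‖, by positivity, ?_⟩
    intro i j
    calc ‖E i j‖ ≤ ∑ j, ‖E i j‖ := Finset.single_le_sum (f := fun j => ‖E i j‖)
          (fun j _ => norm_nonneg _) (Finset.mem_univ j)
      _ ≤ ∑ i, ∑ j, ‖E i j‖ := Finset.single_le_sum (f := fun i => ∑ j, ‖E i j‖)
          (fun i _ => Finset.sum_nonneg fun j _ => norm_nonneg _) (Finset.mem_univ i)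
  obtain ⟨L, hL⟩ : ∃ L : NNReal, (L : ℝ) = Fintype.card n * (4 * R ^ 2) + CE + CW :=
    ⟨⟨Fintype.card n * (4 * R ^ 2) + CE + CW, by
      have := hCE.1
      have := hCW.1
      positivity⟩, rfl⟩
  obtain ⟨K, hK⟩ : ∃ K : NNReal, (K : ℝ) = Fintype.card n * (8 * R) :=
    ⟨⟨Fintype.card n * (8 * R), by positivity⟩, rfl⟩
  obtain ⟨A, hA⟩ : ∃ A : NNReal, (A : ℝ) = L * (b - a) :=
    ⟨⟨L * (b - a), mul_nonneg L.2 (by linarith)⟩, rfl⟩
  have hPL : IsPicardLindelof (ricF R W E) (tmin := a) (tmax := b) ⟨a, left_mem_Icc.2 hab⟩ Y0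
      A 0 L K := by
    refine ⟨?_, ?_, ?_, ?_⟩
    · intro t _
      refine LipschitzWith.lipschitzOnWith (LipschitzWith.of_dist_le_mul (fun Y Y' => ?_))
      rw [dist_eq_norm, dist_eq_norm, hK]
      exact ricF_lip hR W E t Y Y'
    · intro Y _
      refine continuousOn_pi.2 (fun i => continuousOn_pi.2 (fun j => ?_))
      unfold ricF
      exact continuousOn_const.add (hWij i j)
    · intro t ht Y _
      rw [hL]
      exact ricF_bound hR W E t hCE.2 (hCW.2 t ht) hCE.1 hCW.1 Y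
    · show (L : ℝ) * max (b - a) (a - a) ≤ (A : ℝ) - ((0 : NNReal) : ℝ)
      rw [sub_self, max_eq_left (by linarith), hA, NNReal.coe_zero, sub_zero]
  obtain ⟨Y, h1, h2⟩ := hPL.exists_eq_forall_mem_Icc_hasDerivWithinAt₀
  exact ⟨Y, h1, h2⟩

omit [DecidableEq n] in
theorem ric_trunc_herm {a b : ℝ} (_hab : a ≤ b) {W : ℝ → Matrix n n ℂ}
    (hW : ∀ x ∈ Icc a b, (W x).IsHermitian) {E : Matrix n n ℂ} (hE : E.IsHermitian) {R : ℝ}
    (hR : 0 ≤ R) {Y : ℝ → n → n → ℂ} (h0 : ∀ i j, star (Y a j i) = Y a i j)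
    (hY : ∀ x ∈ Icc a b, HasDerivWithinAt Y (ricF R W E x (Y x)) (Icc a b) x) :
    ∀ x ∈ Icc a b, ∀ i j, star (Y x j i) = Y x i j := by
  intro x hx i j
  have hYij : ∀ x ∈ Icc a b, ∀ i j, HasDerivWithinAt (fun t => Y t i j)
      (ricF R W E x (Y x) i j) (Icc a b) x := by
    intro x hx i j
    exact hasDerivWithinAt_pi.1 (hasDerivWithinAt_pi.1 (hY x hx) i) j
  have hd : ∀ t ∈ Icc a b, HasDerivWithinAt (fun t => star (Y t j i) - Y t i j) 0 (Icc a b) t := by
    intro t ht
    have h1 := ((hYij t ht j i).star).sub (hYij t ht i j)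
    rw [ricF_star hR hE (hW t ht), sub_self] at h1
    exact h1
  have hcst := constant_of_has_deriv_right_zero (f := fun t => star (Y t j i) - Y t i j)
    (a := a) (b := b) (fun t ht => (hd t ht).continuousWithinAt)
    (fun t ht => (hd t ⟨ht.1, ht.2.le⟩).mono_of_mem_nhdsWithin (Icc_mem_nhdsGE_of_mem ht)) x hx
  have h1 : star (Y x j i) - Y x i j = star (Y a j i) - Y a i j := hcst
  rw [h0, sub_self] at h1
  exact sub_eq_zero.1 h1

theorem ric_exists {a b : ℝ} (hab : a ≤ b) {W : ℝ → Matrix n n ℂ} (hWc : ContinuousOn W (Icc a b))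
    (hW : ∀ x ∈ Icc a b, (W x).PosSemidef) {E : Matrix n n ℂ} (hE : E.PosSemidef)
    {Z Z' : ℝ → Matrix n n ℂ} (hZH : ∀ x ∈ Icc a b, (Z x).IsHermitian)
    (hZ : HasMD Z Z' a b) (hsup : ∀ x ∈ Icc a b, (Z' x - (Z x * Z x - E + W x)).PosSemidef)
    (ha : (Z a + msqrt E).PosSemidef) : ∃ Y : ℝ → Matrix n n ℂ, IsRic a b W E Y := by
  have hZc : ∀ i j, ContinuousOn (fun x => Z x i j) (Icc a b) :=
    fun i j x hx => (hZ x hx i j).continuousWithinAt
  have htr : ContinuousOn (fun x => rtr (msqrt E + Z x)) (Icc a b) := by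
    unfold rtr
    refine Complex.continuous_re.comp_continuousOn ?_
    unfold Matrix.trace
    refine continuousOn_finsetSum _ (fun i _ => ?_)
    exact continuousOn_const.add (hZc i i)
  obtain ⟨B, hB⟩ := isCompact_Icc.exists_bound_of_continuousOn htr
  obtain ⟨CK, hCK0, hCK⟩ : ∃ CK, 0 ≤ CK ∧ ∀ i j, ‖msqrt E i j‖ ≤ CK := by
    refine ⟨∑ i, ∑ j, ‖msqrt E i j‖, by positivity, ?_⟩
    intro i j
    calc ‖msqrt E i j‖ ≤ ∑ j, ‖msqrt E i j‖ := Finset.single_le_sum
          (f := fun j => ‖msqrt E i j‖) (fun j _ => norm_nonneg _) (Finset.mem_univ j)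
      _ ≤ ∑ i, ∑ j, ‖msqrt E i j‖ := Finset.single_le_sum
          (f := fun i => ∑ j, ‖msqrt E i j‖)
          (fun i _ => Finset.sum_nonneg fun j _ => norm_nonneg _) (Finset.mem_univ i)
  obtain ⟨R, hR⟩ : ∃ R, R = CK + |B| + 1 := ⟨_, rfl⟩
  have hR0 : 0 < R := by rw [hR]; positivity
  obtain ⟨Y, hYa, hY⟩ := ric_trunc hab hWc E hR0.le (fun i j => - (msqrt E i j))
  have hYij : ∀ x ∈ Icc a b, ∀ i j, HasDerivWithinAt (fun t => Y t i j)
      (ricF R W E x (Y x) i j) (Icc a b) x := by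
    intro x hx i j
    exact hasDerivWithinAt_pi.1 (hasDerivWithinAt_pi.1 (hY x hx) i) j
  have hYc : ContinuousOn Y (Icc a b) := fun x hx => (hY x hx).continuousWithinAt
  have hherm := ric_trunc_herm hab (fun x hx => (hW x hx).isHermitian) hE.isHermitian hR0.le
    (Y := Y) (by
      intro i j
      rw [hYa]
      show star (-(msqrt E j i)) = -(msqrt E i j)
      rw [star_neg, (msqrt_posSemidef E).isHermitian.apply i j]) hY
  -- the solution as long as it stays in the ball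
  have hric : ∀ x ∈ Icc a b, (∀ t ∈ Icc a x, ∀ i j, ‖Y t i j‖ ≤ R) →
      IsRic a x W E (fun t => Matrix.of (Y t)) := by
    intro x hx hbd
    refine ⟨?_, ?_, ?_⟩
    · intro t ht
      apply Matrix.IsHermitian.ext
      intro i j
      exact hherm t ⟨ht.1, ht.2.trans hx.2⟩ i j
    · ext i j
      show Y a i j = _
      rw [hYa]
      rfl
    · intro t ht i j
      have h1 := (hYij t ⟨ht.1, ht.2.trans hx.2⟩ i j).mono (Icc_subset_Icc_right hx.2)
      rw [ricF_eq W E t (hherm t ⟨ht.1, ht.2.trans hx.2⟩) (hbd t ht)] at h1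
      exact h1
  have key : ∀ x ∈ Icc a b, (∀ t ∈ Icc a x, ∀ i j, ‖Y t i j‖ ≤ R) → ∀ i j, ‖Y x i j‖ < R := by
    intro x hx hbd i j
    have hRic := hric x hx hbd
    have hP := ric_ge hx.1 (fun t ht => hW t ⟨ht.1, ht.2.trans hx.2⟩) hE hRic x
      (right_mem_Icc.2 hx.1)
    have hQ := ric_comp hx.1 hRic (fun t ht => hZH t ⟨ht.1, ht.2.trans hx.2⟩)
      (fun t ht i j => (hZ t ⟨ht.1, ht.2.trans hx.2⟩ i j).mono (Icc_subset_Icc_right hx.2))
      (fun t ht => hsup t ⟨ht.1, ht.2.trans hx.2⟩) ha x (right_mem_Icc.2 hx.1)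
    have h1 := norm_entry_le_rtr hP i j
    have h2 := rtr_nonneg hQ
    have h3 : rtr (msqrt E + Matrix.of (Y x)) + rtr (Z x - Matrix.of (Y x)) =
        rtr (msqrt E + Z x) := by
      unfold rtr
      rw [← Complex.add_re, ← Matrix.trace_add]
      congr 2
      abel
    have h4 : rtr (msqrt E + Z x) ≤ |B| := by
      have h5 := hB x hx
      rw [Real.norm_eq_abs] at h5
      exact ((le_abs_self _).trans h5).trans (le_abs_self _)
    have h6 : Y x i j = (msqrt E + Matrix.of (Y x)) i j - msqrt E i j := by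
      show Y x i j = (msqrt E i j + Y x i j) - msqrt E i j
      ring
    have h7 := norm_sub_le ((msqrt E + Matrix.of (Y x)) i j) (msqrt E i j)
    rw [← h6] at h7
    have h8 := hCK i j
    rw [hR]
    linarith
  have hnorm : ∀ x, (∀ i j, ‖Y x i j‖ < R) → ‖Y x‖ < R := by
    intro x h
    rw [pi_norm_lt_iff hR0]
    intro i
    rw [pi_norm_lt_iff hR0]
    exact h i
  have hentry : ∀ x i j, ‖Y x i j‖ ≤ ‖Y x‖ := fun x i j =>
    (norm_le_pi_norm (Y x i) j).trans (norm_le_pi_norm (Y x) i)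
  have hall : ∀ x ∈ Icc a b, ‖Y x‖ < R := by
    by_contra hcon
    push Not at hcon
    obtain ⟨x0, hx0, hx0R⟩ := hcon
    have hScl : IsClosed (Icc a b ∩ (fun x => ‖Y x‖) ⁻¹' Ici R) :=
      hYc.norm.preimage_isClosed_of_isClosed isClosed_Icc isClosed_Ici
    have hSc : IsCompact (Icc a b ∩ (fun x => ‖Y x‖) ⁻¹' Ici R) :=
      isCompact_Icc.of_isClosed_subset hScl inter_subset_left
    obtain ⟨x1, hx1, hleast⟩ := hSc.exists_isLeast ⟨x0, hx0, hx0R⟩
    have hlt : ∀ t ∈ Ico a x1, ‖Y t‖ < R := by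
      intro t ht
      by_contra h
      have h1 := hleast (show t ∈ Icc a b ∩ (fun x => ‖Y x‖) ⁻¹' Ici R from
        ⟨⟨ht.1, ht.2.le.trans hx1.1.2⟩, not_lt.1 h⟩)
      exact absurd ht.2 (not_lt.2 h1)
    have hax1 : a < x1 := by
      rcases hx1.1.1.lt_or_eq with h | h
      · exact h
      · exfalso
        have h1 : ‖Y a‖ < R := by
          apply hnorm
          intro i j
          rw [hYa]
          show ‖-(msqrt E i j)‖ < R
          rw [norm_neg]
          have h2 := hCK i j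
          have h3 := abs_nonneg B
          rw [hR]
          linarith
        have h2 : R ≤ ‖Y x1‖ := hx1.2
        rw [← h] at h2
        linarith
    have hle : ∀ t ∈ Icc a x1, ‖Y t‖ ≤ R := by
      have hcl : IsClosed (Icc a x1 ∩ (fun x => ‖Y x‖) ⁻¹' Iic R) :=
        (hYc.mono (Icc_subset_Icc_right hx1.1.2)).norm.preimage_isClosed_of_isClosed
          isClosed_Icc isClosed_Iic
      have hsub : Ico a x1 ⊆ Icc a x1 ∩ (fun x => ‖Y x‖) ⁻¹' Iic R :=
        fun t ht => ⟨⟨ht.1, ht.2.le⟩, (hlt t ht).le⟩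
      have h1 := closure_minimal hsub hcl
      rw [closure_Ico hax1.ne] at h1
      intro t ht
      exact (h1 ht).2
    have h1 := hnorm x1 (key x1 hx1.1 (fun t ht i j => (hentry t i j).trans (hle t ht)))
    have h2 : R ≤ ‖Y x1‖ := hx1.2
    linarith
  exact ⟨fun t => Matrix.of (Y t), hric b (right_mem_Icc.2 hab)
    (fun t ht i j => (hentry t i j).trans (hall t ht).le)⟩

end Vale.Agent.P371.Gen
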