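import Vale.Agent.Lib.P371.Gen.RicAdm
import Vale.Agent.Lib.P371.Gen.Cont

/-! # P371 Gen: openness of the admissible set (module RicOpen)

`adm_open`: let `Y₁` be the solution for `E₁` with `√E₁ - Y₁ b` positive definite and `E₁` positive
definite, `Φ` Hermitian. For small `t > 0`, `E₁ - t Φ ∈ Adm`. Proof: let `κ` bound the eigenvalues
of `√E₁`, `c = 2 κ + 2`, `Z(x) = Y₁(x) + μ e^{c (x - a)} 1`. Then
`Z' - (Z^2 - (E₁ - tΦ) + W) = μ e^{c(x-a)} (c - 2 Y₁ - μ e^{c(x-a)}) - t Φ ≥ 0` if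
`μ e^{c(b-a)} ≤ 1` and `t ‖Φ‖ ≤ μ`. Initial value: `Z a + √(E₁ - tΦ) = √(E₁ - tΦ) - √E₁ + μ ≥ 0`
for `t` small (continuity of the square root), end value:
`√(E₁ - tΦ) - Z b = √E₁ - Y₁ b - μ e^{c(b-a)} + (√(E₁ - tΦ) - √E₁) ≥ 0` for `μ` and then `t`
small. Also `E₁ - tΦ ≥ 0` for small `t`. Apply `ric_exists`, `ric_comp`.

`adm_dir`: let `E ∈ Adm`, `Φ = √E - Y b ≥ 0`, `Φ ≠ 0`. Let `P` be the orthogonal projection onto
`ker Φ` (`P = mf (fun t => if t = 0 then 1 else 0) Φ`). Facts: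
* `ker E ⊆ ker Φ`: if `E v = 0` then `√E v = 0`, and `-√E ≤ Y b ≤ √E` (`ric_ge`) gives
  `⟨v, (√E ± Y b) v⟩ ≥ 0` with `√E v = 0`, so `⟨v, Y b v⟩ = 0`, `(√E + Y b) v = 0`, `Y b v = 0`.
* `E₁ = E + P` is positive definite: `⟨v, (E + P) v⟩ = 0` gives `E v = 0`, `P v = 0`, but `E v = 0`
  gives `Φ v = 0`, `P v = v`, so `v = 0`.
* by `adm_of_le` the solution `Y₁` for `E₁` exists and `Y₁ ≤ Y`. So
  `√E₁ - Y₁ b ≥ (√E₁ - √E) + Φ`, and this is positive definite: if `⟨v, . v⟩ = 0` then `Φ v = 0`,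
  `P v = v`, and `(√E₁ - √E) v = 0` (it is `≥ 0`), so `|√E₁ v|^2 = |√E v|^2`, i.e.
  `⟨v, P v⟩ = 0`, `v = 0`.
* `adm_open`: for small `t`, `E + P - tΦ ∈ Adm`. Take `H = P - tΦ`:
  `tr (Φ H) = - t tr Φ^2 < 0`, `tr H ≤ tr P ≤ N`. -/

open Matrix Set MeasureTheory
open scoped ComplexOrder

namespace Vale.Agent.P371.Gen

variable {n : Type*} [Fintype n] [DecidableEq n]

omit [Fintype n] [DecidableEq n] in
theorem ro_smul_psd {A : Matrix n n ℂ} (hA : A.PosSemidef) {c : ℝ} (hc : 0 ≤ c) :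
    ((c : ℂ) • A).PosSemidef :=
  hA.smul (by exact_mod_cast hc)

theorem ro_one_psd {c : ℝ} (hc : 0 ≤ c) : ((c : ℂ) • (1 : Matrix n n ℂ)).PosSemidef :=
  ro_smul_psd PosSemidef.one hc

/-- A positive definite matrix is bounded below by a positive multiple of the identity. -/
theorem ro_lower {D : Matrix n n ℂ} (hD : D.PosDef) :
    ∃ δ : ℝ, 0 < δ ∧ (D - (δ : ℂ) • (1 : Matrix n n ℂ)).PosSemidef := by
  have hH := hD.isHermitian
  have hpos : ∀ i, 0 < hH.eigenvalues i := fun i => hD.eigenvalues_pos i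
  have hS : 0 ≤ ∑ i, (hH.eigenvalues i)⁻¹ :=
    Finset.sum_nonneg fun i _ => (inv_pos.2 (hpos i)).le
  refine ⟨(1 + ∑ i, (hH.eigenvalues i)⁻¹)⁻¹, by positivity, ?_⟩
  have h1 : D - (((1 + ∑ i, (hH.eigenvalues i)⁻¹)⁻¹ : ℝ) : ℂ) • (1 : Matrix n n ℂ) =
      mf (fun t => t - (1 + ∑ i, (hH.eigenvalues i)⁻¹)⁻¹) D := by
    rw [mf_sub hH (fun t => t) (fun _ => (1 + ∑ i, (hH.eigenvalues i)⁻¹)⁻¹), mf_id hH,
      mf_const hH]
  rw [h1]
  apply mf_posSemidef hH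
  intro i
  have h2 : (hH.eigenvalues i)⁻¹ ≤ 1 + ∑ i, (hH.eigenvalues i)⁻¹ := by
    have := Finset.single_le_sum (f := fun i => (hH.eigenvalues i)⁻¹)
      (fun i _ => (inv_pos.2 (hpos i)).le) (Finset.mem_univ i)
    linarith
  have h3 := inv_anti₀ (inv_pos.2 (hpos i)) h2
  rw [inv_inv] at h3
  linarith

/-- A Hermitian matrix is bounded above by a positive multiple of the identity. -/
theorem ro_upper {A : Matrix n n ℂ} (hA : A.IsHermitian) :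
    ∃ M : ℝ, 0 < M ∧ ((M : ℂ) • (1 : Matrix n n ℂ) - A).PosSemidef := by
  have hS : 0 ≤ ∑ i, |hA.eigenvalues i| := Finset.sum_nonneg fun i _ => abs_nonneg _
  refine ⟨1 + ∑ i, |hA.eigenvalues i|, by positivity, ?_⟩
  have h1 : (((1 + ∑ i, |hA.eigenvalues i| : ℝ)) : ℂ) • (1 : Matrix n n ℂ) - A =
      mf (fun t => (1 + ∑ i, |hA.eigenvalues i|) - t) A := by
    rw [mf_sub hA (fun _ => (1 + ∑ i, |hA.eigenvalues i|)) (fun t => t), mf_id hA,
      mf_const hA]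
  rw [h1]
  apply mf_posSemidef hA
  intro i
  have := Finset.single_le_sum (f := fun i => |hA.eigenvalues i|)
      (fun i _ => abs_nonneg _) (Finset.mem_univ i)
  linarith [le_abs_self (hA.eigenvalues i)]

theorem adm_open {a b : ℝ} (hab : a ≤ b) {W : ℝ → Matrix n n ℂ}
    (hWc : ContinuousOn W (Icc a b)) (hW : ∀ x ∈ Icc a b, (W x).PosSemidef)
    {E₁ Φ : Matrix n n ℂ} {Y₁ : ℝ → Matrix n n ℂ} (hE₁ : E₁.PosDef) (hΦ : Φ.IsHermitian)
    (hR : IsRic a b W E₁ Y₁) (hend : (msqrt E₁ - Y₁ b).PosDef) :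
    ∃ t₀ : ℝ, 0 < t₀ ∧ ∀ t : ℝ, 0 < t → t ≤ t₀ → E₁ - (t : ℂ) • Φ ∈ Adm a b W := by
  have hK₁ := msqrt_posSemidef E₁
  have hKK : msqrt E₁ * msqrt E₁ = E₁ := msqrt_mul_self hE₁.posSemidef
  have hK₁d : (msqrt E₁).PosDef :=
    mf_posDef hE₁.isHermitian fun i => Real.sqrt_pos.2 (hE₁.eigenvalues_pos i)
  obtain ⟨κ₀, hκ₀, hκ₀'⟩ := ro_lower hK₁d
  obtain ⟨δ, hδ, hδ'⟩ := ro_lower hend
  obtain ⟨κ, hκ, hκ'⟩ := ro_upper hK₁.isHermitian
  obtain ⟨M, hM, hM'⟩ := ro_upper hΦ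
  have hle := ric_le hab hW hE₁.posSemidef hR hend.posSemidef
  obtain ⟨c, hc⟩ : ∃ c, c = 2 * κ + 2 := ⟨_, rfl⟩
  obtain ⟨e, he⟩ : ∃ e, e = Real.exp (c * (b - a)) := ⟨_, rfl⟩
  have hepos : 0 < e := by rw [he]; exact Real.exp_pos _
  have hc0 : 0 < c := by rw [hc]; linarith
  have he1 : 1 ≤ e := by
    rw [he]
    exact Real.one_le_exp (mul_nonneg hc0.le (by linarith))
  obtain ⟨μ, hμ⟩ : ∃ μ, μ = min 1 (δ / 2) / e := ⟨_, rfl⟩
  have hmin : 0 < min 1 (δ / 2) := lt_min one_pos (by linarith)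
  have hμ0 : 0 < μ := by rw [hμ]; positivity
  have hμe : μ * e = min 1 (δ / 2) := by rw [hμ]; field_simp
  have hμe1 : μ * e ≤ 1 := by rw [hμe]; exact min_le_left _ _
  have hμe2 : μ * e ≤ δ / 2 := by rw [hμe]; exact min_le_right _ _
  have hμle : μ ≤ μ * e := le_mul_of_one_le_right hμ0.le he1
  obtain ⟨η, hη⟩ : ∃ η, η = min μ κ₀ := ⟨_, rfl⟩
  have hη0 : 0 < η := by rw [hη]; exact lt_min hμ0 hκ₀
  have hημ : η ≤ μ := by rw [hη]; exact min_le_left _ _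
  have hηκ : η ≤ κ₀ := by rw [hη]; exact min_le_right _ _
  refine ⟨min (η * κ₀) μ / M, by positivity, ?_⟩
  intro t ht ht0
  have htM : t * M ≤ min (η * κ₀) μ := by rwa [le_div_iff₀ hM] at ht0
  have htM1 : t * M ≤ η * κ₀ := htM.trans (min_le_left _ _)
  have htM2 : t * M ≤ μ := htM.trans (min_le_right _ _)
  obtain ⟨E', hE'⟩ : ∃ E', E' = E₁ - (t : ℂ) • Φ := ⟨_, rfl⟩
  rw [← hE']
  -- the square root
  have hKη : (msqrt E₁ - (η : ℂ) • (1 : Matrix n n ℂ)).PosSemidef := by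
    have h1 : msqrt E₁ - (η : ℂ) • (1 : Matrix n n ℂ) =
        (msqrt E₁ - (κ₀ : ℂ) • (1 : Matrix n n ℂ)) + ((κ₀ - η : ℝ) : ℂ) • (1 : Matrix n n ℂ) := by
      push_cast
      module
    rw [h1]
    exact hκ₀'.add (ro_one_psd (by linarith))
  have hdiff : (E' - (msqrt E₁ - (η : ℂ) • (1 : Matrix n n ℂ)) *
      (msqrt E₁ - (η : ℂ) • (1 : Matrix n n ℂ))).PosSemidef := by
    have h1 : E' - (msqrt E₁ - (η : ℂ) • (1 : Matrix n n ℂ)) *
        (msqrt E₁ - (η : ℂ) • (1 : Matrix n n ℂ)) =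
        ((2 * η : ℝ) : ℂ) • (msqrt E₁ - (κ₀ : ℂ) • (1 : Matrix n n ℂ)) +
          (t : ℂ) • ((M : ℂ) • (1 : Matrix n n ℂ) - Φ) +
          ((2 * η * κ₀ - η * η - t * M : ℝ) : ℂ) • (1 : Matrix n n ℂ) := by
      rw [hE', sub_mul, mul_sub, mul_sub, hKK]
      simp only [Matrix.smul_mul, Matrix.mul_smul, Matrix.one_mul, Matrix.mul_one]
      push_cast
      module
    rw [h1]
    refine ((ro_smul_psd hκ₀' (by linarith)).add (ro_smul_psd hM' ht.le)).add (ro_one_psd ?_)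
    nlinarith
  have hsq : ((msqrt E₁ - (η : ℂ) • (1 : Matrix n n ℂ)) *
      (msqrt E₁ - (η : ℂ) • (1 : Matrix n n ℂ))).PosSemidef := by
    have h1 := Matrix.posSemidef_conjTranspose_mul_self
      (msqrt E₁ - (η : ℂ) • (1 : Matrix n n ℂ))
    rwa [hKη.isHermitian.eq] at h1
  have hE'p : E'.PosSemidef := by
    have h1 := hdiff.add hsq
    rwa [sub_add_cancel] at h1
  have hS : (msqrt E' - (msqrt E₁ - (η : ℂ) • (1 : Matrix n n ℂ))).PosSemidef := by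
    apply le_of_sq_le hKη (msqrt_posSemidef E')
    rw [msqrt_mul_self hE'p]
    exact hdiff
  -- the supersolution
  obtain ⟨m, hm⟩ : ∃ m : ℝ → ℝ, m = fun x => μ * Real.exp (c * (x - a)) := ⟨_, rfl⟩
  have hmx : ∀ x, m x = μ * Real.exp (c * (x - a)) := fun x => by rw [hm]
  have hma : m a = μ := by rw [hmx]; simp
  have hmb : m b = μ * e := by rw [hmx, he]
  have hmle : ∀ x ∈ Icc a b, m x ≤ 1 := by
    intro x hx
    refine le_trans ?_ hμe1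
    rw [hmx, he]
    apply mul_le_mul_of_nonneg_left _ hμ0.le
    apply Real.exp_le_exp.2
    exact mul_le_mul_of_nonneg_left (by linarith [hx.2]) hc0.le
  have hmge : ∀ x ∈ Icc a b, μ ≤ m x := by
    intro x hx
    rw [hmx]
    apply le_mul_of_one_le_right hμ0.le
    exact Real.one_le_exp (mul_nonneg hc0.le (by linarith [hx.1]))
  have hmd : ∀ x, HasDerivAt m (c * m x) x := by
    intro x
    have h1 : HasDerivAt (fun x => μ * Real.exp (c * (x - a)))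
        (μ * (Real.exp (c * (x - a)) * (c * 1))) x :=
      ((((hasDerivAt_id x).sub_const a).const_mul c).exp).const_mul μ
    rw [hmx, hm]
    refine h1.congr_deriv ?_
    ring
  obtain ⟨Z, hZd⟩ : ∃ Z : ℝ → Matrix n n ℂ,
      Z = fun x => Y₁ x + ((m x : ℝ) : ℂ) • (1 : Matrix n n ℂ) := ⟨_, rfl⟩
  have hZx : ∀ x, Z x = Y₁ x + ((m x : ℝ) : ℂ) • (1 : Matrix n n ℂ) := fun x => by rw [hZd]
  obtain ⟨Z', hZ'd⟩ : ∃ Z' : ℝ → Matrix n n ℂ,
      Z' = fun x => (Y₁ x * Y₁ x - E₁ + W x) + ((c * m x : ℝ) : ℂ) • (1 : Matrix n n ℂ) :=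
    ⟨_, rfl⟩
  have hZ'x : ∀ x, Z' x = (Y₁ x * Y₁ x - E₁ + W x) + ((c * m x : ℝ) : ℂ) • (1 : Matrix n n ℂ) :=
    fun x => by rw [hZ'd]
  have hone : ∀ r : ℝ, ((r : ℂ) • (1 : Matrix n n ℂ)).IsHermitian := by
    intro r
    rw [Matrix.IsHermitian, Matrix.conjTranspose_smul, Matrix.conjTranspose_one]
    congr 1
    exact Complex.conj_ofReal r
  have hZH : ∀ x ∈ Icc a b, (Z x).IsHermitian := by
    intro x hx
    rw [hZx]
    exact (hR.herm x hx).add (hone _)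
  have hZ : HasMD Z Z' a b := by
    intro x hx i j
    have h1 := hR.deriv x hx i j
    have h2 : HasDerivWithinAt (fun t => ((m t : ℝ) : ℂ) * (1 : Matrix n n ℂ) i j)
        (((c * m x : ℝ) : ℂ) * (1 : Matrix n n ℂ) i j) (Icc a b) x :=
      ((hmd x).ofReal_comp.hasDerivWithinAt).mul_const _
    have h3 := h1.add h2
    rw [hZ'x, hZd]
    exact h3
  have hsup : ∀ x ∈ Icc a b, (Z' x - (Z x * Z x - E' + W x)).PosSemidef := by
    intro x hx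
    have h1 : Z' x - (Z x * Z x - E' + W x) =
        ((2 * m x : ℝ) : ℂ) • ((κ : ℂ) • (1 : Matrix n n ℂ) - msqrt E₁) +
        ((2 * m x : ℝ) : ℂ) • (msqrt E₁ - Y₁ x) +
        (t : ℂ) • ((M : ℂ) • (1 : Matrix n n ℂ) - Φ) +
        ((c * m x - m x * m x - 2 * m x * κ - t * M : ℝ) : ℂ) • (1 : Matrix n n ℂ) := by
      rw [hZ'x, hZx, hE', add_mul, mul_add, mul_add]
      simp only [Matrix.smul_mul, Matrix.mul_smul, Matrix.one_mul, Matrix.mul_one]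
      push_cast
      module
    rw [h1]
    have hm0 := hmge x hx
    have hm1 := hmle x hx
    have hmp : 0 < m x := hμ0.trans_le hm0
    refine (((ro_smul_psd hκ' (by linarith)).add (ro_smul_psd (hle x hx) (by linarith))).add
      (ro_smul_psd hM' ht.le)).add (ro_one_psd ?_)
    rw [hc]
    nlinarith
  have hinit : (Z a + msqrt E').PosSemidef := by
    have h1 : Z a + msqrt E' = (msqrt E' - (msqrt E₁ - (η : ℂ) • (1 : Matrix n n ℂ))) +
        ((μ - η : ℝ) : ℂ) • (1 : Matrix n n ℂ) := by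
      rw [hZx, hR.init, hma]
      push_cast
      module
    rw [h1]
    exact hS.add (ro_one_psd (by linarith))
  obtain ⟨Y, hY⟩ := ric_exists hab hWc hW hE'p hZH hZ hsup hinit
  have hcomp := ric_comp hab hY hZH hZ hsup hinit b ⟨hab, le_rfl⟩
  refine ⟨hE'p, Y, hY, ?_⟩
  have h1 : msqrt E' - Y b = (msqrt E' - (msqrt E₁ - (η : ℂ) • (1 : Matrix n n ℂ))) +
      (msqrt E₁ - Y₁ b - (δ : ℂ) • (1 : Matrix n n ℂ)) + (Z b - Y b) +
      ((δ - η - μ * e : ℝ) : ℂ) • (1 : Matrix n n ℂ) := by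
    rw [hZx, hmb]
    push_cast
    module
  rw [h1]
  exact ((hS.add hδ').add hcomp).add (ro_one_psd (by linarith))

end Vale.Agent.P371.Gen
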