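import Vale.Agent.Lib.P371.Gen.Base

/-! # P371 Gen: scalar integrals, logarithm (module Scalar)

`0 < θ < 1`. Near `0`: `log (1 + 1/l) ≤ C l^{-θ/2}`; near infinity `log (1+1/l) ≤ 1/l`.
`int_log`: substitution `l = x t`. `int_sig`: `(d/dx) sig l x = log (1 + x/l)` and
`0 ≤ sig l x`, so by Tonelli `∫ l^{θ-1} sig l x dl = ∫_0^x kap θ u^θ du`
(`sig l x = ∫_0^x log (1 + u/l) du`). -/

open Set MeasureTheory

namespace Vale.Agent.P371.Gen

theorem sig_nonneg {l x : ℝ} (hl : 0 < l) (hx : 0 ≤ x) : 0 ≤ sig l x := by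
  unfold sig
  have h1 : 0 < x + l := by linarith
  have h2 : 1 + x / l = (x + l) / l := by
    field_simp
    ring
  have h3 := Real.one_sub_inv_le_log_of_pos (div_pos h1 hl)
  rw [h2]
  have h4 : (x + l) * (1 - ((x + l) / l)⁻¹) = x := by
    rw [inv_div]
    field_simp
    ring
  have h5 := mul_le_mul_of_nonneg_left h3 h1.le
  linarith

/-- `log (1 + y) ≤ y ^ a / a` for `0 < a ≤ 1`. -/
private theorem scalar_log_le {a y : ℝ} (ha : 0 < a) (ha1 : a ≤ 1) (hy : 0 ≤ y) :
    Real.log (1 + y) ≤ y ^ a / a := by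
  have h1 : (1 + y) ^ a ≤ 1 + y ^ a := by
    have h := Real.rpow_add_le_add_rpow (zero_le_one) hy ha.le ha1
    rwa [Real.one_rpow] at h
  have h2 : a * Real.log (1 + y) ≤ y ^ a := by
    rw [← Real.log_rpow (by linarith)]
    have h3 : 0 < (1 + y) ^ a := Real.rpow_pos_of_pos (by linarith) a
    have h4 := Real.log_le_sub_one_of_pos h3
    linarith
  rw [le_div_iff₀ ha]
  linarith

private theorem scalar_bound {θ a x l : ℝ} (ha : 0 < a) (ha1 : a ≤ 1) (hx : 0 ≤ x) (hl : 0 < l) :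
    l ^ (θ - 1) * Real.log (1 + x / l) ≤ x ^ a / a * l ^ (θ - 1 - a) := by
  have h1 := scalar_log_le ha ha1 (div_nonneg hx hl.le)
  have h2 := mul_le_mul_of_nonneg_left h1 (Real.rpow_nonneg hl.le (θ - 1))
  refine h2.trans (le_of_eq ?_)
  rw [Real.div_rpow hx hl.le, Real.rpow_sub hl (θ - 1) a]
  ring

private theorem scalar_nonneg {θ x l : ℝ} (hx : 0 ≤ x) (hl : 0 < l) :
    0 ≤ l ^ (θ - 1) * Real.log (1 + x / l) := by
  refine mul_nonneg (Real.rpow_nonneg hl.le _) (Real.log_nonneg ?_)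
  have := div_nonneg hx hl.le
  linarith

private theorem scalar_cont {θ x : ℝ} (hx : 0 ≤ x) :
    ContinuousOn (fun l : ℝ => l ^ (θ - 1) * Real.log (1 + x / l)) (Ioi 0) := by
  refine ContinuousOn.mul ?_ ?_
  · exact continuousOn_id.rpow_const fun l hl => Or.inl (ne_of_gt hl)
  · refine ContinuousOn.log ?_ ?_
    · exact continuousOn_const.add (continuousOn_const.div continuousOn_id fun l hl => ne_of_gt hl)
    · intro l hl
      have := div_nonneg hx (le_of_lt (show (0:ℝ) < l from hl))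
      linarith

theorem integrableOn_log {θ : ℝ} (h0 : 0 < θ) (h1 : θ < 1) {x : ℝ} (hx : 0 ≤ x) :
    IntegrableOn (fun l : ℝ => l ^ (θ - 1) * Real.log (1 + x / l)) (Ioi 0) := by
  have hun : Ioi (0 : ℝ) = Ioc 0 1 ∪ Ioi 1 := (Ioc_union_Ioi_eq_Ioi zero_le_one).symm
  rw [hun]
  refine IntegrableOn.union ?_ ?_
  · have hi : IntegrableOn (fun l : ℝ => x ^ (θ / 2) / (θ / 2) * l ^ (θ - 1 - θ / 2)) (Ioc 0 1) := by
      refine Integrable.const_mul ?_ _
      exact (intervalIntegrable_iff_integrableOn_Ioc_of_le zero_le_one).1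
        (intervalIntegral.intervalIntegrable_rpow' (by linarith))
    refine Integrable.mono' hi ?_ ?_
    · exact ((scalar_cont hx).mono Ioc_subset_Ioi_self).aestronglyMeasurable measurableSet_Ioc
    · filter_upwards [ae_restrict_mem measurableSet_Ioc] with l hl
      rw [Real.norm_of_nonneg (scalar_nonneg hx hl.1)]
      exact scalar_bound (by linarith) (by linarith) hx hl.1
  · have hi : IntegrableOn (fun l : ℝ => x ^ (1 : ℝ) / 1 * l ^ (θ - 1 - 1)) (Ioi 1) := by
      refine Integrable.const_mul ?_ _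
      exact integrableOn_Ioi_rpow_of_lt (by linarith) one_pos
    refine Integrable.mono' hi ?_ ?_
    · exact ((scalar_cont hx).mono (Ioi_subset_Ioi zero_le_one)).aestronglyMeasurable
        measurableSet_Ioi
    · filter_upwards [ae_restrict_mem measurableSet_Ioi] with l hl
      have hl0 : (0 : ℝ) < l := lt_trans one_pos hl
      rw [Real.norm_of_nonneg (scalar_nonneg hx hl0)]
      exact scalar_bound one_pos le_rfl hx hl0

theorem kap_pos {θ : ℝ} (h0 : 0 < θ) (h1 : θ < 1) : 0 < kap θ := by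
  unfold kap
  have hpos : ∀ l ∈ Ioi (0 : ℝ), 0 < l ^ (θ - 1) * Real.log (1 + 1 / l) := by
    intro l hl
    have hl' : (0 : ℝ) < l := hl
    refine mul_pos (Real.rpow_pos_of_pos hl' _) (Real.log_pos ?_)
    have : 0 < 1 / l := by positivity
    linarith
  rw [setIntegral_pos_iff_support_of_nonneg_ae ?_ (integrableOn_log h0 h1 zero_le_one)]
  · have hsub : Ioi (0 : ℝ) ⊆ Function.support (fun l : ℝ => l ^ (θ - 1) * Real.log (1 + 1 / l)) ∩
        Ioi 0 := fun l hl => ⟨(hpos l hl).ne', hl⟩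
    refine lt_of_lt_of_le ?_ (measure_mono hsub)
    rw [Real.volume_Ioi]
    exact ENNReal.zero_lt_top
  · filter_upwards [ae_restrict_mem measurableSet_Ioi] with l hl
    exact (hpos l hl).le

theorem int_log {θ : ℝ} (h0 : 0 < θ) (h1 : θ < 1) {x : ℝ} (hx : 0 ≤ x) :
    ∫ l in Ioi (0 : ℝ), l ^ (θ - 1) * Real.log (1 + x / l) = kap θ * x ^ θ := by
  rcases hx.eq_or_lt with h | h
  · rw [← h, Real.zero_rpow h0.ne', mul_zero]
    have h2 : ∀ l : ℝ, l ^ (θ - 1) * Real.log (1 + 0 / l) = 0 := by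
      intro l
      rw [zero_div, add_zero, Real.log_one, mul_zero]
    simp only [h2]
    exact integral_zero _ _
  · have h2 := integral_comp_mul_left_Ioi
      (fun l : ℝ => l ^ (θ - 1) * Real.log (1 + x / l)) 0 h
    rw [mul_zero, smul_eq_mul] at h2
    have h3 : ∫ t in Ioi (0 : ℝ), (x * t) ^ (θ - 1) * Real.log (1 + x / (x * t)) =
        x ^ (θ - 1) * kap θ := by
      unfold kap
      rw [← integral_const_mul]
      refine setIntegral_congr_fun measurableSet_Ioi fun t ht => ?_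
      have ht' : (0 : ℝ) < t := ht
      show (x * t) ^ (θ - 1) * Real.log (1 + x / (x * t)) =
        x ^ (θ - 1) * (t ^ (θ - 1) * Real.log (1 + 1 / t))
      rw [Real.mul_rpow h.le ht'.le]
      have h4 : x / (x * t) = 1 / t := by
        field_simp
      rw [h4]
      ring
    have h5 : ∫ l in Ioi (0 : ℝ), l ^ (θ - 1) * Real.log (1 + x / l) =
        x * (x⁻¹ * ∫ l in Ioi (0 : ℝ), l ^ (θ - 1) * Real.log (1 + x / l)) := by
      rw [← mul_assoc, mul_inv_cancel₀ h.ne', one_mul]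
    rw [h5, ← h2, h3]
    have h6 : x ^ θ = x * x ^ (θ - 1) := by
      rw [Real.rpow_sub_one h.ne']
      field_simp
    rw [h6]
    ring

end Vale.Agent.P371.Gen
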