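import Vale.Agent.Lib.P371.Gen.Fun
import Vale.Agent.Lib.P371.Kinetic

/-! # P371 Gen: matrix Young inequality and trace powers (module Young)

`young_mat`: `exists_ovl` and the scalar inequality `w d ≤ cp θ w^{1+θ} + d^{1+1/θ}`.
`tp_swap`: `V Vᴴ` and `Vᴴ V` have the same nonzero eigenvalues with multiplicity
(`Matrix.charpoly_mul_comm'` or so, or continuity and polynomials), and `0^q = 0`.
`tp_eq_trPow`: definitions. `tp_le`: `∑ e_i^q ≤ (∑ e_i)^q` for `q ≥ 1`, `e_i ≥ 0`.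
`tp_smul_rpow`: `tr (q A^s)^{1+θ} = q^{1+θ} tr A^{s(1+θ)}`, `s (1+θ) = 1 + 1/θ` for `s = 1/θ`,
and `cp θ (1+1/θ)^{1+θ} = 1/θ`. -/

open Matrix Set MeasureTheory
open scoped ComplexOrder

namespace Vale.Agent.P371.Gen

variable {n : Type*} [Fintype n] [DecidableEq n]

theorem young_sc {θ : ℝ} (h0 : 0 < θ) {a b : ℝ} (ha : 0 ≤ a) (hb : 0 ≤ b) :
    a * b ≤ cp θ * a ^ (1 + θ) + b ^ (1 + 1 / θ) := by
  have hp : 0 < 1 + θ := by linarith
  have hq : 0 < 1 + 1 / θ := by positivity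
  have hpq : (1 + θ).HolderConjugate (1 + 1 / θ) := by
    rw [Real.holderConjugate_iff]
    refine ⟨by linarith, ?_⟩
    field_simp
    ring
  set lam : ℝ := (1 + 1 / θ) ^ (1 / (1 + 1 / θ)) with hlam
  have hlam0 : 0 < lam := Real.rpow_pos_of_pos hq _
  have h1 := Real.young_inequality_of_nonneg (div_nonneg ha hlam0.le)
    (mul_nonneg hlam0.le hb) hpq
  have h2 : a / lam * (lam * b) = a * b := by field_simp
  have h3 : (lam * b) ^ (1 + 1 / θ) / (1 + 1 / θ) = b ^ (1 + 1 / θ) := by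
    rw [Real.mul_rpow hlam0.le hb, hlam, ← Real.rpow_mul hq.le, one_div_mul_cancel hq.ne',
      Real.rpow_one]
    field_simp
  have h4 : (a / lam) ^ (1 + θ) / (1 + θ) = cp θ * a ^ (1 + θ) := by
    rw [Real.div_rpow ha hlam0.le, hlam, ← Real.rpow_mul hq.le]
    have h5 : 1 / (1 + 1 / θ) * (1 + θ) = θ := by
      have : 1 + θ ≠ 0 := hp.ne'
      field_simp
      ring
    rw [h5]
    have h6 : (1 + 1 / θ) = (1 + θ) / θ := by field_simp; ring
    rw [h6, Real.div_rpow hp.le h0.le]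
    unfold cp
    have h7 : 0 < θ ^ θ := Real.rpow_pos_of_pos h0 _
    have h8 : 0 < (1 + θ) ^ θ := Real.rpow_pos_of_pos hp _
    rw [Real.rpow_add hp, Real.rpow_one]
    field_simp
  rw [h2, h3, h4] at h1
  exact h1

theorem young_mat {θ : ℝ} (h0 : 0 < θ) {W D : Matrix n n ℂ} (hW : W.PosSemidef)
    (hD : D.PosSemidef) : rtr (W * D) ≤ cp θ * tp (1 + θ) W + tp (1 + 1 / θ) D := by
  have hWH := hW.isHermitian
  have hDH := hD.isHermitian
  obtain ⟨w, hw0, hw1, hw2, hw⟩ := exists_ovl hWH hDH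
  have h1 : rtr (W * D) = ∑ i, ∑ j, w i j * (hWH.eigenvalues i * hDH.eigenvalues j) := by
    have h2 := hw (fun t => t) (fun t => t)
    rw [mf_id hWH, mf_id hDH] at h2
    exact h2
  have h2 : tp (1 + θ) W = ∑ i, ∑ j, w i j * (hWH.eigenvalues i) ^ (1 + θ) := by
    unfold tp
    rw [rtr_mf hWH]
    refine Finset.sum_congr rfl fun i _ => ?_
    rw [← Finset.sum_mul, hw1, one_mul]
  have h3 : tp (1 + 1 / θ) D = ∑ i, ∑ j, w i j * (hDH.eigenvalues j) ^ (1 + 1 / θ) := by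
    unfold tp
    rw [rtr_mf hDH, Finset.sum_comm]
    refine Finset.sum_congr rfl fun j _ => ?_
    rw [← Finset.sum_mul, hw2, one_mul]
  rw [h1, h2, h3, Finset.mul_sum, ← Finset.sum_add_distrib]
  refine Finset.sum_le_sum fun i _ => ?_
  rw [Finset.mul_sum, ← Finset.sum_add_distrib]
  refine Finset.sum_le_sum fun j _ => ?_
  have h4 := mul_le_mul_of_nonneg_left
    (young_sc h0 (hW.eigenvalues_nonneg i) (hD.eigenvalues_nonneg j)) (hw0 i j)
  refine h4.trans (le_of_eq ?_)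
  ring

theorem tp_swap {m : Type*} [Fintype m] [DecidableEq m] {q : ℝ} (hq : 0 < q) (V : Matrix m n ℂ) :
    tp q (V * Vᴴ) = tp q (Vᴴ * V) := by
  have hA : (V * Vᴴ).IsHermitian := isHermitian_mul_conjTranspose_self V
  have hB : (Vᴴ * V).IsHermitian := isHermitian_conjTranspose_mul_self V
  have h1 := Matrix.charpoly_mul_comm' V Vᴴ
  have hne1 : (Polynomial.X ^ Fintype.card n * (V * Vᴴ).charpoly : Polynomial ℂ) ≠ 0 :=
    mul_ne_zero (pow_ne_zero _ Polynomial.X_ne_zero) (Matrix.charpoly_monic _).ne_zero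
  have hne2 : (Polynomial.X ^ Fintype.card m * (Vᴴ * V).charpoly : Polynomial ℂ) ≠ 0 :=
    mul_ne_zero (pow_ne_zero _ Polynomial.X_ne_zero) (Matrix.charpoly_monic _).ne_zero
  have h2 := congrArg Polynomial.roots h1
  rw [Polynomial.roots_mul hne1, Polynomial.roots_mul hne2, Polynomial.roots_X_pow,
    Polynomial.roots_X_pow, hA.roots_charpoly_eq_eigenvalues,
    hB.roots_charpoly_eq_eigenvalues] at h2
  have h3 := congrArg (fun s : Multiset ℂ => (s.map (fun z => z.re ^ q)).sum) h2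
  simp only [Multiset.map_add, Multiset.sum_add, Multiset.map_nsmul, Multiset.map_singleton,
    Multiset.sum_nsmul, Multiset.sum_singleton, Complex.zero_re, Real.zero_rpow hq.ne',
    smul_zero, zero_add, Multiset.map_map] at h3
  unfold tp
  rw [rtr_mf hA, rtr_mf hB]
  exact h3

theorem tp_eq_trPow {m : ℕ} {M : Matrix (Fin m) (Fin m) ℂ} (hM : M.IsHermitian) (p : ℝ) :
    tp p M = trPow p M := by
  unfold tp trPow
  rw [rtr_mf hM, dif_pos hM]

theorem tp_nonneg {M : Matrix n n ℂ} (hM : M.PosSemidef) (p : ℝ) : 0 ≤ tp p M := by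
  unfold tp
  rw [rtr_mf hM.isHermitian]
  exact Finset.sum_nonneg fun i _ => Real.rpow_nonneg (hM.eigenvalues_nonneg i) _

theorem tp_le {M : Matrix n n ℂ} (hM : M.PosSemidef) {q : ℝ} (hq : 1 ≤ q) :
    tp q M ≤ (rtr M) ^ q := by
  have hH := hM.isHermitian
  have h1 : rtr M = ∑ i, hH.eigenvalues i := by
    conv_lhs => rw [← mf_id hH]
    rw [rtr_mf hH]
  unfold tp
  rw [rtr_mf hH, h1]
  set S := ∑ i, hH.eigenvalues i with hS
  have hS0 : 0 ≤ S := Finset.sum_nonneg fun i _ => hM.eigenvalues_nonneg i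
  have h2 : ∀ i, hH.eigenvalues i ^ q ≤ hH.eigenvalues i * S ^ (q - 1) := by
    intro i
    have h3 : hH.eigenvalues i ≤ S := Finset.single_le_sum
      (f := fun i => hH.eigenvalues i) (fun i _ => hM.eigenvalues_nonneg i) (Finset.mem_univ i)
    have h4 : hH.eigenvalues i ^ q = hH.eigenvalues i * hH.eigenvalues i ^ (q - 1) := by
      conv_rhs => rw [← Real.rpow_one_add' (hM.eigenvalues_nonneg i) (by linarith)]
      congr 1
      ring
    rw [h4]
    exact mul_le_mul_of_nonneg_left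
      (Real.rpow_le_rpow (hM.eigenvalues_nonneg i) h3 (by linarith)) (hM.eigenvalues_nonneg i)
  refine (Finset.sum_le_sum fun i _ => h2 i).trans (le_of_eq ?_)
  rw [← Finset.sum_mul, ← hS, ← Real.rpow_one_add' hS0 (by linarith)]
  congr 1
  ring

end Vale.Agent.P371.Gen
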